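import Vale.Agent.P195.Gamma.Twist
import Vale.Agent.P195.Corner

/-!
The refutation of the Auslander-Reiten conjecture from a linked family of complexes over a finite
dimensional algebra.
-/

namespace Vale.Agent.P195.Gamma

open CategoryTheory CategoryTheory.Abelian

universe u

variable {A : Type u} [Ring A]

/-- Extension groups vanish into the regular module if they vanish into a family of modules
through which its identity factors. -/
theorem subsingleton_ext_regular {ι : Type*} (s : Finset ι) (N : ι → ModuleCat.{u} A)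
    (p : ∀ t, ModuleCat.of A A ⟶ N t) (q : ∀ t, N t ⟶ ModuleCat.of A A)
    (hpq : ∑ t ∈ s, p t ≫ q t = 𝟙 (ModuleCat.of A A)) (M : ModuleCat.{u} A) (n : ℕ)
    (h : ∀ t ∈ s, ∀ e : Ext.{u} M (N t) n, e = 0) :
    Subsingleton (Ext.{u} M (ModuleCat.of A A) n) := by
  refine subsingleton_of_forall_eq 0 fun e => ?_
  let Φ : (ModuleCat.of A A ⟶ ModuleCat.of A A) →+ Ext.{u} M (ModuleCat.of A A) n :=
    { toFun := fun f => e.comp (Ext.mk₀ f) (add_zero n)
      map_zero' := by simp
      map_add' := fun f f' => by simp [Ext.mk₀_add, Ext.comp_add] }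
  have h1 : Φ (𝟙 _) = e := e.comp_mk₀_id
  rw [← h1, ← hpq, map_sum]
  refine Finset.sum_eq_zero fun t ht => ?_
  show e.comp (Ext.mk₀ (p t ≫ q t)) (add_zero n) = 0
  rw [← Ext.mk₀_comp_mk₀, ← Ext.comp_assoc_of_second_deg_zero, h t ht (e.comp (Ext.mk₀ (p t)) (add_zero n)), Ext.zero_comp]

/-- A point of a finite dimensional algebra whose linked resolution has exact cones refutes the
Auslander-Reiten conjecture. -/
theorem not_arc_of_twist {k : Type u} [Field k] [Algebra k A] [Module.Finite k A] {e : A}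
    (he : IsIdempotentElem e) (χ : A →ₐ[k] k) (hχ : χ e = 0)
    (hact : ∀ g : A, (1 - e) * g * (1 - e) - χ g • (1 - e) ∈
      Submodule.span A (Set.range fun p : A => e * p))
    (hhom : ∀ y : A, (∀ g, g * y = χ g • y) → y = 0)
    (W : Twist.{u, u} A) (H : Total.ConeExact W.dK W.dX W.φ)
    (ε : (W.Q 0 0 : Type u) →ₗ[A] ModuleCat.of A (Cor.Point χ))
    (εK : W.K 0 0 →+ ModuleCat.of A (Cor.Point χ))
    (hε : ∀ a, ε a = εK (W.lev 0 0 a).1) (hsurj : Function.Surjective ε)
    (hd : ∀ x, εK (W.dK 0 0 x) = 0) (hker : ∀ x, εK x = 0 → ∃ y, W.dK 0 0 y = x)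
    {ι : Type*} (s : Finset ι) (N : ι → ModuleCat.{u} A)
    (p : ∀ t, ModuleCat.of A A ⟶ N t) (q : ∀ t, N t ⟶ ModuleCat.of A A)
    (hpq : ∑ t ∈ s, p t ≫ q t = 𝟙 (ModuleCat.of A A)) (C : ∀ t ∈ s, W.Dual (N t)) :
    ∃ (B : Type u) (_ : Ring B) (_ : Algebra k B) (_ : Module.Finite k B) (M : ModuleCat.{u} B),
      Module.Finite B M ∧
      (∀ i : ℕ, 1 ≤ i → Subsingleton (Ext M M i) ∧ Subsingleton (Ext M (ModuleCat.of B B) i)) ∧
      ¬ Module.Projective B M :=
  haveI : IsNoetherianRing A :=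
    isNoetherian_of_tower k (isNoetherian_of_isNoetherianRing_of_finite k A)
  Cor.not_arc he χ hχ hact hhom fun n =>
    subsingleton_ext_regular s N p q hpq _ _ fun t ht e =>
      Twist.ext_eq_zero (C t ht) (H := H) (ε := ε) (εK := εK) (hε := hε) (hsurj := hsurj)
        (hd := hd) (hker := hker) n e

end Vale.Agent.P195.Gamma
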