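import Vale.Agent.P195.Gamma.DualData
import Vale.Agent.P195.Gamma.Reduce

/-!
The refutation of the Auslander-Reiten conjecture from exactness of the cones of the linked
complexes and of the maps out of them into the columns.
-/

namespace Vale.Agent.P195.Gamma

open CategoryTheory CategoryTheory.Abelian Model Matrix

/-- The augmentation of the corner piece. -/
noncomputable def eps00 :
    (twist.Q 0 0 : Type) →ₗ[Model.Gamma]
      ModuleCat.of Model.Gamma (Cor.Point (k := ℚ) (G := Model.Gamma) chi) :=
  omAug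

/-- The augmentation on the lower level. -/
noncomputable def eps00K :
    twist.K 0 0 →+ ModuleCat.of Model.Gamma (Cor.Point (k := ℚ) (G := Model.Gamma) chi) :=
  omAugK

theorem omAugK_dLow (x : Slot.LowLev 0 1) :
    scalarOf ((Slot.dLow 0 0 x () om).1 (0 : Fin 1) (0 : Fin 1)) = 0 := by
  rw [Slot.dLow_apply]
  have hz : ∀ i : Slot.I 0 1, (x i om).1 *
      (Slot.shape 0 1).mat (Slot.shape 0 0) (Slot.dF 0 0) i () = 0 := fun i =>
    om_loop_zero (w := 6) (by decide) (x i om).2 (Slot.dT_mem 0 0 i ())
  rw [Finset.sum_eq_zero fun i _ => hz i]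
  exact map_zero scalarOf

theorem eps00_d (x : twist.K 0 1) : eps00K (twist.dK 0 0 x) = 0 := omAugK_dLow x

/-- The counterexample from the exactness statements. -/
theorem counterexample_of_cones (H : Total.ConeExact twist.dK twist.dX twist.φ)
    (hker : ∀ x, eps00K x = 0 → ∃ y, twist.dK 0 0 y = x)
    (C : ∀ v : Fin 8, Total.CoconeExact (K := Slot.LowCo v) (X := Slot.UpCo v) (Slot.coLow v)
      (Slot.coUp v) (Slot.coLink v)) :
    ∃ (B : Type) (_ : Ring B) (_ : Algebra ℚ B) (_ : Module.Finite ℚ B) (M : ModuleCat.{0} B),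
      Module.Finite B M ∧
      (∀ i : ℕ, 1 ≤ i → Subsingleton (Ext M M i) ∧ Subsingleton (Ext M (ModuleCat.of B B) i)) ∧
      ¬ Module.Projective B M :=
  not_arc_of_twist (A := Model.Gamma) (k := ℚ) isIdempotentElem_e chi chi_e hact hhom twist H
    eps00 eps00K (fun a => omAug_eq a) omAug_surjective eps00_d hker
    Finset.univ colObj regP regQ reg_sum (fun v _ => twistDual v (C v))

end Vale.Agent.P195.Gamma
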