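import Mathlib

/-!
The complexes `Q j` and the comparison maps, as formulas in a module with commuting actions of
two right variables, two right derivations and a second pair of variables with its derivations.
Being words in these actions, they commute with every map intertwining them.
-/

set_option linter.unusedSimpArgs false

namespace Vale.Agent.P195.Gamma

/-- The eight actions and their relations. -/
structure Acts (W : Type*) [AddCommGroup W] [Module ℚ W] where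
  /-- Right multiplication by a variable. -/
  Z : Fin 2 → W →ₗ[ℚ] W
  /-- Right multiplication by a derivative. -/
  A : Fin 2 → W →ₗ[ℚ] W
  /-- An auxiliary variable. -/
  Y : Fin 2 → W →ₗ[ℚ] W
  /-- Its derivation. -/
  P : Fin 2 → W →ₗ[ℚ] W
  ZZ : ∀ a b w, Z a (Z b w) = Z b (Z a w)
  AA : ∀ a b w, A a (A b w) = A b (A a w)
  YY : ∀ a b w, Y a (Y b w) = Y b (Y a w)
  PP : ∀ a b w, P a (P b w) = P b (P a w)
  AZ : ∀ a b w, A a (Z b w) = Z b (A a w) - if a = b then w else 0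
  PY : ∀ a b w, P a (Y b w) = Y b (P a w) + if a = b then w else 0
  YZ : ∀ a b w, Y a (Z b w) = Z b (Y a w)
  PZ : ∀ a b w, P a (Z b w) = Z b (P a w)
  AY : ∀ a b w, A a (Y b w) = Y b (A a w)
  AP : ∀ a b w, A a (P b w) = P b (A a w)

namespace Acts

variable {W : Type*} [AddCommGroup W] [Module ℚ W] (R : Acts W)

/-- Auxiliary degree. -/
def Deg (d : ℚ) (w : W) : Prop := R.Y 0 (R.P 0 w) + R.Y 1 (R.P 1 w) = d • w

/-- The translation. -/
def T : W →ₗ[ℚ] W := R.Z 0 ∘ₗ R.P 0 + R.Z 1 ∘ₗ R.P 1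

/-- The Koszul map. -/
def io (r : Fin 2) : W →ₗ[ℚ] W := if r = 0 then R.Y 1 else -R.Y 0

/-- The contraction with the variables. -/
def zP (p : Fin 2 → W) : W := R.Z 0 (p 0) + R.Z 1 (p 1)

/-- `1 / (j + 1)`. -/
def cj (j : ℕ) : ℚ := ((j : ℚ) + 1)⁻¹

/-- The lower correction. -/
def WB (j : ℕ) (l : Fin 2) (g : W) : W := cj j • R.T (R.A l g) - (((j : ℚ) + 2) * cj j) • R.P l g

/-- The upper correction. -/
def WH (j : ℕ) (l : Fin 2) (h : W) : W := cj j • R.T (R.A l h) - R.P l h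

/-- The first differential. -/
def d3 (j : ℕ) (g : W) : Fin 2 → Fin 2 → W := fun l r =>
  R.io r (R.WB j l g) - cj j • R.P r (R.A l (R.zP fun s => R.io s g))

/-- A summand of the lower component of the middle differential. -/
def dG (j : ℕ) (l : Fin 2) (p : Fin 2 → W) : Fin 2 → W := fun r =>
  -R.P l (p r) + cj j • (R.Z (1 - r) (R.P (1 - r) (R.A l (p r))) -
    R.Z (1 - r) (R.P r (R.A l (p (1 - r)))))

/-- The middle differential. -/
def d2 (j : ℕ) (p : Fin 2 → Fin 2 → W) : (Fin 2 → W) × (Fin 2 → W) :=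
  (fun l => R.Y 0 (p l 0) + R.Y 1 (p l 1) +
      cj j • R.A l (R.Y 0 (-R.zP (p 0)) + R.Y 1 (-R.zP (p 1))),
    fun r => R.dG j 0 (p 1) r - R.dG j 1 (p 0) r)

/-- The last differential. -/
def d1 (j : ℕ) (hG : (Fin 2 → W) × (Fin 2 → W)) : W :=
  -(R.WH j 0 (hG.1 1) - R.WH j 1 (hG.1 0)) + R.Y 0 (hG.2 0) + R.Y 1 (hG.2 1) +
    cj j • (R.Y 0 (R.A 0 (-R.zP hG.2)) + R.Y 1 (R.A 1 (-R.zP hG.2)))

/-- The comparison map in degree three. -/
def f3 (g : W) : W := R.T g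

/-- The comparison map in degree two. -/
def f2 (p : Fin 2 → Fin 2 → W) : Fin 2 → Fin 2 → W := fun l r => R.T (p l r)

/-- The comparison map in degree one, from level `J + 1` to level `J`. -/
def f1 (J : ℕ) (hG : (Fin 2 → W) × (Fin 2 → W)) : (Fin 2 → W) × (Fin 2 → W) :=
  (fun l => R.T (hG.1 l) + cj J • R.io l (-R.zP hG.2) -
      (cj J * cj (J + 1)) • R.zP (fun s => R.io s (R.A l (-R.zP hG.2))),
    fun r => R.T (hG.2 r) + cj J • (R.Z (1 - r) (R.P (1 - r) (hG.2 r)) -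
      R.Z (1 - r) (R.P r (hG.2 (1 - r)))))

/-- The comparison map in degree zero. -/
def f0 (J : ℕ) (g : W) : W := (((J : ℚ) + 2) * cj J) • R.T g

theorem Z10 (w : W) : R.Z 1 (R.Z 0 w) = R.Z 0 (R.Z 1 w) := R.ZZ 1 0 w
theorem A10 (w : W) : R.A 1 (R.A 0 w) = R.A 0 (R.A 1 w) := R.AA 1 0 w
theorem Y10 (w : W) : R.Y 1 (R.Y 0 w) = R.Y 0 (R.Y 1 w) := R.YY 1 0 w
theorem P10 (w : W) : R.P 1 (R.P 0 w) = R.P 0 (R.P 1 w) := R.PP 1 0 w
theorem A00Z (w : W) : R.A 0 (R.Z 0 w) = R.Z 0 (R.A 0 w) - w := by simpa using R.AZ 0 0 w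
theorem A11Z (w : W) : R.A 1 (R.Z 1 w) = R.Z 1 (R.A 1 w) - w := by simpa using R.AZ 1 1 w
theorem A01Z (w : W) : R.A 0 (R.Z 1 w) = R.Z 1 (R.A 0 w) := by simpa using R.AZ 0 1 w
theorem A10Z (w : W) : R.A 1 (R.Z 0 w) = R.Z 0 (R.A 1 w) := by simpa using R.AZ 1 0 w
theorem P00Y (w : W) : R.P 0 (R.Y 0 w) = R.Y 0 (R.P 0 w) + w := by simpa using R.PY 0 0 w
theorem P11Y (w : W) : R.P 1 (R.Y 1 w) = R.Y 1 (R.P 1 w) + w := by simpa using R.PY 1 1 w
theorem P01Y (w : W) : R.P 0 (R.Y 1 w) = R.Y 1 (R.P 0 w) := by simpa using R.PY 0 1 w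
theorem P10Y (w : W) : R.P 1 (R.Y 0 w) = R.Y 0 (R.P 1 w) := by simpa using R.PY 1 0 w

theorem Deg.A {d : ℚ} {w : W} (h : R.Deg d w) (l : Fin 2) : R.Deg d (R.A l w) := by
  have := congrArg (R.A l) h
  simpa [Deg, R.AY, R.AP] using this

theorem Deg.Z {d : ℚ} {w : W} (h : R.Deg d w) (l : Fin 2) : R.Deg d (R.Z l w) := by
  have := congrArg (R.Z l) h
  simpa [Deg, R.YZ, R.PZ] using this

theorem Deg.P {d : ℚ} {w : W} (h : R.Deg d w) (l : Fin 2) : R.Deg (d - 1) (R.P l w) := by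
  have := congrArg (R.P l) h
  fin_cases l <;>
    simp [Deg, P00Y, P11Y, P01Y, P10Y, P10] at this ⊢ <;>
    rw [sub_smul, one_smul, ← this] <;> abel

theorem Deg.Y {d : ℚ} {w : W} (h : R.Deg d w) (l : Fin 2) : R.Deg (d + 1) (R.Y l w) := by
  have := congrArg (R.Y l) h
  fin_cases l <;>
    simp [Deg, P00Y, P11Y, P01Y, P10Y, Y10] at this ⊢ <;>
    rw [add_smul, one_smul, ← this] <;> abel

/-- The degree relation solved for the first summand. -/
theorem Deg.y0 {d : ℚ} {w : W} (h : R.Deg d w) :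
    R.Y 0 (R.P 0 w) = d • w - R.Y 1 (R.P 1 w) := eq_sub_of_add_eq h

theorem fin2_one_sub_zero : (1 : Fin 2) - 0 = 1 := rfl
theorem fin2_one_sub_one : (1 : Fin 2) - 1 = 0 := rfl

theorem d2_d3_fst (j : ℕ) (g : W) (hg : R.Deg j g) (l : Fin 2) :
    (R.d2 j (R.d3 j g)).1 l = 0 := by
  have hj : (j : ℚ) + 1 ≠ 0 := by positivity
  fin_cases l <;>
    simp [d2, d3, WB, zP, io, T, R.YZ, R.PZ, R.AY, R.AP,
      A00Z, A11Z, A01Z, A10Z, P00Y, P11Y, P01Y, P10Y, Z10, A10, Y10, P10,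
      hg.y0, (hg.A R 0).y0, (hg.A R 1).y0, ((hg.A R 1).A R 0).y0, smul_sub, smul_add] <;>
    match_scalars <;> (try simp only [cj]) <;> field_simp <;> ring

theorem d1_d2 (j : ℕ) (p : Fin 2 → Fin 2 → W) (hp : ∀ l r, R.Deg j (p l r)) :
    R.d1 j (R.d2 j p) = 0 := by
  have hj : (j : ℚ) + 1 ≠ 0 := by positivity
  simp [d2, d1, dG, WH, zP, io, T, fin2_one_sub_zero, fin2_one_sub_one, R.YZ, R.PZ, R.AY, R.AP,
      A00Z, A11Z, A01Z, A10Z, P00Y, P11Y, P01Y, P10Y, Z10, A10, Y10, P10,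
      (hp 0 0).y0, (hp 0 1).y0, (hp 1 0).y0, (hp 1 1).y0,
      ((hp 0 0).A R 0).y0, ((hp 0 1).A R 0).y0, ((hp 1 0).A R 0).y0, ((hp 1 1).A R 0).y0,
      ((hp 0 0).A R 1).y0, ((hp 0 1).A R 1).y0, ((hp 1 0).A R 1).y0, ((hp 1 1).A R 1).y0,
      (((hp 0 0).A R 1).A R 0).y0, (((hp 0 1).A R 1).A R 0).y0,
      (((hp 1 0).A R 1).A R 0).y0, (((hp 1 1).A R 1).A R 0).y0,
      smul_sub, smul_add]
  match_scalars <;> (try simp only [cj]) <;> field_simp <;> ring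

set_option maxHeartbeats 2000000 in
theorem d2_d3_snd (j : ℕ) (g : W) (hg : R.Deg j g) (r : Fin 2) :
    (R.d2 j (R.d3 j g)).2 r = 0 := by
  have hj : (j : ℚ) + 1 ≠ 0 := by positivity
  fin_cases r <;>
    simp [d2, d3, dG, WB, zP, io, T, fin2_one_sub_zero, fin2_one_sub_one, R.YZ, R.PZ, R.AY, R.AP,
      A00Z, A11Z, A01Z, A10Z, P00Y, P11Y, P01Y, P10Y, Z10, A10, Y10, P10,
      hg.y0, (hg.A R 0).y0, (hg.A R 1).y0, ((hg.A R 1).A R 0).y0,
      (hg.P R 0).y0, (hg.P R 1).y0, ((hg.A R 0).P R 0).y0, ((hg.A R 0).P R 1).y0,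
      ((hg.A R 1).P R 0).y0, ((hg.A R 1).P R 1).y0,
      (((hg.A R 1).A R 0).P R 0).y0, (((hg.A R 1).A R 0).P R 1).y0, smul_sub, smul_add] <;>
    match_scalars <;> (try simp only [cj]) <;> field_simp <;> ring

set_option maxHeartbeats 2000000 in
theorem f2_d3 (J : ℕ) (g : W) (hg : R.Deg ((J : ℚ) + 1) g) :
    R.f2 (R.d3 (J + 1) g) = R.d3 J (R.f3 g) := by
  have hj : (J : ℚ) + 1 ≠ 0 := by positivity
  have hj' : (J : ℚ) + 1 + 1 ≠ 0 := by positivity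
  funext l r
  fin_cases l <;> fin_cases r <;>
    simp [f2, f3, d3, WB, zP, io, T, R.YZ, R.PZ, R.AY, R.AP,
      A00Z, A11Z, A01Z, A10Z, P00Y, P11Y, P01Y, P10Y, Z10, A10, Y10, P10,
      hg.y0, (hg.A R 0).y0, (hg.A R 1).y0, (hg.P R 0).y0, (hg.P R 1).y0,
      ((hg.A R 0).P R 0).y0, ((hg.A R 0).P R 1).y0,
      ((hg.A R 1).P R 0).y0, ((hg.A R 1).P R 1).y0, smul_sub, smul_add] <;>
    match_scalars <;> (try simp only [cj, Nat.cast_add, Nat.cast_one]) <;> field_simp <;> ring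

set_option maxHeartbeats 2000000 in
theorem f1_d2 (J : ℕ) (p : Fin 2 → Fin 2 → W) (hp : ∀ l r, R.Deg ((J : ℚ) + 1) (p l r)) :
    R.f1 J (R.d2 (J + 1) p) = R.d2 J (R.f2 p) := by
  have hj : (J : ℚ) + 1 ≠ 0 := by positivity
  have hj' : (J : ℚ) + 1 + 1 ≠ 0 := by positivity
  refine Prod.ext (funext fun l => ?_) (funext fun l => ?_) <;> fin_cases l <;>
    simp [f1, f2, d2, dG, zP, io, T, fin2_one_sub_zero, fin2_one_sub_one, R.YZ, R.PZ, R.AY, R.AP,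
      A00Z, A11Z, A01Z, A10Z, P00Y, P11Y, P01Y, P10Y, Z10, A10, Y10, P10,
      (hp 0 0).y0, (hp 0 1).y0, (hp 1 0).y0, (hp 1 1).y0,
      ((hp 0 0).A R 0).y0, ((hp 0 1).A R 0).y0, ((hp 1 0).A R 0).y0, ((hp 1 1).A R 0).y0,
      ((hp 0 0).A R 1).y0, ((hp 0 1).A R 1).y0, ((hp 1 0).A R 1).y0, ((hp 1 1).A R 1).y0,
      (((hp 0 0).A R 1).A R 0).y0, (((hp 0 1).A R 1).A R 0).y0,
      (((hp 1 0).A R 1).A R 0).y0, (((hp 1 1).A R 1).A R 0).y0,
      smul_sub, smul_add] <;>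
    match_scalars <;> (try simp only [cj, Nat.cast_add, Nat.cast_one]) <;> field_simp <;> ring

set_option maxHeartbeats 2000000 in
theorem f0_d1 (J : ℕ) (hG : (Fin 2 → W) × (Fin 2 → W))
    (h1 : ∀ l, R.Deg ((J : ℚ) + 2) (hG.1 l)) (h2 : ∀ r, R.Deg (J : ℚ) (hG.2 r)) :
    R.f0 J (R.d1 (J + 1) hG) = R.d1 J (R.f1 J hG) := by
  have hj : (J : ℚ) + 1 ≠ 0 := by positivity
  have hj' : (J : ℚ) + 1 + 1 ≠ 0 := by positivity
  simp [f0, f1, d1, WH, zP, io, T, fin2_one_sub_zero, fin2_one_sub_one, R.YZ, R.PZ, R.AY, R.AP,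
      A00Z, A11Z, A01Z, A10Z, P00Y, P11Y, P01Y, P10Y, Z10, A10, Y10, P10,
      (h1 0).y0, (h1 1).y0, ((h1 0).A R 0).y0, ((h1 0).A R 1).y0, ((h1 1).A R 0).y0,
      ((h1 1).A R 1).y0, (h2 0).y0, (h2 1).y0, ((h2 0).A R 0).y0, ((h2 0).A R 1).y0,
      ((h2 1).A R 0).y0, ((h2 1).A R 1).y0, (((h2 0).A R 1).A R 0).y0,
      (((h2 1).A R 1).A R 0).y0, smul_sub, smul_add]
  match_scalars <;> (try simp only [cj, Nat.cast_add, Nat.cast_one]) <;> field_simp <;> ring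

/-! ### Degrees -/

theorem Deg.add {d : ℚ} {v w : W} (hv : R.Deg d v) (hw : R.Deg d w) : R.Deg d (v + w) := by
  have := congr($hv + $hw)
  simp only [Deg, map_add, smul_add] at this ⊢
  rw [← this]; abel

theorem Deg.smul {d : ℚ} {w : W} (hw : R.Deg d w) (a : ℚ) : R.Deg d (a • w) := by
  have := congrArg (a • ·) hw
  simp only [Deg, map_smul, smul_add, smul_comm a d] at this ⊢
  exact this

theorem Deg.neg {d : ℚ} {w : W} (hw : R.Deg d w) : R.Deg d (-w) := by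
  simpa using hw.smul R (-1)

theorem Deg.sub {d : ℚ} {v w : W} (hv : R.Deg d v) (hw : R.Deg d w) : R.Deg d (v - w) := by
  simpa [sub_eq_add_neg] using hv.add R (hw.neg R)

theorem Deg.T {d : ℚ} {w : W} (hw : R.Deg d w) : R.Deg (d - 1) (R.T w) :=
  ((hw.P R 0).Z R 0).add R ((hw.P R 1).Z R 1)

theorem Deg.io {d : ℚ} {w : W} (hw : R.Deg d w) (r : Fin 2) : R.Deg (d + 1) (R.io r w) := by
  fin_cases r
  · exact hw.Y R 1
  · exact (hw.Y R 0).neg R

theorem Deg.zP {d : ℚ} {p : Fin 2 → W} (hp : ∀ r, R.Deg d (p r)) : R.Deg d (R.zP p) :=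
  ((hp 0).Z R 0).add R ((hp 1).Z R 1)

theorem Deg.d3 {j : ℕ} {g : W} (hg : R.Deg j g) (l r : Fin 2) : R.Deg j (R.d3 j g l r) := by
  have h1 : R.Deg ((j : ℚ) - 1) (R.WB j l g) :=
    (((hg.A R l).T R).smul R _).sub R ((hg.P R l).smul R _)
  have h2 := ((Deg.zP R (fun s => hg.io R s)).A R l).P R r
  have h3 := h1.io R r
  simp only [sub_add_cancel, add_sub_cancel_right] at h2 h3
  exact h3.sub R (h2.smul R _)

theorem Deg.d2 {j : ℕ} {p : Fin 2 → Fin 2 → W} (hp : ∀ l r, R.Deg j (p l r)) :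
    (∀ l, R.Deg ((j : ℚ) + 1) ((R.d2 j p).1 l)) ∧ ∀ r, R.Deg ((j : ℚ) - 1) ((R.d2 j p).2 r) := by
  refine ⟨fun l => ?_, fun r => ?_⟩
  · exact (((hp l 0).Y R 0).add R ((hp l 1).Y R 1)).add R
      (((((Deg.zP R (hp 0)).neg R).Y R 0).add R
        (((Deg.zP R (hp 1)).neg R).Y R 1)).A R l |>.smul R _)
  · have hG : ∀ l m, R.Deg ((j : ℚ) - 1) (R.dG j l (p m) r) := fun l m =>
      ((hp m r).P R l).neg R |>.add R
        ((((((hp m r).A R l).P R (1 - r)).Z R (1 - r)).sub R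
          ((((hp m (1 - r)).A R l).P R r).Z R (1 - r))).smul R _)
    exact (hG 0 1).sub R (hG 1 0)

theorem Deg.d1 {j : ℕ} {hG : (Fin 2 → W) × (Fin 2 → W)}
    (h1 : ∀ l, R.Deg ((j : ℚ) + 1) (hG.1 l)) (h2 : ∀ r, R.Deg ((j : ℚ) - 1) (hG.2 r)) :
    R.Deg j (R.d1 j hG) := by
  have hW : ∀ l m, R.Deg (j : ℚ) (R.WH j l (hG.1 m)) := fun l m => by
    simpa [WH] using ((((h1 m).A R l).T R).smul R _).sub R ((h1 m).P R l)
  have hY : ∀ l (w : W), R.Deg ((j : ℚ) - 1) w → R.Deg (j : ℚ) (R.Y l w) := fun l w hw => by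
    simpa using hw.Y R l
  exact ((((hW 0 1).sub R (hW 1 0)).neg R).add R (hY 0 _ (h2 0))).add R (hY 1 _ (h2 1)) |>.add R
    (((hY 0 _ (((Deg.zP R h2).neg R).A R 0)).add R
      (hY 1 _ (((Deg.zP R h2).neg R).A R 1))).smul R _)

theorem Deg.f2 {d : ℚ} {p : Fin 2 → Fin 2 → W} (hp : ∀ l r, R.Deg d (p l r)) (l r : Fin 2) :
    R.Deg (d - 1) (R.f2 p l r) := (hp l r).T R

/-! ### The augmentation -/

/-- A map out of `W` that moves the right variables and derivatives onto the auxiliary ones. -/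
structure Aug (R : Acts W) {V : Type*} [AddCommGroup V] [Module ℚ V] (E : W →ₗ[ℚ] V) : Prop where
  Z : ∀ l w, E (R.Z l w) = E (R.Y l w)
  A : ∀ l w, E (R.A l w) = E (R.P l w)

variable {V : Type*} [AddCommGroup V] [Module ℚ V] {E : W →ₗ[ℚ] V}

theorem Aug.T (hE : R.Aug E) {d : ℚ} {w : W} (hw : R.Deg d w) : E (R.T w) = d • E w := by
  rw [← map_smul, ← hw]
  simp [Acts.T, hE.Z]

theorem eps_f0 (hE : R.Aug E) (J : ℕ) (g : W) (hg : R.Deg ((J : ℚ) + 1) g) :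
    E (R.f0 J g) = ((J : ℚ) + 2) • E g := by
  have hj : (J : ℚ) + 1 ≠ 0 := by positivity
  rw [f0, map_smul, hE.T R hg, smul_smul, cj, mul_assoc, inv_mul_cancel₀ hj, mul_one]

theorem eps_d1 (hE : R.Aug E) (j : ℕ) (hG : (Fin 2 → W) × (Fin 2 → W))
    (h1 : ∀ l, R.Deg ((j : ℚ) + 1) (hG.1 l)) (h2 : ∀ r, R.Deg ((j : ℚ) - 1) (hG.2 r)) :
    E (R.d1 j hG) = 0 := by
  have hj : (j : ℚ) + 1 ≠ 0 := by positivity
  have hW : ∀ l m, E (R.WH j l (hG.1 m)) = 0 := fun l m => by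
    rw [WH, map_sub, map_smul, hE.T R ((h1 m).A R l), hE.A, smul_smul, cj, inv_mul_cancel₀ hj,
      one_smul, sub_self]
  have hQ := ((Deg.zP R h2).neg R)
  set Q := -R.zP hG.2 with hQdef
  have h : E (R.Y 0 (R.A 0 Q)) + E (R.Y 1 (R.A 1 Q)) = ((j : ℚ) + 1) • E Q := by
    rw [← R.AY, ← R.AY, hE.A, hE.A, P00Y, P11Y, map_add, map_add,
      show ((j : ℚ) + 1) = ((j : ℚ) - 1) + 1 + 1 by ring, add_smul, add_smul, one_smul,
      ← map_smul, ← hQ, map_add]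
    abel
  have hY : E (R.Y 0 (hG.2 0)) + E (R.Y 1 (hG.2 1)) = -E Q := by
    rw [hQdef, map_neg, neg_neg, zP, map_add, hE.Z, hE.Z]
  simp only [d1, ← hQdef, map_add, map_neg, map_sub, map_smul, hW, sub_self, neg_zero, zero_add]
  rw [hY, h, smul_smul, cj, inv_mul_cancel₀ hj, one_smul, neg_add_cancel]

/-! ### Naturality -/

/-- A linear map commuting with the eight actions. -/
structure Inter {W' : Type*} [AddCommGroup W'] [Module ℚ W'] (R : Acts W) (R' : Acts W')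
    (φ : W →ₗ[ℚ] W') : Prop where
  Z : ∀ l w, φ (R.Z l w) = R'.Z l (φ w)
  A : ∀ l w, φ (R.A l w) = R'.A l (φ w)
  Y : ∀ l w, φ (R.Y l w) = R'.Y l (φ w)
  P : ∀ l w, φ (R.P l w) = R'.P l (φ w)

variable {W' : Type*} [AddCommGroup W'] [Module ℚ W'] {R' : Acts W'} {φ : W →ₗ[ℚ] W'}

theorem Inter.deg (h : R.Inter R' φ) {d : ℚ} {w : W} (hw : R.Deg d w) : R'.Deg d (φ w) := by
  have := congrArg φ hw
  simpa [Deg, h.Y, h.P] using this

theorem Inter.T (h : R.Inter R' φ) (w : W) : φ (R.T w) = R'.T (φ w) := by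
  simp [Acts.T, h.Z, h.P]

theorem Inter.io (h : R.Inter R' φ) (r : Fin 2) (w : W) : φ (R.io r w) = R'.io r (φ w) := by
  fin_cases r <;> simp [Acts.io, h.Y]

theorem Inter.d3 (h : R.Inter R' φ) (j : ℕ) (g : W) (l r : Fin 2) :
    φ (R.d3 j g l r) = R'.d3 j (φ g) l r := by
  simp [Acts.d3, WB, zP, h.io, h.T, h.Z, h.A, h.P]

theorem Inter.d2_fst (h : R.Inter R' φ) (j : ℕ) (p : Fin 2 → Fin 2 → W) (l : Fin 2) :
    φ ((R.d2 j p).1 l) = (R'.d2 j fun a b => φ (p a b)).1 l := by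
  simp [Acts.d2, zP, h.Y, h.Z, h.A]

theorem Inter.d2_snd (h : R.Inter R' φ) (j : ℕ) (p : Fin 2 → Fin 2 → W) (r : Fin 2) :
    φ ((R.d2 j p).2 r) = (R'.d2 j fun a b => φ (p a b)).2 r := by
  simp [Acts.d2, dG, h.Z, h.A, h.P]

theorem Inter.d1 (h : R.Inter R' φ) (j : ℕ) (hG : (Fin 2 → W) × (Fin 2 → W)) :
    φ (R.d1 j hG) = R'.d1 j (fun a => φ (hG.1 a), fun a => φ (hG.2 a)) := by
  simp [Acts.d1, WH, zP, h.T, h.Y, h.Z, h.A, h.P]

theorem Inter.f1_fst (h : R.Inter R' φ) (J : ℕ) (hG : (Fin 2 → W) × (Fin 2 → W)) (l : Fin 2) :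
    φ ((R.f1 J hG).1 l) = (R'.f1 J (fun a => φ (hG.1 a), fun a => φ (hG.2 a))).1 l := by
  simp [Acts.f1, zP, h.io, h.T, h.Z, h.A]

theorem Inter.f1_snd (h : R.Inter R' φ) (J : ℕ) (hG : (Fin 2 → W) × (Fin 2 → W)) (r : Fin 2) :
    φ ((R.f1 J hG).2 r) = (R'.f1 J (fun a => φ (hG.1 a), fun a => φ (hG.2 a))).2 r := by
  simp [Acts.f1, h.T, h.Z, h.P]

theorem Inter.f0 (h : R.Inter R' φ) (J : ℕ) (g : W) : φ (R.f0 J g) = R'.f0 J (φ g) := by
  simp [Acts.f0, h.T]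

/-! ### Linearity -/

/-- `d3` as a linear map. -/
def d3L (j : ℕ) : W →ₗ[ℚ] (Fin 2 → Fin 2 → W) where
  toFun := R.d3 j
  map_add' a b := by
    funext l r
    simp only [d3, WB, zP, map_add, map_sub, map_smul, Pi.add_apply]
    module
  map_smul' a b := by
    funext l r
    simp only [d3, WB, zP, map_add, map_sub, map_smul, Pi.smul_apply, RingHom.id_apply]
    module

/-- `d2` as a linear map. -/
def d2L (j : ℕ) : (Fin 2 → Fin 2 → W) →ₗ[ℚ] (Fin 2 → W) × (Fin 2 → W) where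
  toFun := R.d2 j
  map_add' a b := by
    refine Prod.ext (funext fun l => ?_) (funext fun l => ?_) <;>
      simp only [d2, dG, zP, map_add, map_sub, map_smul, map_neg, Pi.add_apply, Prod.fst_add,
        Prod.snd_add] <;> module
  map_smul' a b := by
    refine Prod.ext (funext fun l => ?_) (funext fun l => ?_) <;>
      simp only [d2, dG, zP, map_add, map_sub, map_smul, map_neg, Pi.smul_apply, Prod.smul_fst,
        Prod.smul_snd, RingHom.id_apply] <;> module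

/-- `d1` as a linear map. -/
def d1L (j : ℕ) : (Fin 2 → W) × (Fin 2 → W) →ₗ[ℚ] W where
  toFun := R.d1 j
  map_add' a b := by
    simp only [d1, WH, zP, map_add, map_sub, map_smul, map_neg, Pi.add_apply, Prod.fst_add,
      Prod.snd_add]
    module
  map_smul' a b := by
    simp only [d1, WH, zP, map_add, map_sub, map_smul, map_neg, Pi.smul_apply, Prod.smul_fst,
      Prod.smul_snd, RingHom.id_apply]
    module

/-- `f2` as a linear map. -/
def f2L : (Fin 2 → Fin 2 → W) →ₗ[ℚ] (Fin 2 → Fin 2 → W) where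
  toFun := R.f2
  map_add' a b := by funext l r; simp [f2]
  map_smul' a b := by funext l r; simp [f2]

/-- `f1` as a linear map. -/
def f1L (J : ℕ) : (Fin 2 → W) × (Fin 2 → W) →ₗ[ℚ] (Fin 2 → W) × (Fin 2 → W) where
  toFun := R.f1 J
  map_add' a b := by
    refine Prod.ext (funext fun l => ?_) (funext fun l => ?_) <;>
      simp only [f1, zP, map_add, map_sub, map_smul, map_neg, Pi.add_apply, Prod.fst_add,
        Prod.snd_add] <;> module
  map_smul' a b := by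
    refine Prod.ext (funext fun l => ?_) (funext fun l => ?_) <;>
      simp only [f1, zP, map_add, map_sub, map_smul, map_neg, Pi.smul_apply, Prod.smul_fst,
        Prod.smul_snd, RingHom.id_apply] <;> module

end Acts

end Vale.Agent.P195.Gamma
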