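import Vale.Agent.P195.Gamma.Instance
import Vale.Agent.P195.Model.Aug

/-!
The two levels of the maps out of the linked complexes into a column.
-/

namespace Vale.Agent.P195.Gamma

open Model Matrix TrivSqZeroExt

namespace Slot

/-- The lower level of maps into a column. -/
abbrev LowCo (v : Fin 8) (J k : ℕ) : Type := ∀ i : I J k, H0 (g J k i) v

/-- The upper level of maps into a column. -/
abbrev UpCo (v : Fin 8) (J k : ℕ) : Type := ∀ i : I J k, H1 (g J k i) v

variable (v : Fin 8)

/-- The levels of maps from a summand sum. -/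
noncomputable def coLev (J k : ℕ) :
    (Cols (g J k) →ₗ[Model.Gamma] col v) ≃+ LowCo v J k × UpCo v J k := homLev (g J k) v

/-- Precomposition as an additive map. -/
noncomputable def preComp {J J' k k' : ℕ} (F : Cols (g J k) →ₗ[Model.Gamma] Cols (g J' k')) :
    LowCo v J' k' × UpCo v J' k' →+ LowCo v J k × UpCo v J k where
  toFun p := coLev v J k ((coLev v J' k').symm p ∘ₗ F)
  map_zero' := by rw [map_zero, LinearMap.zero_comp, map_zero]
  map_add' a b := by rw [map_add, LinearMap.add_comp, map_add]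

/-- The lower codifferential. -/
noncomputable def coLow (J k : ℕ) : LowCo v J k →+ LowCo v J (k + 1) :=
  (AddMonoidHom.fst _ _).comp <| (preComp v (dLin J k)).comp (AddMonoidHom.inl _ _)

/-- The upper codifferential. -/
noncomputable def coUp (J k : ℕ) : UpCo v J k →+ UpCo v J (k + 1) :=
  (AddMonoidHom.snd _ _).comp <| (preComp v (dLin J k)).comp (AddMonoidHom.inr _ _)

/-- The link on maps. -/
noncomputable def coLink (J k : ℕ) : LowCo v J k →+ UpCo v (J + 1) k :=
  (AddMonoidHom.snd _ _).comp <| (preComp v (fLin J k)).comp (AddMonoidHom.inl _ _)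

theorem dLin_coLev (J k : ℕ) (F : Cols (g J k) →ₗ[Model.Gamma] col v) (i : I J (k + 1)) :
    ((coLev v J (k + 1) (F ∘ₗ dLin J k)).1 i).1 =
        ∑ i', (shape J (k + 1)).mat (shape J k) (dF J k) i i' * ((coLev v J k F).1 i').1 ∧
      ((coLev v J (k + 1) (F ∘ₗ dLin J k)).2 i).1 =
        ∑ i', (shape J (k + 1)).mat (shape J k) (dF J k) i i' * ((coLev v J k F).2 i').1 := by
  refine ⟨(homLev_rmul _ _ v (dMat J k) F i).1.trans (Finset.sum_congr rfl fun i' _ => ?_),
    (homLev_rmul _ _ v (dMat J k) F i).2.trans (Finset.sum_congr rfl fun i' _ => ?_)⟩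
  · rw [dMat, blk_fst_lowEl]; rfl
  · rw [dMat, blk_fst_lowEl, blk_snd_lowEl, Matrix.zero_mul, add_zero]; rfl

theorem fLin_coLev (J k : ℕ) (F : Cols (g J k) →ₗ[Model.Gamma] col v) (i : I (J + 1) k) :
    (coLev v (J + 1) k (F ∘ₗ fLin J k)).1 i = 0 ∧
      ((coLev v (J + 1) k (F ∘ₗ fLin J k)).2 i).1 =
        ∑ i', (shape (J + 1) k).mat (shape J k) (fF J k) i i' * ((coLev v J k F).1 i').1 := by
  refine ⟨Subtype.ext ((homLev_rmul _ _ v (fMat J k) F i).1.trans (Finset.sum_eq_zero fun i' _ => ?_)),
    (homLev_rmul _ _ v (fMat J k) F i).2.trans (Finset.sum_congr rfl fun i' _ => ?_)⟩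
  · rw [fMat, blk_fst_highEl, Matrix.zero_mul]
  · rw [fMat, blk_fst_highEl, blk_snd_highEl, Matrix.zero_mul, zero_add]; rfl

theorem coLow_apply (J k : ℕ) (y : LowCo v J k) (i : I J (k + 1)) :
    (coLow v J k y i).1 =
      ∑ i', (shape J (k + 1)).mat (shape J k) (dF J k) i i' * (y i').1 := by
  refine (dLin_coLev v J k ((coLev v J k).symm (y, 0)) i).1.trans ?_
  rw [AddEquiv.apply_symm_apply]

theorem coUp_apply (J k : ℕ) (y : UpCo v J k) (i : I J (k + 1)) :
    (coUp v J k y i).1 =
      ∑ i', (shape J (k + 1)).mat (shape J k) (dF J k) i i' * (y i').1 := by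
  refine (dLin_coLev v J k ((coLev v J k).symm (0, y)) i).2.trans ?_
  rw [AddEquiv.apply_symm_apply]

theorem coLink_apply (J k : ℕ) (y : LowCo v J k) (i : I (J + 1) k) :
    (coLink v J k y i).1 =
      ∑ i', (shape (J + 1) k).mat (shape J k) (fF J k) i i' * (y i').1 := by
  refine (fLin_coLev v J k ((coLev v J k).symm (y, 0)) i).2.trans ?_
  rw [AddEquiv.apply_symm_apply]

theorem mat_mul_row {J J' k k' : ℕ} (Φ : (C J k → OpFam) →ₗ[ℚ] (C J' k' → OpFam)) {w : Fin 8}
    (y : ∀ i' : I J' k', Matrix (Fin (rk (g J' k' i'))) (Fin (rk w)) D) (i : I J k)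
    (s : Fin (rk (g J k i))) :
    (∑ i', (shape J k).mat (shape J' k') Φ i i' * y i') s =
      ∑ i', (shape J' k').dec (Φ ((shape J k).enc (Shape.unit i s))) i' ᵥ* y i' := by
  funext r
  rw [Matrix.sum_apply, Finset.sum_apply]
  rfl

end Slot

open Slot in
/-- Maps into a column, given exactness of their cones. -/
noncomputable def twistDual (v : Fin 8)
    (H : Total.CoconeExact (K := LowCo v) (X := UpCo v) (coLow v) (coUp v) (coLink v)) : twist.Dual (colObj v) where
  K := LowCo v
  X := UpCo v
  lev J k :=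
    { toFun := fun F => coLev v J k F
      invFun := fun p => (coLev v J k).symm p
      left_inv := fun F => (coLev v J k).symm_apply_apply F
      right_inv := fun p => (coLev v J k).apply_symm_apply p
      map_add' := fun a b => map_add (coLev v J k) a b }
  δK J k := coLow v J k
  δX J k := coUp v J k
  ψ J k := coLink v J k
  lev_d J k F := by
    refine Prod.ext ?_ ?_
    · funext i
      exact Subtype.ext ((dLin_coLev v J k F i).1.trans (coLow_apply v J k _ i).symm)
    · funext i
      exact Subtype.ext ((dLin_coLev v J k F i).2.trans (coUp_apply v J k _ i).symm)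
  lev_f J k F := by
    refine Prod.ext ?_ ?_
    · funext i
      exact (fLin_coLev v J k F i).1
    · funext i
      exact Subtype.ext ((fLin_coLev v J k F i).2.trans (coLink_apply v J k _ i).symm)
  cone := H

end Vale.Agent.P195.Gamma
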