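import Vale.Agent.P195.Gamma.Ident

/-!
The formulas on slots preserve the filtered lattices.
-/

namespace Vale.Agent.P195.Gamma

open Model MvPolynomial

namespace OpFam

/-- All entries have order at most `d` and weight `t`. -/
def MF (d t : ℤ) (w : OpFam) : Prop := ∀ m, w m ∈ Ord d t

variable {d t : ℤ} {v w : OpFam}

theorem MF.zero : MF d t 0 := fun _ => zero_mem _
theorem MF.add (hv : MF d t v) (hw : MF d t w) : MF d t (v + w) := fun m => add_mem (hv m) (hw m)
theorem MF.sub (hv : MF d t v) (hw : MF d t w) : MF d t (v - w) := fun m => sub_mem (hv m) (hw m)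
theorem MF.neg (hw : MF d t w) : MF d t (-w) := fun m => neg_mem (hw m)
theorem MF.smul (hw : MF d t w) (a : ℚ) : MF d t (a • w) := fun m =>
  Submodule.smul_mem _ a (hw m)

theorem MF.mono {d' : ℤ} (h : d ≤ d') (hw : MF d t w) : MF d' t w := fun m =>
  Ord_mono h (hw m)

theorem MF.congr {d' t' : ℤ} (hw : MF d t w) (hd : d = d') (ht : t = t') : MF d' t' w :=
  hd ▸ ht ▸ hw

theorem MF.z (hw : MF d t w) (l : Fin 2) : MF d (t + 1) (opActs.Z l w) := fun m => by
  have := Ord_mul (hw m) (mlt_mem_Ord (X_mem_H l) le_rfl)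
  rwa [add_zero] at this

theorem MF.a (hw : MF d t w) (l : Fin 2) : MF (d + 1) (t - 1) (opActs.A l w) := fun m =>
  Ord_mul (hw m) (dd_mem_Ord l)

theorem MF.y (hw : MF d t w) (l : Fin 2) : MF d t (opActs.Y l w) := fun m => by
  show OpFam.Y l w m ∈ _
  rw [OpFam.Y_apply]
  split_ifs
  · exact zero_mem _
  · exact hw _

theorem MF.p (hw : MF d t w) (l : Fin 2) : MF d t (opActs.P l w) := fun m =>
  Submodule.smul_mem _ _ (hw _)

theorem MF.T (hw : MF d t w) : MF d (t + 1) (opActs.T w) :=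
  ((hw.p 0).z 0).add ((hw.p 1).z 1)

theorem MF.io (hw : MF d t w) (r : Fin 2) : MF d t (opActs.io r w) := by
  fin_cases r
  · exact hw.y 1
  · exact (hw.y 0).neg

theorem MF.zP {p : Fin 2 → OpFam} (h : ∀ r, MF d t (p r)) : MF d (t + 1) (opActs.zP p) :=
  ((h 0).z 0).add ((h 1).z 1)

end OpFam

open OpFam

/-- The contraction of the Koszul part of the last differential. -/
theorem zP_d3 (j : ℕ) (g : OpFam) (l : Fin 2) :
    opActs.zP (fun r => opActs.d3 j g l r) = Acts.cj j • opActs.T (opActs.io l g) -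
      (((j : ℚ) + 2) * Acts.cj j) • opActs.zP (fun s => opActs.io s (opActs.P l g)) := by
  fin_cases l <;>
    simp [Acts.d3, Acts.WB, Acts.zP, Acts.io, Acts.T, opActs.YZ, opActs.PZ, opActs.AY, opActs.AP,
      opActs.A00Z, opActs.A11Z, opActs.A01Z, opActs.A10Z, opActs.P00Y, opActs.P11Y, opActs.P01Y,
      opActs.P10Y, opActs.Z10, smul_sub, smul_add] <;>
    module

/-- The contraction of the second part of the middle differential. -/
theorem zP_dG (j : ℕ) (l : Fin 2) (p : Fin 2 → OpFam) :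
    opActs.zP (fun r => opActs.dG j l p r) = -opActs.P l (opActs.zP p) := by
  fin_cases l <;>
    simp [Acts.dG, Acts.zP, opActs.PZ, opActs.Z10, opActs.P10, Acts.fin2_one_sub_zero,
      Acts.fin2_one_sub_one, smul_sub] <;>
    module

/-- The contraction of the second part of the middle comparison map. -/
theorem zP_f1 (J : ℕ) (hG : (Fin 2 → OpFam) × (Fin 2 → OpFam)) :
    opActs.zP (fun r => (opActs.f1 J hG).2 r) = opActs.T (opActs.zP hG.2) := by
  simp [Acts.f1, Acts.zP, Acts.T, opActs.PZ, opActs.Z10, Acts.fin2_one_sub_zero,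
    Acts.fin2_one_sub_one, smul_sub]
  module

namespace Slot

/-- The lattice conditions on families. -/
def Lat : ∀ J k, ℤ → ℤ → (C J k → OpFam) → Prop
  | 0, 0 => fun j b y => MF j (b + 1) (y ())
  | 0, 1 => fun j b y => (∀ r, MF (j + 2) b (y r)) ∧ MF j (b + 1) (zPL y)
  | 0, 2 => fun j b y => ∀ l, MF (j + 1) b (y l)
  | 0, 3 => fun j b y => MF j (b + 1) (y ())
  | 0, _ + 4 => fun _ _ _ => True
  | _ + 1, 0 => fun _ _ _ => True
  | _ + 1, 1 => fun j b y => MF (j + 2) b (y ())
  | _ + 1, 2 => fun j b y => (∀ l, MF (j + 1) b (y (.inl l))) ∧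
      (∀ r, MF (j + 2) b (y (.inr r))) ∧ MF j (b + 1) (zPL fun r => y (.inr r))
  | _ + 1, 3 => fun j b y => (∀ l r, MF (j + 1) b (y (l, r))) ∧
      ∀ l, MF j (b + 1) (zPL fun r => y (l, r))
  | _ + 1, 4 => fun j b y => MF j b (y ())
  | _ + 1, _ + 5 => fun _ _ _ => True

theorem mf_of_slots {J k : ℕ} {y : C J k → OpFam} (hy : Good J k y) {d t : ℤ} (c : C J k)
    (h : ∀ i s, (pos J k i s).1 = c → y c (pos J k i s).2 ∈ Ord d t) : MF d t (y c) := by
  intro m
  by_cases e : ((m.1 + m.2 : ℕ) : ℚ) = (q J k c : ℚ)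
  · obtain ⟨i, s, hp⟩ := pos_surj J k c m (by exact_mod_cast e)
    have := h i s (by rw [hp])
    rwa [hp] at this
  · rw [(OpFam.deg_iff _ _).1 (hy c) m e]
    exact zero_mem _

theorem lat_of_dec : ∀ J k (j b : ℤ) (y : C J k → OpFam), Good J k y →
    (∀ i, (shape J k).dec y i ∈ (obj (g J k i)).M j b) → Lat J k j b y
  | 0, 0, j, b, y, hy, h => mf_of_slots hy () fun i s _ => by
    have := (mem_line (a := 0) (s := 1)).1 (h i)
    simpa [Shape.dec, shape, pos] using this
  | 0, 1, j, b, y, hy, h => by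
    have h' := (mem_pair (c := 2)).1 (h ())
    refine ⟨fun r => mf_of_slots hy r fun i s e => ?_, ?_⟩
    · obtain rfl : s = r := e
      fin_cases s
      · exact h'.1
      · exact h'.2.1
    · intro m
      by_cases e : m = (0, 0)
      · subst e; exact h'.2.2
      · have hz : ∀ r, y r m = 0 := fun r => by
          refine (OpFam.deg_iff _ _).1 (hy r) m ?_
          obtain ⟨x, z⟩ := m
          simp only [q, Int.cast_zero, ne_eq, Nat.cast_eq_zero]
          intro hh
          exact e (Prod.ext (by omega) (by omega))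
        show y 0 m * mlt (X 0) + y 1 m * mlt (X 1) ∈ _
        rw [hz, hz, zero_mul, zero_mul, add_zero]
        exact zero_mem _
  | 0, 2, j, b, y, hy, h => fun l => mf_of_slots hy l fun i s e => by
    obtain rfl : i = l := e
    have := (mem_line (a := 1) (s := 0)).1 (h i)
    simpa [Shape.dec, shape, pos] using this
  | 0, 3, j, b, y, hy, h => mf_of_slots hy () fun i s _ => by
    have := (mem_line (a := 0) (s := 1)).1 (h i)
    simpa [Shape.dec, shape, pos] using this
  | 0, _ + 4, _, _, _, _, _ => trivial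
  | _ + 1, 0, _, _, _, _, _ => trivial
  | p + 1, 1, j, b, y, hy, h => mf_of_slots hy () fun i s _ => by
    have := (mem_line (a := 2) (s := 0)).1 (h i)
    simpa [Shape.dec, shape, pos] using this
  | p + 1, 2, j, b, y, hy, h => by
    refine ⟨fun l => mf_of_slots hy _ fun i s e => ?_,
      fun r => mf_of_slots hy _ fun i s e => ?_, fun m => ?_⟩
    · rcases i with i | i
      · have := (mem_line (a := 1) (s := 0)).1 (h (.inl i))
        obtain rfl : i.1 = l := Sum.inl.inj e
        simpa [Shape.dec, shape, pos] using this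
      · exact absurd e (by simp [pos])
    · rcases i with i | i
      · exact absurd e (by simp [pos])
      · have := (mem_pair (c := 2)).1 (h (.inr i))
        obtain rfl : s = r := Sum.inr.inj e
        fin_cases s
        · exact this.1
        · exact this.2.1
    · show y (.inr 0) m * mlt (X 0) + y (.inr 1) m * mlt (X 1) ∈ _
      by_cases e : ((m.1 + m.2 : ℕ) : ℤ) = (p : ℤ) - 1
      · have hm : m.1 < p := by omega
        have := ((mem_pair (c := 2)).1 (h (.inr ⟨m.1, hm⟩))).2.2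
        obtain ⟨a, c⟩ := m
        obtain rfl : c = p - 1 - a := by simp at e hm ⊢; omega
        exact this
      · have hz : ∀ r, y (.inr r) m = 0 := fun r => by
          refine (OpFam.deg_iff _ _).1 (hy (.inr r)) m fun hh => e ?_
          simp only [q] at hh
          exact_mod_cast hh
        rw [hz, hz, zero_mul, zero_mul, add_zero]
        exact zero_mem _
  | p + 1, 3, j, b, y, hy, h => by
    refine ⟨fun l r => mf_of_slots hy _ fun i s e => ?_, fun l m => ?_⟩
    · obtain ⟨rfl, rfl⟩ : i.1 = l ∧ s = r := Prod.ext_iff.1 e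
      have := (mem_pair (c := 1)).1 (h i)
      fin_cases s
      · exact this.1
      · exact this.2.1
    · show y (l, 0) m * mlt (X 0) + y (l, 1) m * mlt (X 1) ∈ _
      by_cases e : ((m.1 + m.2 : ℕ) : ℤ) = (p : ℤ)
      · have hm : m.1 < p + 1 := by omega
        have := ((mem_pair (c := 1)).1 (h (l, ⟨m.1, hm⟩))).2.2
        obtain ⟨a, c⟩ := m
        obtain rfl : c = p - a := by simp at e hm ⊢; omega
        exact this
      · have hz : ∀ r, y (l, r) m = 0 := fun r => by
          refine (OpFam.deg_iff _ _).1 (hy (l, r)) m fun hh => e ?_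
          simp only [q] at hh
          exact_mod_cast hh
        rw [hz, hz, zero_mul, zero_mul, add_zero]
        exact zero_mem _
  | p + 1, 4, j, b, y, hy, h => mf_of_slots hy () fun i s _ => by
    have := (mem_line (a := 0) (s := 0)).1 (h i)
    simpa [Shape.dec, shape, pos] using this
  | _ + 1, _ + 5, _, _, _, _, _ => trivial

theorem dec_of_lat : ∀ J k (j b : ℤ) (y : C J k → OpFam), Lat J k j b y →
    ∀ i, (shape J k).dec y i ∈ (obj (g J k i)).M j b
  | 0, 0, j, b, y, h, i => (mem_line (a := 0) (s := 1)).2 <| by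
    simpa [Shape.dec, shape, pos] using h (0, 0)
  | 0, 1, j, b, y, h, i => (mem_pair (c := 2)).2 ⟨h.1 0 _, h.1 1 _, h.2 (0, 0)⟩
  | 0, 2, j, b, y, h, i => (mem_line (a := 1) (s := 0)).2 <| by
    simpa [Shape.dec, shape, pos] using h i (0, 0)
  | 0, 3, j, b, y, h, i => (mem_line (a := 0) (s := 1)).2 <| by
    simpa [Shape.dec, shape, pos] using h (0, 0)
  | 0, _ + 4, _, _, _, _, i => i.elim
  | _ + 1, 0, _, _, _, _, i => i.elim
  | p + 1, 1, j, b, y, h, i => (mem_line (a := 2) (s := 0)).2 <| by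
    simpa [Shape.dec, shape, pos] using h (i.1, p - i.1)
  | p + 1, 2, j, b, y, h, i => by
    rcases i with ⟨l, m⟩ | m
    · exact (mem_line (a := 1) (s := 0)).2 (by
        simpa [Shape.dec, shape, pos] using h.1 l (m.1, p + 1 - m.1))
    · exact (mem_pair (c := 2)).2 ⟨h.2.1 0 _, h.2.1 1 _, h.2.2 _⟩
  | p + 1, 3, j, b, y, h, i => (mem_pair (c := 1)).2 ⟨h.1 _ 0 _, h.1 _ 1 _, h.2 _ _⟩
  | p + 1, 4, j, b, y, h, i => (mem_line (a := 0) (s := 0)).2 <| by
    simpa [Shape.dec, shape, pos] using h (i.1, p - i.1)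
  | _ + 1, _ + 5, _, _, _, _, i => i.elim

theorem kz_lat {j b : ℤ} {w : OpFam} (hw : MF (j + 2) (b - 1) w) :
    (∀ r, MF (j + 2) b (kz w r)) ∧ MF j (b + 1) (zPL (kz w)) := by
  refine ⟨fun r => ?_, ?_⟩
  · fin_cases r
    · exact (hw.z 1).congr rfl (by ring)
    · exact ((hw.z 0).congr rfl (by ring)).neg
  · have : zPL (kz w) = 0 := by
      show opActs.Z 0 (opActs.Z 1 w) + opActs.Z 1 (-opActs.Z 0 w) = 0
      rw [map_neg, opActs.Z10, add_neg_cancel]
    rw [this]
    exact MF.zero

theorem lat_dF : ∀ J k (j b : ℤ) (y : C J (k + 1) → OpFam), Lat J (k + 1) j b y →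
    Lat J k j b (dF J k y)
  | 0, 0, _, _, _, h => h.2
  | 0, 1, j, b, y, h => kz_lat
      ((((h 0).a 1).congr (by ring) rfl).sub (((h 1).a 0).congr (by ring) rfl))
  | 0, 2, j, b, y, h => fun l => (h.a l).congr rfl (by ring)
  | 0, 3, _, _, _, _ => MF.zero
  | 0, _ + 4, _, _, _, _ => trivial
  | _ + 1, 0, _, _, _, _ => trivial
  | p + 1, 1, j, b, y, h => by
    obtain ⟨h1, h2, h3⟩ := h
    have hW : ∀ l m, MF (j + 2) b (opActs.WH p l (y (.inl m))) := fun l m =>
      ((((h1 m).a l).T.congr (by ring) (by ring)).smul _).sub (((h1 m).p l).mono (by omega))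
    have hQ : MF j (b + 1) (-opActs.zP fun r => y (.inr r)) := h3.neg
    have hYA : ∀ l, MF (j + 2) b (opActs.Y l (opActs.A l (-opActs.zP fun r => y (.inr r)))) :=
      fun l => (((hQ.a l).y l).mono (by omega)).congr rfl (by ring)
    exact ((((hW 0 1).sub (hW 1 0)).neg.add ((h2 0).y 0)).add ((h2 1).y 1)).add
      (((hYA 0).add (hYA 1)).smul _)
  | p + 1, 2, j, b, y, h => by
    obtain ⟨h1, h2⟩ := h
    have hG : ∀ l m r, MF (j + 2) b (opActs.dG p l (cur y m) r) := fun l m r =>
      (((h1 m r).p l).mono (by omega)).neg.add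
        (((((((h1 m r).a l).p (1 - r)).z (1 - r)).congr (by ring) (by ring)).sub
          (((((h1 m (1 - r)).a l).p r).z (1 - r)).congr (by ring) (by ring))).smul _)
    refine ⟨fun l => ?_, fun r => (hG 0 1 r).sub (hG 1 0 r), ?_⟩
    · refine (((h1 l 0).y 0).add ((h1 l 1).y 1)).add (MF.smul ?_ _)
      exact ((((h2 0).neg.y 0).add ((h2 1).neg.y 1)).a l).congr rfl (by ring)
    · show MF j (b + 1) (opActs.zP fun r => opActs.dG p 0 (cur y 1) r - opActs.dG p 1 (cur y 0) r)
      have e : (opActs.zP fun r => opActs.dG p 0 (cur y 1) r - opActs.dG p 1 (cur y 0) r) =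
          -opActs.P 0 (opActs.zP (cur y 1)) - -opActs.P 1 (opActs.zP (cur y 0)) := by
        rw [← zP_dG p 0, ← zP_dG p 1]
        simp only [Acts.zP, map_sub]
        abel
      rw [e]
      exact ((h2 1).p 0).neg.sub ((h2 0).p 1).neg
  | p + 1, 3, j, b, y, h => by
    refine ⟨fun l r => ?_, fun l => ?_⟩
    · have hWB : MF (j + 1) b (opActs.WB p l (y ())) :=
        (((h.a l).T.congr rfl (by ring)).smul _).sub (((h.p l).mono (by omega)).smul _)
      exact (hWB.io r).sub (((((MF.zP fun s => h.io s).a l).p r).congr rfl (by ring)).smul _)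
    · show MF j (b + 1) (opActs.zP fun r => opActs.d3 p (y ()) l r)
      rw [zP_d3]
      exact (((h.io l).T).smul _).sub ((MF.zP fun s => (h.p l).io s).smul _)
  | _ + 1, 4, _, _, _, _ => MF.zero
  | _ + 1, _ + 5, _, _, _, _ => trivial

theorem lat_fF0 : ∀ J k (j b : ℤ) (y : C (J + 1) k → OpFam), Lat (J + 1) k j b y →
    Lat J k j (b + 1) (fF0 J k y)
  | 0, 0, _, _, _, _ => MF.zero
  | 0, 1, j, b, y, h => kz_lat (h.congr rfl (by ring))
  | 0, 2, j, b, y, h => fun l => (h.1 l).T
  | 0, 3, j, b, y, h => (((h.2 0).z 0).add ((h.2 1).z 1)).neg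
  | 0, _ + 4, _, _, _, _ => trivial
  | _ + 1, 0, _, _, _, _ => trivial
  | J + 1, 1, j, b, y, h => h.T.smul _
  | J + 1, 2, j, b, y, h => by
    obtain ⟨h1, h2, h3⟩ := h
    have hQ : MF j (b + 1) (-opActs.zP fun r => y (.inr r)) := h3.neg
    refine ⟨fun l => ?_, fun r => ?_, ?_⟩
    · exact ((h1 l).T.add (((hQ.io l).mono (by omega)).smul _)).sub
        (((MF.zP fun s => (hQ.a l).io s).congr rfl (by ring)).smul _)
    · exact (h2 r).T.add (((((h2 r).p (1 - r)).z (1 - r)).sub
        (((h2 (1 - r)).p r).z (1 - r))).smul _)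
    · show MF j (b + 1 + 1) (opActs.zP fun r => (opActs.f1 J (split y)).2 r)
      rw [zP_f1]
      exact h3.T
  | J + 1, 3, j, b, y, h => by
    refine ⟨fun l r => (h.1 l r).T, fun l => ?_⟩
    show MF j (b + 1 + 1) (opActs.zP fun r => opActs.T (y (l, r)))
    have e : (opActs.zP fun r => opActs.T (y (l, r))) = opActs.T (zPL fun r => y (l, r)) := by
      simp [Acts.zP, zPL, Acts.T, opActs.PZ, opActs.Z10]
      abel
    rw [e]
    exact (h.2 l).T
  | J + 1, 4, j, b, y, h => h.T
  | _ + 1, _ + 5, _, _, _, _ => trivial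

theorem lat_smul : ∀ J k (j b : ℤ) (a : ℚ) (y : C J k → OpFam), Lat J k j b y →
    Lat J k j b (a • y)
  | 0, 0, _, _, a, _, h => h.smul a
  | 0, 1, _, _, a, y, h => ⟨fun r => (h.1 r).smul a, by rw [map_smul]; exact h.2.smul a⟩
  | 0, 2, _, _, a, _, h => fun l => (h l).smul a
  | 0, 3, _, _, a, _, h => h.smul a
  | 0, _ + 4, _, _, _, _, _ => trivial
  | _ + 1, 0, _, _, _, _, _ => trivial
  | _ + 1, 1, _, _, a, _, h => h.smul a
  | _ + 1, 2, j, b, a, y, h => ⟨fun l => (h.1 l).smul a, fun r => (h.2.1 r).smul a, by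
      show MF j (b + 1) (zPL (a • fun r => y (.inr r)))
      rw [map_smul]
      exact h.2.2.smul a⟩
  | _ + 1, 3, j, b, a, y, h => ⟨fun l r => (h.1 l r).smul a, fun l => by
      show MF j (b + 1) (zPL (a • fun r => y (l, r)))
      rw [map_smul]
      exact (h.2 l).smul a⟩
  | _ + 1, 4, _, _, a, _, h => h.smul a
  | _ + 1, _ + 5, _, _, _, _, _ => trivial

theorem lat_fF (J k : ℕ) (j b : ℤ) (y : C (J + 1) k → OpFam) (h : Lat (J + 1) k j b y) :
    Lat J k j (b + 1) (fF J k y) :=
  lat_smul J k j (b + 1) _ _ (lat_fF0 J k j b y h)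

end Slot

end Vale.Agent.P195.Gamma
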