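import Mathlib

/-!
Vanishing of extension groups from an explicit projective resolution whose dual complex is exact.
-/

namespace Vale.Agent.P195.Gamma

open CategoryTheory CategoryTheory.Abelian CategoryTheory.Limits

universe u

variable {A : Type u} [Ring A]

/-- An augmented resolution by projective modules, given as linear maps. -/
structure Resol (M : ModuleCat.{u} A) where
  /-- The terms. -/
  P : ℕ → ModuleCat.{u} A
  proj : ∀ i, Projective (P i)
  /-- The differentials. -/
  d : ∀ i, (P (i + 1) : Type u) →ₗ[A] P i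
  /-- The augmentation. -/
  ε : (P 0 : Type u) →ₗ[A] M
  surj : Function.Surjective ε
  exact0 : Function.Exact (d 0) ε
  exact : ∀ i, Function.Exact (d (i + 1)) (d i)

namespace Resol

variable {M : ModuleCat.{u} A} (R : Resol M)

/-- The first syzygy. -/
abbrev K : ModuleCat.{u} A := ModuleCat.of A (LinearMap.ker R.ε)

/-- The first differential, corestricted to the syzygy. -/
def d0' : (R.P 1 : Type u) →ₗ[A] LinearMap.ker R.ε :=
  (R.d 0).codRestrict _ fun x => R.exact0.apply_apply_eq_zero x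

theorem d0'_surj : Function.Surjective R.d0' := fun y => by
  obtain ⟨x, hx⟩ := (R.exact0 y.1).1 y.2
  exact ⟨x, Subtype.ext hx⟩

/-- The resolution of the first syzygy. -/
@[reducible] def tail : Resol R.K where
  P i := R.P (i + 1)
  proj i := R.proj (i + 1)
  d i := R.d (i + 1)
  ε := R.d0'
  surj := R.d0'_surj
  exact0 y := by
    constructor
    · intro h
      exact (R.exact 0 y).1 (congrArg Subtype.val h)
    · intro h
      exact Subtype.ext ((R.exact 0 y).2 h)
  exact i := R.exact (i + 1)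

/-- Every cocycle in degree `n + 1` is a coboundary. -/
def DualExactAt (N : ModuleCat.{u} A) (n : ℕ) : Prop :=
  ∀ g : (R.P (n + 1) : Type u) →ₗ[A] N, g ∘ₗ R.d (n + 1) = 0 →
    ∃ h : (R.P n : Type u) →ₗ[A] N, h ∘ₗ R.d n = g

/-- Dual exactness in degree `n + 1` kills `Ext` in degree `n + 1`. -/
theorem ext_eq_zero {N : ModuleCat.{u} A} :
    ∀ (n : ℕ) {M : ModuleCat.{u} A} (R : Resol M), R.DualExactAt N n →
      ∀ e : Ext.{u} M N (n + 1), e = 0 := by
  intro n
  induction n with
  | zero =>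
    intro M R hR e
    let S : ShortComplex (ModuleCat.{u} A) :=
      ShortComplex.mk (ModuleCat.ofHom (LinearMap.ker R.ε).subtype) (ModuleCat.ofHom R.ε)
        (by ext x; exact x.2)
    have hS : S.ShortExact :=
      ModuleCat.shortComplex_shortExact S (LinearMap.exact_subtype_ker_map R.ε)
        Subtype.coe_injective R.surj
    have : Projective S.X₂ := R.proj 0
    obtain ⟨x, hx⟩ := Ext.contravariant_sequence_exact₃ hS N e
      (Ext.eq_zero_of_projective _) (n₀ := 0) (by omega)
    obtain ⟨f, rfl⟩ : ∃ f : S.X₁ ⟶ N, Ext.mk₀ f = x :=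
      ⟨Ext.homEquiv₀ x, Ext.mk₀_homEquiv₀_apply x⟩
    have hz : (f.hom ∘ₗ R.d0') ∘ₗ R.d 1 = 0 := by
      ext y
      have : R.d0' (R.d 1 y) = 0 := Subtype.ext ((R.exact 0).apply_apply_eq_zero y)
      show f.hom (R.d0' (R.d 1 y)) = 0
      rw [this]
      exact map_zero f.hom
    obtain ⟨h, hh⟩ := hR (f.hom ∘ₗ R.d0') hz
    have hf : f = S.f ≫ (ModuleCat.ofHom h : S.X₂ ⟶ N) := by
      ext y
      obtain ⟨w, rfl⟩ := R.d0'_surj y
      exact (LinearMap.congr_fun hh w).symm
    rw [← hx, hf, ← Ext.mk₀_comp_mk₀, hS.extClass_comp_assoc]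
  | succ n ih =>
    intro M R hR e
    let S : ShortComplex (ModuleCat.{u} A) :=
      ShortComplex.mk (ModuleCat.ofHom (LinearMap.ker R.ε).subtype) (ModuleCat.ofHom R.ε)
        (by ext x; exact x.2)
    have hS : S.ShortExact :=
      ModuleCat.shortComplex_shortExact S (LinearMap.exact_subtype_ker_map R.ε)
        Subtype.coe_injective R.surj
    have : Projective S.X₂ := R.proj 0
    obtain ⟨x, hx⟩ := Ext.contravariant_sequence_exact₃ hS N e
      (Ext.eq_zero_of_projective _) (n₀ := n + 1) (by omega)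
    have hx0 : x = 0 := ih R.tail hR x
    rw [← hx, hx0, Ext.comp_zero]

/-- Vanishing in degree zero. -/
theorem hom_eq_zero {N : ModuleCat.{u} A}
    (h : ∀ g : (R.P 0 : Type u) →ₗ[A] N, g ∘ₗ R.d 0 = 0 → g = 0) (f : (M : Type u) →ₗ[A] N) :
    f = 0 := by
  have h0 : f ∘ₗ R.ε = 0 := h _ (by
    ext x
    show f (R.ε (R.d 0 x)) = 0
    rw [R.exact0.apply_apply_eq_zero x, map_zero])
  ext y
  obtain ⟨x, rfl⟩ := R.surj y
  exact LinearMap.congr_fun h0 x

/-- Degree zero in the form of `Ext`. -/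
theorem ext0_eq_zero {N : ModuleCat.{u} A}
    (h : ∀ g : (R.P 0 : Type u) →ₗ[A] N, g ∘ₗ R.d 0 = 0 → g = 0) (e : Ext.{u} M N 0) : e = 0 := by
  obtain ⟨f, rfl⟩ : ∃ f : M ⟶ N, Ext.mk₀ f = e :=
    ⟨Ext.homEquiv₀ e, Ext.mk₀_homEquiv₀_apply e⟩
  have : f = 0 := ModuleCat.hom_ext (hom_eq_zero R h f.hom)
  rw [this, Ext.mk₀_zero]

end Resol

end Vale.Agent.P195.Gamma
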