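import Vale.Agent.P195.Gamma.Total
import Vale.Agent.P195.Gamma.ExtVanish

/-!
A projective resolution from a family of projective complexes linked by level-raising maps, and the
vanishing of extension groups out of the resolved module.
-/

namespace Vale.Agent.P195.Gamma

open CategoryTheory CategoryTheory.Abelian Finset

universe u v

/-- Linked complexes of projective modules together with their two levels. -/
structure Twist (A : Type u) [Ring A] where
  /-- The modules. -/
  Q : ℕ → ℕ → ModuleCat.{u} A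
  proj : ∀ J k, Module.Projective A (Q J k)
  /-- The differentials. -/
  d : ∀ J k, (Q J (k + 1) : Type u) →ₗ[A] Q J k
  /-- The links. -/
  f : ∀ J k, (Q (J + 1) k : Type u) →ₗ[A] Q J k
  /-- The lower level. -/
  K : ℕ → ℕ → Type v
  /-- The upper level. -/
  X : ℕ → ℕ → Type v
  [gK : ∀ J k, AddCommGroup (K J k)]
  [gX : ∀ J k, AddCommGroup (X J k)]
  /-- The decomposition into levels. -/
  lev : ∀ J k, (Q J k : Type u) ≃+ K J k × X J k
  /-- The differential on the lower level. -/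
  dK : ∀ J k, K J (k + 1) →+ K J k
  /-- The differential on the upper level. -/
  dX : ∀ J k, X J (k + 1) →+ X J k
  /-- The link from the lower level to the upper one. -/
  φ : ∀ J k, K (J + 1) k →+ X J k
  lev_d : ∀ J k a, lev J k (d J k a) = (dK J k (lev J (k + 1) a).1, dX J k (lev J (k + 1) a).2)
  lev_f : ∀ J k a, lev J k (f J k a) = (0, φ J k (lev (J + 1) k a).1)
  dK_dK : ∀ J k x, dK J k (dK J (k + 1) x) = 0
  dX_dX : ∀ J k x, dX J k (dX J (k + 1) x) = 0
  dX_φ : ∀ J k x, dX J k (φ J (k + 1) x) + φ J k (dK (J + 1) k x) = 0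

attribute [instance] Twist.gK Twist.gX

namespace Twist

variable {A : Type u} [Ring A] (W : Twist.{u, v} A)

/-- The total modules. -/
abbrev P (n : ℕ) : ModuleCat.{u} A :=
  ModuleCat.of A (∀ p : Total.Idx n, W.Q p.1.1 p.1.2)

theorem P_projective (n : ℕ) : Projective (W.P n) := by
  have := fun p : Total.Idx n => W.proj p.1.1 p.1.2
  have h : Module.Projective A (∀ p : Total.Idx n, W.Q p.1.1 p.1.2) := by
    classical
    exact Module.Projective.of_equiv DFinsupp.linearEquivFunOnFintype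
  exact (IsProjective.iff_projective (W.P n)).1 h

/-- The total differential. -/
def D (n : ℕ) : (W.P (n + 1) : Type u) →ₗ[A] W.P n :=
  LinearMap.pi fun p =>
    W.d p.1.1 p.1.2 ∘ₗ
        LinearMap.proj (Total.Idx.mk' (n := n + 1) p.1.1 (p.1.2 + 1) (by have := p.sum; omega)) +
      W.f p.1.1 p.1.2 ∘ₗ
        LinearMap.proj (Total.Idx.mk' (n := n + 1) (p.1.1 + 1) p.1.2 (by have := p.sum; omega))

/-- The levels of a total piece. -/
def levs (n : ℕ) (a : W.P n) : Total.T W.K W.X n := fun p => W.lev p.1.1 p.1.2 (a p)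

theorem levs_injective (n : ℕ) : Function.Injective (W.levs n) := fun _ _ h =>
  funext fun p => (W.lev p.1.1 p.1.2).injective (congrFun h p)

theorem levs_surjective (n : ℕ) : Function.Surjective (W.levs n) := fun t =>
  ⟨fun p => (W.lev p.1.1 p.1.2).symm (t p), funext fun p => (W.lev p.1.1 p.1.2).apply_symm_apply _⟩

theorem levs_D (n : ℕ) (a : W.P (n + 1)) :
    W.levs n (W.D n a) = Total.d W.dK W.dX W.φ n (W.levs (n + 1) a) := by
  funext p
  show W.lev _ _ (W.d _ _ _ + W.f _ _ _) = _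
  rw [map_add, W.lev_d, W.lev_f, Prod.mk_add_mk, add_zero]
  rfl

theorem d_d (n : ℕ) (a : Total.T W.K W.X (n + 2)) :
    Total.d W.dK W.dX W.φ n (Total.d W.dK W.dX W.φ (n + 1) a) = 0 := by
  funext p
  refine Prod.ext (W.dK_dK _ _ _) ?_
  show W.dX p.1.1 p.1.2 (W.dX _ _ _ + W.φ _ _ _) + W.φ p.1.1 p.1.2 (W.dK _ _ _) = 0
  rw [map_add, W.dX_dX, zero_add]
  exact W.dX_φ _ _ _

/-- The resolution of an augmentation of the corner piece. -/
def resol (H : Total.ConeExact W.dK W.dX W.φ) (M : ModuleCat.{u} A) (ε : (W.Q 0 0 : Type u) →ₗ[A] M)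
    (εK : W.K 0 0 →+ M) (hε : ∀ a, ε a = εK (W.lev 0 0 a).1) (hsurj : Function.Surjective ε)
    (hd : ∀ x, εK (W.dK 0 0 x) = 0) (hker : ∀ x, εK x = 0 → ∃ y, W.dK 0 0 y = x) :
    Resol M where
  P := W.P
  proj := W.P_projective
  d := W.D
  ε := ε ∘ₗ LinearMap.proj (Total.Idx.mk' (n := 0) 0 0 rfl)
  surj := fun m => by
    obtain ⟨q, hq⟩ := hsurj m
    have e : ∀ p : Total.Idx 0, p = Total.Idx.mk' 0 0 rfl := fun ⟨⟨J, k⟩, hp⟩ => by
      have := mem_antidiagonal.1 hp
      exact Subtype.ext (Prod.ext (show J = 0 by omega) (show k = 0 by omega))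
    exact ⟨fun p => (e p).symm ▸ q, hq⟩
  exact0 := fun a => by
    constructor
    · intro ha
      have h1 : εK (W.levs 0 a (Total.Idx.mk' 0 0 rfl)).1 = 0 := (hε _).symm.trans ha
      obtain ⟨b, hb⟩ := Total.exact_zero H εK hker (W.levs 0 a) h1
      obtain ⟨c, rfl⟩ := W.levs_surjective 1 b
      exact ⟨c, W.levs_injective 0 ((W.levs_D 0 c).trans hb)⟩
    · rintro ⟨b, rfl⟩
      show ε (W.D 0 b (Total.Idx.mk' 0 0 rfl)) = 0
      rw [hε]
      show εK (W.levs 0 (W.D 0 b) (Total.Idx.mk' 0 0 rfl)).1 = 0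
      rw [levs_D]
      exact hd _
  exact := fun n a => by
    constructor
    · intro ha
      have h1 : Total.d W.dK W.dX W.φ n (W.levs (n + 1) a) = 0 := by
        rw [← levs_D, ha]
        exact funext fun p => map_zero _
      obtain ⟨b, hb⟩ := Total.exact_succ H (W.levs (n + 1) a) h1
      obtain ⟨c, rfl⟩ := W.levs_surjective (n + 2) b
      exact ⟨c, W.levs_injective _ ((W.levs_D _ c).trans hb)⟩
    · rintro ⟨b, rfl⟩
      refine W.levs_injective n ?_
      rw [levs_D, levs_D, d_d]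
      exact (funext fun p => map_zero _ : W.levs n 0 = 0).symm

/-- The two levels of maps from the pieces into a module. -/
structure Dual (N : ModuleCat.{u} A) where
  /-- The lower level. -/
  K : ℕ → ℕ → Type v
  /-- The upper level. -/
  X : ℕ → ℕ → Type v
  [gK : ∀ J k, AddCommGroup (K J k)]
  [gX : ∀ J k, AddCommGroup (X J k)]
  /-- The decomposition of maps into levels. -/
  lev : ∀ J k, ((W.Q J k : Type u) →ₗ[A] N) ≃+ K J k × X J k
  /-- The codifferential on the lower level. -/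
  δK : ∀ J k, K J k →+ K J (k + 1)
  /-- The codifferential on the upper level. -/
  δX : ∀ J k, X J k →+ X J (k + 1)
  /-- The link from the lower level to the upper one. -/
  ψ : ∀ J k, K J k →+ X (J + 1) k
  lev_d : ∀ J k g, lev J (k + 1) (g ∘ₗ W.d J k) = (δK J k (lev J k g).1, δX J k (lev J k g).2)
  lev_f : ∀ J k g, lev (J + 1) k (g ∘ₗ W.f J k) = (0, ψ J k (lev J k g).1)
  /-- The cones are exact. -/
  cone : Total.CoconeExact δK δX ψ

attribute [instance] Dual.gK Dual.gX

variable {W}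

theorem single_pos {n : ℕ} (p : Total.Idx n) (x : W.Q p.1.1 p.1.2) :
    LinearMap.single A (fun q : Total.Idx n => (W.Q q.1.1 q.1.2 : Type u)) p x p = x := by
  simp

/-- The component of a map on a piece. -/
noncomputable def res {N : ModuleCat.{u} A} {n : ℕ} (g : (W.P n : Type u) →ₗ[A] N) (J k : ℕ)
    (h : J + k = n) : (W.Q J k : Type u) →ₗ[A] N :=
  g ∘ₗ LinearMap.single A (fun q : Total.Idx n => (W.Q q.1.1 q.1.2 : Type u)) (Total.Idx.mk' J k h)

theorem eq_of_res {N : ModuleCat.{u} A} {n : ℕ} {g g' : (W.P n : Type u) →ₗ[A] N}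
    (h : ∀ J k e, res g J k e = res g' J k e) : g = g' := by
  refine LinearMap.pi_ext fun p x => ?_
  obtain ⟨⟨J, k⟩, hp⟩ := p
  exact LinearMap.congr_fun (h J k (mem_antidiagonal.1 hp)) x

theorem sum_single {n : ℕ} (y : W.P n) :
    y = ∑ p : Total.Idx n,
      LinearMap.single A (fun q : Total.Idx n => (W.Q q.1.1 q.1.2 : Type u)) p (y p) := by
  exact (Finset.univ_sum_single (y : ∀ p : Total.Idx n, (W.Q p.1.1 p.1.2 : Type u))).symm

theorem res_D_corner {N : ModuleCat.{u} A} {n : ℕ} (g : (W.P n : Type u) →ₗ[A] N) (k : ℕ)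
    (h : k = n) : res (g ∘ₗ W.D n) 0 (k + 1) (by omega) =
      res g 0 k (by omega) ∘ₗ W.d 0 k := by
  refine LinearMap.ext fun x => ?_
  show g (W.D n _) = g _
  congr 1
  funext ⟨⟨J', k'⟩, hp⟩
  have h' : J' + k' = n := mem_antidiagonal.1 hp
  show W.d J' k' (Pi.single (M := fun q : Total.Idx (n + 1) => (W.Q q.1.1 q.1.2 : Type u)) (Total.Idx.mk' 0 (k + 1) (by omega)) x (Total.Idx.mk' J' (k' + 1) (by omega))) +
      W.f J' k' (Pi.single (M := fun q : Total.Idx (n + 1) => (W.Q q.1.1 q.1.2 : Type u)) (Total.Idx.mk' 0 (k + 1) (by omega)) x (Total.Idx.mk' (J' + 1) k' (by omega))) =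
    Pi.single (M := fun q : Total.Idx n => (W.Q q.1.1 q.1.2 : Type u)) (Total.Idx.mk' 0 k (by omega)) (W.d 0 k x) (Total.Idx.mk' J' k' h')
  rw [Pi.single_eq_of_ne (i' := Total.Idx.mk' (J' + 1) k' _) (by
    simp [Subtype.ext_iff, Prod.ext_iff]), map_zero, add_zero]
  by_cases hJ : J' = 0
  · subst hJ
    obtain rfl : k' = k := by omega
    rw [Pi.single_eq_same, Pi.single_eq_same]
  · rw [Pi.single_eq_of_ne (by simp [Subtype.ext_iff, Prod.ext_iff, hJ]), map_zero,
      Pi.single_eq_of_ne (by simp [Subtype.ext_iff, Prod.ext_iff, hJ])]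

theorem res_D_top {N : ModuleCat.{u} A} {n : ℕ} (g : (W.P n : Type u) →ₗ[A] N) (J : ℕ)
    (h : J = n) : res (g ∘ₗ W.D n) (J + 1) 0 (by omega) =
      res g J 0 (by omega) ∘ₗ W.f J 0 := by
  refine LinearMap.ext fun x => ?_
  show g (W.D n _) = g _
  congr 1
  funext ⟨⟨J', k'⟩, hp⟩
  have h' : J' + k' = n := mem_antidiagonal.1 hp
  show W.d J' k' (Pi.single (M := fun q : Total.Idx (n + 1) => (W.Q q.1.1 q.1.2 : Type u)) (Total.Idx.mk' (J + 1) 0 (by omega)) x (Total.Idx.mk' J' (k' + 1) (by omega))) +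
      W.f J' k' (Pi.single (M := fun q : Total.Idx (n + 1) => (W.Q q.1.1 q.1.2 : Type u)) (Total.Idx.mk' (J + 1) 0 (by omega)) x (Total.Idx.mk' (J' + 1) k' (by omega))) =
    Pi.single (M := fun q : Total.Idx n => (W.Q q.1.1 q.1.2 : Type u)) (Total.Idx.mk' J 0 (by omega)) (W.f J 0 x) (Total.Idx.mk' J' k' h')
  rw [Pi.single_eq_of_ne (i' := Total.Idx.mk' J' (k' + 1) _) (by
    simp [Subtype.ext_iff, Prod.ext_iff]), map_zero, zero_add]
  by_cases hk : k' = 0
  · subst hk
    obtain rfl : J' = J := by omega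
    rw [Pi.single_eq_same, Pi.single_eq_same]
  · rw [Pi.single_eq_of_ne (by simp [Subtype.ext_iff, Prod.ext_iff, hk]), map_zero,
      Pi.single_eq_of_ne (by simp [Subtype.ext_iff, Prod.ext_iff, hk])]

theorem res_D_mid {N : ModuleCat.{u} A} {n : ℕ} (g : (W.P n : Type u) →ₗ[A] N) (J k : ℕ)
    (h : J + 1 + k = n) : res (g ∘ₗ W.D n) (J + 1) (k + 1) (by omega) =
      res g (J + 1) k h ∘ₗ W.d (J + 1) k + res g J (k + 1) (by omega) ∘ₗ W.f J (k + 1) := by
  refine LinearMap.ext fun x => ?_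
  show g (W.D n _) = g _ + g _
  rw [← map_add]
  congr 1
  funext ⟨⟨J', k'⟩, hp⟩
  have h' : J' + k' = n := mem_antidiagonal.1 hp
  show W.d J' k' (Pi.single (M := fun q : Total.Idx (n + 1) => (W.Q q.1.1 q.1.2 : Type u)) (Total.Idx.mk' (J + 1) (k + 1) (by omega)) x (Total.Idx.mk' J' (k' + 1) (by omega))) +
      W.f J' k' (Pi.single (M := fun q : Total.Idx (n + 1) => (W.Q q.1.1 q.1.2 : Type u)) (Total.Idx.mk' (J + 1) (k + 1) (by omega)) x (Total.Idx.mk' (J' + 1) k' (by omega))) =
    Pi.single (M := fun q : Total.Idx n => (W.Q q.1.1 q.1.2 : Type u)) (Total.Idx.mk' (J + 1) k (by omega)) (W.d (J + 1) k x) (Total.Idx.mk' J' k' h') +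
      Pi.single (M := fun q : Total.Idx n => (W.Q q.1.1 q.1.2 : Type u)) (Total.Idx.mk' J (k + 1) (by omega)) (W.f J (k + 1) x) (Total.Idx.mk' J' k' h')
  congr 1
  · by_cases hJ : J' = J + 1
    · subst hJ
      obtain rfl : k' = k := by omega
      rw [Pi.single_eq_same, Pi.single_eq_same]
    · rw [Pi.single_eq_of_ne (by simp [Subtype.ext_iff, Prod.ext_iff, hJ]), map_zero,
        Pi.single_eq_of_ne (by simp [Subtype.ext_iff, Prod.ext_iff, hJ])]
  · by_cases hJ : J' = J
    · subst hJ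
      obtain rfl : k' = k + 1 := by omega
      rw [Pi.single_eq_same, Pi.single_eq_same]
    · rw [Pi.single_eq_of_ne (by simp [Subtype.ext_iff, Prod.ext_iff, hJ]), map_zero,
        Pi.single_eq_of_ne (by simp [Subtype.ext_iff, Prod.ext_iff, hJ])]

/-- Exact cones on maps into a module kill its extension groups from the resolved module. -/
theorem ext_eq_zero {N : ModuleCat.{u} A} (C : W.Dual N) {H : Total.ConeExact W.dK W.dX W.φ}
    {M : ModuleCat.{u} A} {ε : (W.Q 0 0 : Type u) →ₗ[A] M} {εK : W.K 0 0 →+ M}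
    {hε : ∀ a, ε a = εK (W.lev 0 0 a).1} {hsurj : Function.Surjective ε}
    {hd : ∀ x, εK (W.dK 0 0 x) = 0} {hker : ∀ x, εK x = 0 → ∃ y, W.dK 0 0 y = x}
    (n : ℕ) (e : Ext.{u} M N (n + 1)) : e = 0 := by
  refine Resol.ext_eq_zero n (W.resol H M ε εK hε hsurj hd hker) (fun g hg => ?_) e
  change g ∘ₗ W.D (n + 1) = 0 at hg
  have z : ∀ J k (h : J + k = n + 1 + 1), C.lev J k (res (g ∘ₗ W.D (n + 1)) J k h) = 0 :=
    fun J k h => by
      rw [hg]
      show C.lev J k 0 = 0
      exact map_zero _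
  let a : Total.T C.K C.X (n + 1) := fun p => C.lev p.1.1 p.1.2 (res g p.1.1 p.1.2 p.sum)
  have hδ : ∀ J k (h : J + k = n + 1), C.δK J k (C.lev J k (res g J k h)).1 = 0 := by
    intro J k h
    have := z J (k + 1) (by omega)
    rcases J with _ | J
    · erw [res_D_corner g k (by omega), C.lev_d] at this
      exact congrArg Prod.fst this
    · erw [res_D_mid g J k h, map_add, C.lev_d, C.lev_f, Prod.mk_add_mk, add_zero] at this
      exact congrArg Prod.fst this
  have ha : Total.Cocycle C.δK C.δX C.ψ (n + 1) a := by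
    rintro ⟨⟨J, k⟩, hp⟩
    have h : J + k = n + 1 := mem_antidiagonal.1 hp
    refine ⟨hδ J k h, fun hk => ?_, fun hJ => ?_, fun J k h => ?_⟩
    · dsimp only at hk ⊢
      subst hk
      have := z (J + 1) 0 (by omega)
      erw [res_D_top g J (by omega), C.lev_f] at this
      exact congrArg Prod.snd this
    · dsimp only at hJ ⊢
      subst hJ
      have := z 0 (k + 1) (by omega)
      erw [res_D_corner g k (by omega), C.lev_d] at this
      exact congrArg Prod.snd this
    · have := z (J + 1) (k + 1) (by omega)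
      erw [res_D_mid g J k (by omega), map_add, C.lev_d, C.lev_f, Prod.mk_add_mk] at this
      exact congrArg Prod.snd this
  obtain ⟨b, b1, b2, b3, b4, b5⟩ := Total.coexact C.cone a ha
  let k' : (W.P n : Type u) →ₗ[A] N :=
    ∑ p : Total.Idx n, (C.lev p.1.1 p.1.2).symm (b p) ∘ₗ LinearMap.proj p
  have hk' : ∀ J k (h : J + k = n),
      C.lev J k (res k' J k h) = b (Total.Idx.mk' J k h) := by
    intro J k h
    have e : res k' J k h = (C.lev J k).symm (b (Total.Idx.mk' J k h)) := by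
      refine LinearMap.ext fun x => ?_
      show k' (Pi.single (M := fun q : Total.Idx n => (W.Q q.1.1 q.1.2 : Type u)) (Total.Idx.mk' J k h) x) = _
      rw [LinearMap.sum_apply, Finset.sum_eq_single (Total.Idx.mk' J k h)]
      · show (C.lev J k).symm _ (Pi.single (M := fun q : Total.Idx n => (W.Q q.1.1 q.1.2 : Type u)) (Total.Idx.mk' J k h) x (Total.Idx.mk' J k h)) = _
        rw [Pi.single_eq_same]
      · intro p _ hp
        show (C.lev p.1.1 p.1.2).symm _ (Pi.single (M := fun q : Total.Idx n => (W.Q q.1.1 q.1.2 : Type u)) (Total.Idx.mk' J k h) x p) = 0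
        rw [Pi.single_eq_of_ne hp, map_zero]
      · intro hn
        exact absurd (Finset.mem_univ _) hn
    rw [e, AddEquiv.apply_symm_apply]
  refine ⟨k', eq_of_res fun J k h => (C.lev J k).injective ?_⟩
  show C.lev J k (res (k' ∘ₗ W.D n) J k h) = a (Total.Idx.mk' J k h)
  rcases J with _ | J
  · rcases k with _ | k
    · omega
    · erw [res_D_corner k' k (by omega), C.lev_d, hk']
      exact Prod.ext (b1 0 k (by omega)).symm (b3 k (by omega)).symm
  · rcases k with _ | k
    · obtain rfl : J = n := by omega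
      erw [res_D_top k' J rfl, C.lev_f, hk']
      exact Prod.ext b2.symm b5.symm
    · erw [res_D_mid k' J k (by omega), map_add, C.lev_d, C.lev_f, hk', hk', Prod.mk_add_mk,
        add_zero]
      exact Prod.ext (b1 (J + 1) k (by omega)).symm (b4 J k (by omega)).symm

end Twist

end Vale.Agent.P195.Gamma
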