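import Vale.Agent.P195.Gamma.Preserve
import Vale.Agent.P195.Gamma.Twist

/-!
The linked complexes of column sums over the eight-vertex algebra.
-/

namespace Vale.Agent.P195.Gamma

open Model Matrix TrivSqZeroExt

namespace Slot

theorem lat_single (J k : ℕ) (i : I J k) (j b : ℤ) (v : Fin (rk (g J k i)) → D)
    (hv : v ∈ (obj (g J k i)).M j b) : Lat J k j b ((shape J k).enc (Pi.single i v)) := by
  refine lat_of_dec J k j b _ (good_enc J k _) fun i' => ?_
  rw [Shape.dec_enc]
  by_cases h : i' = i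
  · subst h; rwa [Pi.single_eq_same]
  · rw [Pi.single_eq_of_ne h]; exact zero_mem _

theorem isA_succ : ∀ J k (i : I (J + 1) k), isA (g (J + 1) k i)
  | _, 0, i => i.elim
  | _, 1, _ => (by decide : isA 2)
  | _, 2, .inl _ => (by decide : isA 1)
  | _, 2, .inr _ => (by decide : isA 4)
  | _, 3, _ => (by decide : isA 3)
  | _, 4, _ => (by decide : isA 0)
  | _, _ + 5, i => i.elim

theorem not_isA_zero : ∀ k (i : I 0 k), ¬isA (g 0 k i)
  | 0, _ => (by decide : ¬isA 5)
  | 1, _ => (by decide : ¬isA 6)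
  | 2, _ => (by decide : ¬isA 7)
  | 3, _ => (by decide : ¬isA 5)
  | _ + 4, i => i.elim

theorem dT_mem (J k : ℕ) (i : I J (k + 1)) (i' : I J k) :
    (shape J (k + 1)).mat (shape J k) (dF J k) i i' ∈ H0 (g J (k + 1) i) (g J k i') := by
  rw [H0_eq]
  · exact Shape.mat_mem_Hom _ _ _ (leftLin_dF J k) 0 i i' fun j b v hv => by
      have := dec_of_lat J k j b _ (lat_dF J k j b _ (lat_single J (k + 1) i j b v hv)) i'
      rwa [add_zero]
  · rcases J with _ | J
    · exact Or.inr (not_isA_zero k i')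
    · exact Or.inl (isA_succ J (k + 1) i)

theorem fT_mem (J k : ℕ) (i : I (J + 1) k) (i' : I J k) :
    (shape (J + 1) k).mat (shape J k) (fF J k) i i' ∈ H1 (g (J + 1) k i) (g J k i') := by
  rw [H1_eq (isA_succ J k i)]
  exact Shape.mat_mem_Hom _ _ _ (leftLin_fF J k) 1 i i' fun j b v hv =>
    dec_of_lat J k j (b + 1) _ (lat_fF J k j b _ (lat_single (J + 1) k i j b v hv)) i'

/-- The matrix of a differential. -/
noncomputable def dMat (J k : ℕ) (i : I J (k + 1)) (i' : I J k) : Gamma :=
  lowEl ⟨_, dT_mem J k i i'⟩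

/-- The matrix of a comparison map. -/
noncomputable def fMat (J k : ℕ) (i : I (J + 1) k) (i' : I J k) : Gamma :=
  highEl ⟨_, fT_mem J k i i'⟩

/-- The lower level. -/
abbrev LowLev (J k : ℕ) : Type := ∀ (i : I J k) (u : Fin 8), H0 u (g J k i)

/-- The upper level. -/
abbrev UpLev (J k : ℕ) : Type := ∀ (i : I J k) (u : Fin 8), H1 u (g J k i)

/-- The differential of the resolution. -/
noncomputable def dLin (J k : ℕ) : Cols (g J (k + 1)) →ₗ[Gamma] Cols (g J k) :=
  rmul _ _ (dMat J k)

/-- The link of the resolution. -/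
noncomputable def fLin (J k : ℕ) : Cols (g (J + 1) k) →ₗ[Gamma] Cols (g J k) :=
  rmul _ _ (fMat J k)

/-- The lower part of the differential. -/
noncomputable def dLow (J k : ℕ) : LowLev J (k + 1) →+ LowLev J k :=
  (AddMonoidHom.fst _ _).comp <| ((lev (g J k)).toAddMonoidHom.comp
    (dLin J k).toAddMonoidHom).comp <|
      (lev (g J (k + 1))).symm.toAddMonoidHom.comp (AddMonoidHom.inl _ _)

/-- The upper part of the differential. -/
noncomputable def dUp (J k : ℕ) : UpLev J (k + 1) →+ UpLev J k :=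
  (AddMonoidHom.snd _ _).comp <| ((lev (g J k)).toAddMonoidHom.comp
    (dLin J k).toAddMonoidHom).comp <|
      (lev (g J (k + 1))).symm.toAddMonoidHom.comp (AddMonoidHom.inr _ _)

/-- The link from the lower to the upper level. -/
noncomputable def linkUp (J k : ℕ) : LowLev (J + 1) k →+ UpLev J k :=
  (AddMonoidHom.snd _ _).comp <| ((lev (g J k)).toAddMonoidHom.comp
    (fLin J k).toAddMonoidHom).comp <|
      (lev (g (J + 1) k)).symm.toAddMonoidHom.comp (AddMonoidHom.inl _ _)

theorem dLin_levels (J k : ℕ) (x : Cols (g J (k + 1))) (i' : I J k) (u : Fin 8) :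
    ((lev (g J k) (dLin J k x)).1 i' u).1 =
        ∑ i, ((lev (g J (k + 1)) x).1 i u).1 * (shape J (k + 1)).mat (shape J k) (dF J k) i i' ∧
      ((lev (g J k) (dLin J k x)).2 i' u).1 =
        ∑ i, ((lev (g J (k + 1)) x).2 i u).1 * (shape J (k + 1)).mat (shape J k) (dF J k) i i' := by
  refine ⟨(blk_rmul _ _ (dMat J k) x i' u).1.trans (Finset.sum_congr rfl fun i _ => ?_),
    (blk_rmul _ _ (dMat J k) x i' u).2.trans (Finset.sum_congr rfl fun i _ => ?_)⟩
  · rw [dMat, blk_fst_lowEl]
  · rw [dMat, blk_fst_lowEl, blk_snd_lowEl, Matrix.mul_zero, zero_add]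

theorem fLin_levels (J k : ℕ) (x : Cols (g (J + 1) k)) (i' : I J k) (u : Fin 8) :
    (lev (g J k) (fLin J k x)).1 i' u = 0 ∧
      ((lev (g J k) (fLin J k x)).2 i' u).1 =
        ∑ i, ((lev (g (J + 1) k) x).1 i u).1 * (shape (J + 1) k).mat (shape J k) (fF J k) i i' := by
  refine ⟨Subtype.ext ((blk_rmul _ _ (fMat J k) x i' u).1.trans (Finset.sum_eq_zero fun i _ => ?_)),
    (blk_rmul _ _ (fMat J k) x i' u).2.trans (Finset.sum_congr rfl fun i _ => ?_)⟩
  · rw [fMat, blk_fst_highEl, Matrix.mul_zero]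
  · rw [fMat, blk_fst_highEl, blk_snd_highEl, Matrix.mul_zero, add_zero]

theorem dLow_apply (J k : ℕ) (x : LowLev J (k + 1)) (i' : I J k) (u : Fin 8) :
    (dLow J k x i' u).1 =
      ∑ i, (x i u).1 * (shape J (k + 1)).mat (shape J k) (dF J k) i i' := by
  refine (dLin_levels J k ((lev _).symm (x, 0)) i' u).1.trans ?_
  rw [AddEquiv.apply_symm_apply]

theorem dUp_apply (J k : ℕ) (x : UpLev J (k + 1)) (i' : I J k) (u : Fin 8) :
    (dUp J k x i' u).1 =
      ∑ i, (x i u).1 * (shape J (k + 1)).mat (shape J k) (dF J k) i i' := by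
  refine (dLin_levels J k ((lev _).symm (0, x)) i' u).2.trans ?_
  rw [AddEquiv.apply_symm_apply]

theorem linkUp_apply (J k : ℕ) (x : LowLev (J + 1) k) (i' : I J k) (u : Fin 8) :
    (linkUp J k x i' u).1 =
      ∑ i, (x i u).1 * (shape (J + 1) k).mat (shape J k) (fF J k) i i' := by
  refine (fLin_levels J k ((lev _).symm (x, 0)) i' u).2.trans ?_
  rw [AddEquiv.apply_symm_apply]

/-- The row of a level in one row of one vertex. -/
def rowOf {J k : ℕ} {u : Fin 8} (x : ∀ i : I J k, Matrix (Fin (rk u)) (Fin (rk (g J k i))) D)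
    (a : Fin (rk u)) : Shape.Row (g J k) := fun i s => x i a s

theorem row_sum {J J' k k' : ℕ} (Φ : (C J k → OpFam) →ₗ[ℚ] (C J' k' → OpFam)) (hΦ : LeftLin Φ)
    {u : Fin 8} (x : ∀ i : I J k, Matrix (Fin (rk u)) (Fin (rk (g J k i))) D) (a : Fin (rk u)) :
    rowOf (fun i' => ∑ i, x i * (shape J k).mat (shape J' k') Φ i i') a =
      (shape J' k').dec (Φ ((shape J k).enc (rowOf x a))) := by
  funext i' r
  rw [Shape.dec_map_enc _ _ _ hΦ, Finset.sum_apply]
  show (∑ i, x i * (shape J k).mat (shape J' k') Φ i i') a r = _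
  rw [Matrix.sum_apply]
  rfl

theorem comp_eq_zero (J k : ℕ) {u : Fin 8}
    (x : ∀ i : I J (k + 2), Matrix (Fin (rk u)) (Fin (rk (g J (k + 2) i))) D) (i'' : I J k) :
    ∑ i', (∑ i, x i * (shape J (k + 2)).mat (shape J (k + 1)) (dF J (k + 1)) i i') *
      (shape J (k + 1)).mat (shape J k) (dF J k) i' i'' = 0 := by
  refine Matrix.ext fun a r => ?_
  have h := congrFun (congrFun (row_sum (dF J k) (leftLin_dF J k)
    (fun i' => ∑ i, x i * (shape J (k + 2)).mat (shape J (k + 1)) (dF J (k + 1)) i i') a) i'') r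
  rw [row_sum (dF J (k + 1)) (leftLin_dF J (k + 1)),
    enc_dec J (k + 1) _ (good_dF J (k + 1) _ (good_enc J (k + 2) _)),
    dF_dF J k _ (good_enc J (k + 2) _)] at h
  exact h

theorem anti_eq_zero (J k : ℕ) {u : Fin 8}
    (x : ∀ i : I (J + 1) (k + 1), Matrix (Fin (rk u)) (Fin (rk (g (J + 1) (k + 1) i))) D)
    (i'' : I J k) :
    ∑ i', (∑ i, x i * (shape (J + 1) (k + 1)).mat (shape J (k + 1)) (fF J (k + 1)) i i') *
        (shape J (k + 1)).mat (shape J k) (dF J k) i' i'' +
      ∑ i', (∑ i, x i * (shape (J + 1) (k + 1)).mat (shape (J + 1) k) (dF (J + 1) k) i i') *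
        (shape (J + 1) k).mat (shape J k) (fF J k) i' i'' = 0 := by
  refine Matrix.ext fun a r => ?_
  have h1 := congrFun (congrFun (row_sum (dF J k) (leftLin_dF J k)
    (fun i' => ∑ i, x i * (shape (J + 1) (k + 1)).mat (shape J (k + 1)) (fF J (k + 1)) i i') a)
      i'') r
  have h2 := congrFun (congrFun (row_sum (fF J k) (leftLin_fF J k)
    (fun i' => ∑ i, x i * (shape (J + 1) (k + 1)).mat (shape (J + 1) k) (dF (J + 1) k) i i') a)
      i'') r
  rw [row_sum (fF J (k + 1)) (leftLin_fF J (k + 1)),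
    enc_dec J (k + 1) _ (good_fF J (k + 1) _ (good_enc (J + 1) (k + 1) _))] at h1
  rw [row_sum (dF (J + 1) k) (leftLin_dF (J + 1) k),
    enc_dec (J + 1) k _ (good_dF (J + 1) k _ (good_enc (J + 1) (k + 1) _))] at h2
  have h := congrArg (fun y => (shape J k).dec y i'' r)
    (dF_fF J k _ (good_enc (J + 1) (k + 1) (rowOf x a)))
  exact (congrArg₂ (· + ·) h1 h2).trans h

end Slot

open Slot in
/-- The linked complexes. -/
noncomputable def twist : Twist.{0, 0} Model.Gamma where
  Q J k := ModuleCat.of Model.Gamma (Cols (g J k))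
  proj J k := cols_projective (g J k)
  d := dLin
  f := fLin
  K := LowLev
  X := UpLev
  lev J k := lev (g J k)
  dK := dLow
  dX := dUp
  φ := linkUp
  lev_d J k a := Prod.ext
    (_root_.funext fun i' => _root_.funext fun u => Subtype.ext
      ((dLin_levels J k a i' u).1.trans (dLow_apply J k _ i' u).symm))
    (_root_.funext fun i' => _root_.funext fun u => Subtype.ext
      ((dLin_levels J k a i' u).2.trans (dUp_apply J k _ i' u).symm))
  lev_f J k a := Prod.ext
    (_root_.funext fun i' => _root_.funext fun u => (fLin_levels J k a i' u).1)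
    (_root_.funext fun i' => _root_.funext fun u => Subtype.ext
      ((fLin_levels J k a i' u).2.trans (linkUp_apply J k _ i' u).symm))
  dK_dK J k x := _root_.funext fun i'' => _root_.funext fun u => Subtype.ext <| by
    rw [dLow_apply]
    simp only [dLow_apply]
    exact comp_eq_zero J k (fun i => (x i u).1) i''
  dX_dX J k x := _root_.funext fun i'' => _root_.funext fun u => Subtype.ext <| by
    rw [dUp_apply]
    simp only [dUp_apply]
    exact comp_eq_zero J k (fun i => (x i u).1) i''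
  dX_φ J k x := _root_.funext fun i'' => _root_.funext fun u => Subtype.ext <| by
    show (dUp J k (linkUp J (k + 1) x) i'' u).1 + (linkUp J k (dLow (J + 1) k x) i'' u).1 = 0
    rw [dUp_apply, linkUp_apply]
    simp only [linkUp_apply, dLow_apply]
    exact anti_eq_zero J k (fun i => (x i u).1) i''

end Vale.Agent.P195.Gamma
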