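import Vale.Agent.P195.Gamma.SymActs

/-!
Left multiplication by the variables on symbols, the decomposition of pairs of rows with a bounded
combination, and the transfer of statements about single rows to rows at the vertices.
-/

namespace Vale.Agent.P195.Gamma.Symb

open MvPolynomial Model

/-- Left multiplication by a variable. -/
noncomputable def lz (k : Fin 2) : R →ₗ[ℚ] R :=
  LinearMap.mulLeft ℚ (zv k) - (pderiv ((0, k) : V)).toLinearMap

theorem lz_apply (k : Fin 2) (f : R) : lz k f = zv k * f - pderiv ((0, k) : V) f := rfl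

theorem dx_mem {d t q : ℤ} {f : R} (k : Fin 2) (hf : f ∈ S d t q) :
    pderiv ((0, k) : V) f ∈ S (d - 1) (t + 1) q := by
  refine map_restrict (pderiv ((0, k) : V)).toLinearMap (fun e he => ?_) hf
  show pderiv ((0, k) : V) (monomial e (1 : ℚ)) ∈ S _ _ _
  rw [pderiv_monomial]
  rcases Nat.eq_zero_or_pos (e (0, k)) with h | h
  · simp [h]
  · refine mono_mem _ ?_
    obtain ⟨h0, h1, h2⟩ := he
    simp only [mem_expSet, deg_sub_single _ _ _ h]
    simp
    omega

theorem lz_mem {d t q : ℤ} {f : R} (k : Fin 2) (hf : f ∈ S d t q) : lz k f ∈ S d (t + 1) q :=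
  sub_mem (zv_mul_mem k hf) (S_mono (by omega) (dx_mem k hf))

theorem dx_zv_mul (k m : Fin 2) (f : R) :
    pderiv ((0, k) : V) (zv m * f) = zv m * pderiv ((0, k) : V) f := by
  rw [pderiv_mul, pderiv_X_of_ne (by simp), zero_mul, zero_add]

theorem lz_zv_mul (k m : Fin 2) (f : R) : lz k (zv m * f) = zv m * lz k f := by
  rw [lz_apply, lz_apply, dx_zv_mul, mul_sub, mul_left_comm]

theorem lz_yv_mul (k m : Fin 2) (f : R) : lz k (yv m * f) = yv m * lz k f := by
  rw [lz_apply, lz_apply, pderiv_mul, pderiv_X_of_ne (by simp), zero_mul, zero_add, mul_sub,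
    mul_left_comm]

theorem lz_dy (k m : Fin 2) (f : R) : lz k (dy m f) = dy m (lz k f) := by
  rw [lz_apply, lz_apply, map_sub, dy_zv_mul, show dy m (pderiv ((0, k) : V) f) =
    pderiv ((0, k) : V) (dy m f) from pderiv_comm' _ _ f]

theorem lz_A (k l : Fin 2) (f : R) : lz k (A l f) = A l (lz k f) := by
  rw [lz_apply, lz_apply, map_sub, A_zv_mul, A_apply, A_apply, map_sub, pderiv_mul, mul_sub,
    show pderiv ((0, k) : V) (dz l f) = dz l (pderiv ((0, k) : V) f) from pderiv_comm' _ _ f]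
  by_cases h : l = k
  · subst h
    rw [if_pos rfl, pderiv_X_self]
    ring
  · rw [if_neg h, pderiv_X_of_ne (by simp [h])]
    ring

theorem lz_T (k : Fin 2) (f : R) : lz k (T f) = T (lz k f) := by
  simp only [T_apply, map_add, lz_zv_mul, lz_dy]

theorem lz_zc (k : Fin 2) (P : Fin 2 → R) : lz k (zc P) = zc fun i => lz k (P i) := by
  simp only [zc, map_add, lz_zv_mul]

theorem lz_comm (k m : Fin 2) (f : R) : lz k (lz m f) = lz m (lz k f) := by
  rw [lz_apply, lz_apply, lz_apply m (lz k f), lz_apply k f, map_sub, map_sub, mul_sub, mul_sub,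
    dx_zv_mul, dx_zv_mul, mul_left_comm (zv k),
    show pderiv ((0, k) : V) (pderiv ((0, m) : V) f) =
      pderiv ((0, m) : V) (pderiv ((0, k) : V) f) from pderiv_comm' _ _ f]
  ring

theorem op_lz (k : Fin 2) (f : R) (m : ℕ × ℕ) : op (lz k f) m = mlt (X k) * op f m := by
  have key : ∀ g : R, ∀ n, op (lz k (tw (-1) g)) n = mlt (X k) * op (tw (-1) g) n := by
    intro g
    refine xInd (P := fun g => ∀ n, op (lz k (tw (-1) g)) n = mlt (X k) * op (tw (-1) g) n)
      (fun a b ha hb n => ?_) (fun e a he n => ?_) (fun l a ha n => ?_) g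
    · simp only [map_add, Finsupp.add_apply, ha, hb, mul_add]
    · have hfree : (monomial e a : R) = a • monomial e 1 := by
        rw [smul_monomial, smul_eq_mul, mul_one]
      rw [hfree, map_smul, map_smul, tw_of_xfree _ he]
      have h0 : pderiv ((0, k) : V) (monomial e (1 : ℚ)) = 0 := by
        have : e (0, k) = 0 := by
          simp only [deg] at he
          fin_cases k <;> simp <;> omega
        rw [pderiv_monomial, this]
        simp
      have hb : pr 0 e = (0, 0) := by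
        simp only [deg] at he
        simp [pr]
        omega
      rw [map_smul, map_smul, Finsupp.smul_apply, Finsupp.smul_apply, mul_smul_comm]
      congr 1
      rw [lz_apply, h0, sub_zero, op_zv_mul, op_monomial]
      by_cases hn : pr 2 e = n
      · subst hn
        rw [Finsupp.single_eq_same, hb, dp_zero, one_mul, mlt_comm]
      · rw [Finsupp.single_eq_of_ne (Ne.symm hn), zero_mul, mul_zero]
    · rw [← A_tw, lz_A, op_A, op_A, ha, mul_assoc]
  simpa only [tw_neg_tw] using key (tw 1 f) m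

theorem dy_eq_zero {d t : ℤ} {f : R} (r : Fin 2) (hf : f ∈ S d t 0) : dy r f = 0 := by
  have h := dy_mem r hf
  rwa [S_eq_bot (Or.inr (Or.inl (by omega))), Submodule.mem_bot] at h

theorem T_eq_zero {d t : ℤ} {f : R} (hf : f ∈ S d t 0) : T f = 0 := by
  rw [T_apply, dy_eq_zero 0 hf, dy_eq_zero 1 hf, mul_zero, mul_zero, add_zero]

theorem T_yv_mul {d t : ℤ} {f : R} (r : Fin 2) (hf : f ∈ S d t 0) : T (yv r * f) = zv r * f := by
  rw [T_apply, dy_yv_mul, dy_yv_mul, dy_eq_zero 0 hf, dy_eq_zero 1 hf]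
  fin_cases r <;> simp

theorem mem_of_A {d t q : ℤ} {f : R} (l : Fin 2) (h : A l f ∈ S d t q) :
    f ∈ S (d - 1) (t + 1) q := by
  have h2 := tw_mem 1 h
  rw [tw_A] at h2
  have h3 := tw_mem (-1) (mem_of_xv_mul l h2)
  rwa [tw_neg_tw] at h3

/-- Two rows whose left combination has order `d - c` are, up to a common element, of that order. -/
theorem left_decomp : ∀ (c : ℕ) {d t q : ℤ} {r0 r1 : R}, r0 ∈ S d t q → r1 ∈ S d t q →
    lz 1 r0 - lz 0 r1 ∈ S (d - c) (t + 1) q →
    ∃ Q ∈ S d (t - 1) q, r0 + lz 0 Q ∈ S (d - c) t q ∧ r1 + lz 1 Q ∈ S (d - c) t q := by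
  intro c
  induction c with
  | zero =>
    intro d t q r0 r1 h0 h1 _
    exact ⟨0, zero_mem _, by simpa using h0, by simpa using h1⟩
  | succ c ih =>
    intro d t q r0 r1 h0 h1 h
    have hu : ∀ l, (![-r1, r0] : Fin 2 → R) l ∈ S d t q := by
      intro l
      fin_cases l
      · exact neg_mem h1
      · exact h0
    have hz : zc ![-r1, r0] ∈ S (d - 1) (t + 1) q := by
      have e : zc ![-r1, r0] = (lz 1 r0 - lz 0 r1) +
          (pderiv ((0, 1) : V) r0 - pderiv ((0, 0) : V) r1) := by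
        simp only [zc, lz_apply, Matrix.cons_val_zero, Matrix.cons_val_one]
        ring
      rw [e]
      exact add_mem (S_mono (by omega) h) (sub_mem (dx_mem 1 h0) (dx_mem 0 h1))
    obtain ⟨g, hg, g0, g1⟩ := zc_decomp hu hz
    simp only [Matrix.cons_val_zero, Matrix.cons_val_one] at g0 g1
    have dg : ∀ k, pderiv ((0, k) : V) g ∈ S (d - 1) t q := fun k => by
      simpa using dx_mem k hg
    have k0 : r0 + lz 0 g ∈ S (d - 1) t q := by
      rw [lz_apply, ← add_sub_assoc]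
      exact sub_mem g1 (dg 0)
    have k1 : r1 + lz 1 g ∈ S (d - 1) t q := by
      rw [show r1 + lz 1 g = -(-r1 - zv 1 * g) - pderiv ((0, 1) : V) g by rw [lz_apply]; ring]
      exact sub_mem (neg_mem g0) (dg 1)
    obtain ⟨Q, hQ, q0, q1⟩ := ih k0 k1 (by
      have e : lz 1 (r0 + lz 0 g) - lz 0 (r1 + lz 1 g) = lz 1 r0 - lz 0 r1 := by
        rw [map_add, map_add, lz_comm 1 0, add_sub_add_right_eq_sub]
      rw [e]
      exact S_mono (by push_cast; omega) h)
    refine ⟨g + Q, add_mem hg (S_mono (by omega) hQ), ?_, ?_⟩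
    · rw [map_add, ← add_assoc]
      exact S_mono (by push_cast; omega) q0
    · rw [map_add, ← add_assoc]
      exact S_mono (by push_cast; omega) q1

/-- Left multiplication by a variable on a family. -/
noncomputable def lzPi (ι : Type*) (k : Fin 2) : (ι → R) →ₗ[ℚ] (ι → R) :=
  LinearMap.pi fun i => lz k ∘ₗ LinearMap.proj i

theorem lzPi_apply (ι : Type*) (k : Fin 2) (x : ι → R) (i : ι) : lzPi ι k x i = lz k (x i) := rfl

/-! ### Rows at a vertex -/

section Rows

variable {X Y : Type*} [AddCommGroup X] [Module ℚ X] [AddCommGroup Y] [Module ℚ Y]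
  (lx : Fin 2 → X →ₗ[ℚ] X) (P : ℤ → ℤ → Submodule ℚ X)
  (ly : Fin 2 → Y →ₗ[ℚ] Y) (Q : ℤ → ℤ → Submodule ℚ Y)

/-- The rows of level `t` at an object, in a graded family of spaces. -/
def Rows (t : ℤ) : (u : Ob) → (Fin u.rk → X) → Prop
  | .line a s => fun x => x (0 : Fin 1) ∈ P (-a) (t - s)
  | .pair c => fun x => x (0 : Fin 2) ∈ P 0 t ∧ x (1 : Fin 2) ∈ P 0 t ∧
      lx 1 (x (0 : Fin 2)) - lx 0 (x (1 : Fin 2)) ∈ P (-c) (t + 1)

variable {lx P ly Q}

/-- The conditions under which lifts of single rows give lifts of rows at an object. -/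
structure LiftData (F : X →ₗ[ℚ] Y) : Prop where
  comm : ∀ k x, F (lx k x) = ly k (F x)
  lcomm : ∀ x, lx 1 (lx 0 x) = lx 0 (lx 1 x)
  lmem : ∀ {d b : ℤ} k {x}, x ∈ P d b → lx k x ∈ P d (b + 1)
  mono : ∀ {d d' b : ℤ}, d ≤ d' → P d b ≤ P d' b
  decomp : ∀ (c : ℕ) {b : ℤ} {y0 y1 : Y}, y0 ∈ Q 0 b → y1 ∈ Q 0 b →
    ly 1 y0 - ly 0 y1 ∈ Q (-c) (b + 1) →
    ∃ z ∈ Q 0 (b - 1), y0 + ly 0 z ∈ Q (-c) b ∧ y1 + ly 1 z ∈ Q (-c) b

/-- Lifts of single rows at the needed places give lifts of rows. -/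
theorem LiftData.lift {F : X →ₗ[ℚ] Y} (D : LiftData (lx := lx) (P := P) (ly := ly) (Q := Q) F)
    {t : ℤ} (u : Ob)
    (hl : ∀ a s, u = .line a s → ∀ y ∈ Q (-a) (t - s), ∃ x ∈ P (-a) (t - s), F x = y)
    (hp : ∀ c, u = .pair c → (∀ y ∈ Q (-c) t, ∃ x ∈ P (-c) t, F x = y) ∧
      ∀ y ∈ Q 0 (t - 1), ∃ x ∈ P 0 (t - 1), F x = y)
    {y : Fin u.rk → Y} (hy : Rows ly Q t u y) : ∃ x, Rows lx P t u x ∧ ∀ i, F (x i) = y i := by
  cases u with
  | line a s =>
    obtain ⟨x, hx, e⟩ := hl a s rfl _ hy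
    refine ⟨fun _ => x, hx, fun i => ?_⟩
    obtain rfl : i = (0 : Fin 1) := Subsingleton.elim (α := Fin 1) _ _
    exact e
  | pair c =>
    obtain ⟨z, hz, z0, z1⟩ := D.decomp c hy.1 hy.2.1 hy.2.2
    obtain ⟨hA, hB⟩ := hp c rfl
    obtain ⟨p0, hp0, e0⟩ := hA _ z0
    obtain ⟨p1, hp1, e1⟩ := hA _ z1
    obtain ⟨w, hw, ew⟩ := hB _ hz
    have hw' : ∀ k, lx k w ∈ P 0 t := fun k => by simpa using D.lmem k hw
    refine ⟨![p0 - lx 0 w, p1 - lx 1 w], ⟨?_, ?_, ?_⟩, fun i => ?_⟩
    · exact sub_mem (D.mono (by omega) hp0) (hw' 0)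
    · exact sub_mem (D.mono (by omega) hp1) (hw' 1)
    · show lx 1 (p0 - lx 0 w) - lx 0 (p1 - lx 1 w) ∈ _
      rw [map_sub, map_sub, D.lcomm, sub_sub_sub_cancel_right]
      exact sub_mem (D.lmem 1 hp0) (D.lmem 0 hp1)
    · fin_cases i
      · show F (p0 - lx 0 w) = _
        rw [map_sub, D.comm, e0, ew, add_sub_cancel_right]
        rfl
      · show F (p1 - lx 1 w) = _
        rw [map_sub, D.comm, e1, ew, add_sub_cancel_right]
        rfl

/-- A map that reflects the grading reflects rows. -/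
theorem Rows.reflect {F : X →ₗ[ℚ] Y} (comm : ∀ k x, F (lx k x) = ly k (F x))
    (h : ∀ {d b : ℤ} {x}, F x ∈ Q d b → x ∈ P d b) {t : ℤ} (u : Ob) {x : Fin u.rk → X}
    (hx : Rows ly Q t u fun i => F (x i)) : Rows lx P t u x := by
  cases u with
  | line a s => exact h hx
  | pair c =>
    refine ⟨h hx.1, h hx.2.1, h ?_⟩
    rw [map_sub, comm, comm]
    exact hx.2.2

end Rows

end Vale.Agent.P195.Gamma.Symb
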