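import Vale.Agent.P195.Gamma.Slots

/-!
The formulas on slots commute with left multiplication, preserve the auxiliary degrees, compose to
zero and anticommute with the comparison maps.
-/

namespace Vale.Agent.P195.Gamma

open Model

theorem OpFam.smul_eq_lmul (a : D) (w : OpFam) : a • w = lmulFam a w := rfl

theorem opActs_smul (a : D) :
    (∀ l (w : OpFam), opActs.Z l (a • w) = a • opActs.Z l w) ∧
    (∀ l (w : OpFam), opActs.A l (a • w) = a • opActs.A l w) ∧
    (∀ l (w : OpFam), opActs.Y l (a • w) = a • opActs.Y l w) ∧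
    (∀ l (w : OpFam), opActs.P l (a • w) = a • opActs.P l w) :=
  ⟨fun l w => ((lmulFam_inter a).Z l w).symm, fun l w => ((lmulFam_inter a).A l w).symm,
    fun l w => ((lmulFam_inter a).Y l w).symm, fun l w => ((lmulFam_inter a).P l w).symm⟩

theorem opActs_T_smul (a : D) (w : OpFam) : opActs.T (a • w) = a • opActs.T w :=
  (Acts.Inter.T opActs (lmulFam_inter a) w).symm

theorem qsmul_comm_D (c : ℚ) (a : D) (w : OpFam) : c • a • w = a • c • w := by
  funext m
  exact (mul_smul_comm c a (w m)).symm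

namespace Slot

theorem leftLin_zero {C C' : Type} : LeftLin (0 : (C → OpFam) →ₗ[ℚ] (C' → OpFam)) :=
  fun a _ => by simp

theorem leftLin_smul {C C' : Type} {Φ : (C → OpFam) →ₗ[ℚ] (C' → OpFam)} (c : ℚ)
    (h : LeftLin Φ) : LeftLin (c • Φ) := fun a y => by
  funext p
  rw [LinearMap.smul_apply, h, LinearMap.smul_apply]
  exact qsmul_comm_D c a (Φ y p)

theorem zPL_smul (a : D) (y : Fin 2 → OpFam) : zPL (a • y) = a • zPL y := by
  show opActs.Z 0 (a • y 0) + opActs.Z 1 (a • y 1) = _
  rw [(opActs_smul a).1, (opActs_smul a).1, ← smul_add]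
  rfl

theorem leftLin_dF : ∀ J k, LeftLin (dF J k)
  | 0, 0 => fun a y => _root_.funext fun _ => zPL_smul a y
  | 0, 1 => fun a y => by
    have hc : curl (a • y) = a • curl y := by
      show opActs.A 1 (a • y 0) - opActs.A 0 (a • y 1) = _
      rw [(opActs_smul a).2.1, (opActs_smul a).2.1]
      funext m
      exact (mul_sub a _ _).symm
    funext r
    show kz (curl (a • y)) r = a • kz (curl y) r
    rw [hc]
    fin_cases r
    · exact (opActs_smul a).1 1 _
    · show -(opActs.Z 0 (a • curl y)) = a • -(opActs.Z 0 (curl y))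
      rw [(opActs_smul a).1, smul_neg]
  | 0, 2 => fun a y => _root_.funext fun l => (opActs_smul a).2.1 l _
  | 0, _ + 3 => leftLin_zero
  | _ + 1, 0 => leftLin_zero
  | j + 1, 1 => fun a y => _root_.funext fun _ =>
    (Acts.Inter.d1 opActs (lmulFam_inter a) j (split y)).symm
  | j + 1, 2 => fun a y => _root_.funext fun c => by
    rcases c with l | r
    · exact (Acts.Inter.d2_fst opActs (lmulFam_inter a) j (cur y) l).symm
    · exact (Acts.Inter.d2_snd opActs (lmulFam_inter a) j (cur y) r).symm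
  | j + 1, 3 => fun a y => _root_.funext fun p =>
    (Acts.Inter.d3 opActs (lmulFam_inter a) j (y ()) p.1 p.2).symm
  | _ + 1, _ + 4 => leftLin_zero

theorem leftLin_fF0 : ∀ J k, LeftLin (fF0 J k)
  | 0, 0 => leftLin_zero
  | 0, 1 => fun a y => _root_.funext fun r => by
    show kz (a • y ()) r = a • kz (y ()) r
    fin_cases r
    · exact (opActs_smul a).1 1 _
    · show -(opActs.Z 0 (a • y ())) = a • -(opActs.Z 0 (y ()))
      rw [(opActs_smul a).1, smul_neg]
  | 0, 2 => fun a y => _root_.funext fun _ => opActs_T_smul a _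
  | 0, 3 => fun a y => _root_.funext fun _ => by
    show -(opActs.Z 0 (zPL (a • cur y 0)) + opActs.Z 1 (zPL (a • cur y 1))) =
      a • -(opActs.Z 0 (zPL (cur y 0)) + opActs.Z 1 (zPL (cur y 1)))
    rw [zPL_smul, zPL_smul, (opActs_smul a).1, (opActs_smul a).1, ← smul_add, smul_neg]
  | 0, _ + 4 => leftLin_zero
  | _ + 1, 0 => leftLin_zero
  | J + 1, 1 => fun a y => _root_.funext fun _ => by
    show (((J : ℚ) + 2) * Acts.cj J) • opActs.T (a • y ()) = a • ((((J : ℚ) + 2) * Acts.cj J) • opActs.T (y ()))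
    rw [opActs_T_smul, qsmul_comm_D]
  | J + 1, 2 => fun a y => _root_.funext fun c => by
    rcases c with l | r
    · exact (Acts.Inter.f1_fst opActs (lmulFam_inter a) J (split y) l).symm
    · exact (Acts.Inter.f1_snd opActs (lmulFam_inter a) J (split y) r).symm
  | _ + 1, 3 => fun a y => _root_.funext fun p => opActs_T_smul a _
  | _ + 1, 4 => fun a y => _root_.funext fun _ => opActs_T_smul a _
  | _ + 1, _ + 5 => leftLin_zero

theorem leftLin_fF (J k : ℕ) : LeftLin (fF J k) := leftLin_smul _ (leftLin_fF0 J k)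

theorem deg_zero (d : ℚ) : opActs.Deg d (0 : OpFam) := by simp [Acts.Deg]

theorem deg_of_eq {d d' : ℚ} {w : OpFam} (h : opActs.Deg d w) (e : d = d') : opActs.Deg d' w :=
  e ▸ h

theorem good_dF : ∀ J k (y : C J (k + 1) → OpFam), Good J (k + 1) y → Good J k (dF J k y)
  | 0, 0, y, h => fun _ => deg_of_eq (Acts.Deg.zP opActs (d := (0 : ℚ)) fun r => by simpa [q] using h r) (by simp [q])
  | 0, 1, y, h => fun r => by
    have hc : opActs.Deg 0 (curl y) :=
      (((by simpa [q] using h 0 : opActs.Deg 0 (y 0)).A opActs 1).sub opActs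
        ((by simpa [q] using h 1 : opActs.Deg 0 (y 1)).A opActs 0))
    refine deg_of_eq (d := 0) ?_ (by simp [q])
    fin_cases r
    · exact hc.Z opActs 1
    · exact (hc.Z opActs 0).neg opActs
  | 0, 2, y, h => fun l => deg_of_eq ((h ()).A opActs l) (by simp [q])
  | 0, _ + 3, _, _ => fun c => deg_zero _
  | _ + 1, 0, _, _ => fun c => c.elim
  | j + 1, 1, y, h => fun _ =>
    deg_of_eq (Acts.Deg.d1 opActs (j := j) (hG := split y)
      (fun l => deg_of_eq (h (.inl l)) (by simp [q])) (fun r => deg_of_eq (h (.inr r)) (by simp [q])))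
      (by simp [q])
  | j + 1, 2, y, h => fun c => by
    have := Acts.Deg.d2 opActs (j := j) (p := cur y) fun l r => deg_of_eq (h (l, r)) (by simp [q])
    rcases c with l | r
    · exact deg_of_eq (this.1 l) (by simp [q])
    · exact deg_of_eq (this.2 r) (by simp [q])
  | j + 1, 3, y, h => fun p =>
    deg_of_eq (Acts.Deg.d3 opActs (j := j) (g := y ()) (deg_of_eq (h ()) (by simp [q])) p.1 p.2)
      (by simp [q])
  | _ + 1, _ + 4, _, _ => fun c => deg_zero _

theorem dF_dF : ∀ J k (y : C J (k + 2) → OpFam), Good J (k + 2) y →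
    dF J k (dF J (k + 1) y) = 0
  | 0, 0, y, _ => by
    funext _
    show zPL (kz (curl y)) = 0
    show opActs.Z 0 (opActs.Z 1 (curl y)) + opActs.Z 1 (-(opActs.Z 0 (curl y))) = 0
    rw [map_neg, opActs.Z10, add_neg_cancel]
  | 0, 1, y, _ => by
    show kz (curl fun l => opActs.A l (y ())) = 0
    have hc : curl (fun l => opActs.A l (y ())) = 0 := by
      show opActs.A 1 (opActs.A 0 (y ())) - opActs.A 0 (opActs.A 1 (y ())) = 0
      rw [opActs.A10, sub_self]
    rw [hc, map_zero]
  | 0, k + 2, _, _ => by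
    rw [show dF 0 (k + 2 + 1) = 0 from rfl, LinearMap.zero_apply, map_zero]
  | _ + 1, 0, _, _ => rfl
  | j + 1, 1, y, h => by
    funext _
    show opActs.d1 j (split (merge (opActs.d2 j (cur y)))) = 0
    exact opActs.d1_d2 j (cur y) fun l r => deg_of_eq (h (l, r)) (by simp [q])
  | j + 1, 2, y, h => by
    show merge (opActs.d2 j (cur (unc (opActs.d3 j (y ()))))) = 0
    funext c
    rcases c with l | r
    · exact opActs.d2_d3_fst j (y ()) (deg_of_eq (h ()) (by simp [q])) l
    · exact opActs.d2_d3_snd j (y ()) (deg_of_eq (h ()) (by simp [q])) r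
  | j + 1, k + 3, _, _ => by
    rw [show dF (j + 1) (k + 3 + 1) = 0 from rfl, LinearMap.zero_apply, map_zero]

theorem head_square_one (h : Fin 2 → OpFam) (g : Fin 2 → OpFam)
    (hh : ∀ l, opActs.Deg 1 (h l)) (hg : ∀ r, opActs.Deg (-1) (g r)) :
    opActs.d1 0 (h, g) = curl fun l => opActs.T (h l) := by
  have hg0 : ∀ r, g r = 0 := fun r => by
    funext m
    refine (OpFam.deg_iff _ _).1 (hg r) m ?_
    have : (0 : ℚ) ≤ ((m.1 + m.2 : ℕ) : ℚ) := Nat.cast_nonneg _
    intro e; linarith
  have comm : ∀ l (w : OpFam), opActs.T (opActs.A l w) = opActs.A l (opActs.T w) + opActs.P l w := by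
    intro l w
    fin_cases l <;> simp [Acts.T, opActs.A00Z, opActs.A11Z, opActs.A01Z, opActs.A10Z, opActs.AP] <;>
      abel
  show _ = opActs.A 1 (opActs.T (h 0)) - opActs.A 0 (opActs.T (h 1))
  simp [Acts.d1, Acts.WH, Acts.zP, Acts.cj, hg0, comm]

theorem head_square_two (p : Fin 2 → Fin 2 → OpFam) (hp : ∀ l r, opActs.Deg 0 (p l r))
    (l : Fin 2) :
    opActs.T ((opActs.d2 0 p).1 l) =
      opActs.A l (-(opActs.Z 0 (zPL (p 0)) + opActs.Z 1 (zPL (p 1)))) := by
  have z : ∀ a b : Fin 2, ∀ c, opActs.P c (p a b) = 0 := fun a b c => by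
    funext m
    refine (OpFam.deg_iff _ _).1 ((hp a b).P opActs c) m ?_
    have : (0 : ℚ) ≤ ((m.1 + m.2 : ℕ) : ℚ) := Nat.cast_nonneg _
    intro e; linarith
  have za : ∀ a b c l : Fin 2, opActs.P c (opActs.A l (p a b)) = 0 := fun a b c l => by
    rw [← opActs.AP, z, map_zero]
  fin_cases l <;>
  simp [Acts.d2, Acts.zP, Acts.T, Acts.cj, zPL, z, za, opActs.PZ, opActs.YZ, opActs.AY, opActs.AP,
    opActs.A00Z, opActs.A11Z, opActs.A01Z, opActs.A10Z, opActs.P00Y, opActs.P11Y, opActs.P01Y,
    opActs.P10Y, opActs.Z10] <;> abel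

theorem head_square_three (g : OpFam) (hg : opActs.Deg 0 g) :
    opActs.Z 0 (zPL (opActs.d3 0 g 0)) + opActs.Z 1 (zPL (opActs.d3 0 g 1)) = 0 := by
  have z : ∀ c, opActs.P c g = 0 := fun c => by
    funext m
    refine (OpFam.deg_iff _ _).1 (hg.P opActs c) m ?_
    have : (0 : ℚ) ≤ ((m.1 + m.2 : ℕ) : ℚ) := Nat.cast_nonneg _
    intro e; linarith
  simp [Acts.d3, Acts.WB, Acts.zP, Acts.io, Acts.T, Acts.cj, zPL, z, opActs.PZ, opActs.YZ,
    opActs.AY, opActs.AP, opActs.A00Z, opActs.A11Z, opActs.A01Z, opActs.A10Z, opActs.P00Y,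
    opActs.P11Y, opActs.P01Y, opActs.P10Y, opActs.Z10]
  try abel

theorem dF_fF0 : ∀ J k (y : C (J + 1) (k + 1) → OpFam), Good (J + 1) (k + 1) y →
    dF J k (fF0 J (k + 1) y) = fF0 J k (dF (J + 1) k y)
  | 0, 0, y, _ => by
    funext _
    show opActs.Z 0 (opActs.Z 1 (y ())) + opActs.Z 1 (-(opActs.Z 0 (y ()))) = 0
    rw [map_neg, opActs.Z10, add_neg_cancel]
  | 0, 1, y, h => by
    show kz (curl fun l => opActs.T (y (.inl l))) = kz (opActs.d1 0 (split y))
    rw [head_square_one (split y).1 (split y).2 (fun l => deg_of_eq (h (.inl l)) (by simp [q]))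
      (fun r => deg_of_eq (h (.inr r)) (by simp [q]))]
    rfl
  | 0, 2, y, h => _root_.funext fun l =>
    (head_square_two (cur y) (fun a b => deg_of_eq (h (a, b)) (by simp [q])) l).symm
  | 0, 3, y, h => by
    funext _
    show (0 : OpFam) = -(opActs.Z 0 (zPL (opActs.d3 0 (y ()) 0)) +
      opActs.Z 1 (zPL (opActs.d3 0 (y ()) 1)))
    rw [head_square_three (y ()) (deg_of_eq (h ()) (by simp [q])), neg_zero]
  | 0, k + 4, y, _ => by
    rw [show fF0 0 (k + 4 + 1) = 0 from rfl, LinearMap.zero_apply, map_zero]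
    rfl
  | J + 1, 0, y, _ => rfl
  | J + 1, 1, y, h => by
    funext _
    show opActs.d1 J (opActs.f1 J (split y)) =
      (((J : ℚ) + 2) * Acts.cj J) • opActs.T (opActs.d1 (J + 1) (split y))
    exact (opActs.f0_d1 J (split y) (fun l => deg_of_eq (h (.inl l)) (by simp [q]; ring))
      (fun r => deg_of_eq (h (.inr r)) (by simp [q]))).symm
  | J + 1, 2, y, h => by
    show merge (opActs.d2 J (opActs.f2 (cur y))) =
      merge (opActs.f1 J (opActs.d2 (J + 1) (cur y)))
    rw [opActs.f1_d2 J (cur y) fun a b => deg_of_eq (h (a, b)) (by simp [q])]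
  | J + 1, 3, y, h => by
    show unc (opActs.d3 J (opActs.f3 (y ()))) = unc (opActs.f2 (opActs.d3 (J + 1) (y ())))
    rw [opActs.f2_d3 J (y ()) (deg_of_eq (h ()) (by simp [q]))]
  | J + 1, k + 4, y, _ => by
    rw [show dF (J + 1) (k + 4) = 0 from rfl, show dF (J + 1 + 1) (k + 4) = 0 from rfl,
      LinearMap.zero_apply, LinearMap.zero_apply, map_zero]

theorem dF_fF (J k : ℕ) (y : C (J + 1) (k + 1) → OpFam) (h : Good (J + 1) (k + 1) y) :
    dF J k (fF J (k + 1) y) + fF J k (dF (J + 1) k y) = 0 := by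
  funext c
  rw [fF, fF, LinearMap.smul_apply, map_smul, dF_fF0 J k y h, LinearMap.smul_apply, pow_succ,
    mul_neg, mul_one]
  funext m
  simp only [Pi.add_apply, Pi.smul_apply, Pi.zero_apply]
  module

theorem good_fF : ∀ J k (y : C (J + 1) k → OpFam), Good (J + 1) k y → Good J k (fF J k y) := by
  intro J k y h
  have key : Good J k (fF0 J k y) := by
    match J, k with
    | 0, 0 => intro c; exact deg_zero _
    | 0, 1 =>
      intro r
      have hz : opActs.Deg 0 (y ()) := deg_of_eq (h ()) (by simp [q])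
      refine deg_of_eq (d := 0) ?_ (by simp [q])
      fin_cases r
      · exact hz.Z opActs 1
      · exact (hz.Z opActs 0).neg opActs
    | 0, 2 => intro l; exact deg_of_eq ((h (.inl l)).T opActs) (by simp [q])
    | 0, 3 =>
      intro c
      have hz : ∀ a, opActs.Deg 0 (zPL (cur y a)) := fun a =>
        Acts.Deg.zP opActs (p := cur y a) fun r => deg_of_eq (h (a, r)) (by simp [q])
      exact deg_of_eq ((((hz 0).Z opActs 0).add opActs ((hz 1).Z opActs 1)).neg opActs) (by simp [q])
    | 0, k + 4 => intro c; exact deg_zero _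
    | J + 1, 0 => intro c; exact c.elim
    | J + 1, 1 => intro c; exact deg_of_eq (((h ()).T opActs).smul opActs _) (by simp [q])
    | J + 1, 2 =>
      have h1 : ∀ l, opActs.Deg ((J : ℚ) + 2) (y (.inl l)) := fun l =>
        deg_of_eq (h (.inl l)) (by simp [q]; ring)
      have h2 : ∀ r, opActs.Deg (J : ℚ) (y (.inr r)) := fun r =>
        deg_of_eq (h (.inr r)) (by simp [q])
      intro c
      rcases c with l | r
      · refine deg_of_eq (d := (J : ℚ) + 1) ?_ (by simp [q])
        have hQ : opActs.Deg (J : ℚ) (-opActs.zP (split y).2) := (Acts.Deg.zP opActs h2).neg opActs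
        exact ((deg_of_eq ((h1 l).T opActs) (by ring)).add opActs
          ((hQ.io opActs l).smul opActs _)).sub opActs
          ((Acts.Deg.zP opActs fun s => (hQ.A opActs l).io opActs s).smul opActs _)
      · refine deg_of_eq (d := (J : ℚ) - 1) ?_ (by simp [q])
        exact ((h2 r).T opActs).add opActs (((((h2 r).P opActs (1 - r)).Z opActs (1 - r)).sub opActs
          (((h2 (1 - r)).P opActs r).Z opActs (1 - r))).smul opActs _)
    | J + 1, 3 => intro p; exact deg_of_eq ((h p).T opActs) (by simp [q])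
    | J + 1, 4 => intro c; exact deg_of_eq ((h ()).T opActs) (by simp [q])
    | J + 1, k + 5 => intro c; exact c.elim
  intro c
  exact (key c).smul opActs _

end Slot

end Vale.Agent.P195.Gamma
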