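import Vale.Agent.P195.Model.Lattice

/-!
Antinormal symbols of operators tensored with polynomials in two auxiliary variables: the graded
pieces, the basic maps on them and the elementary exactness statements.

A monomial `x^b z^a y^m` stands for the operator `dp b * mlt (z^a)` in the component `y^m`.
-/

namespace Vale.Agent.P195.Gamma.Symb

open MvPolynomial Model

/-- The variables: `(0, l)` for `x`, `(1, l)` for `z`, `(2, l)` for `y`. -/
abbrev V := Fin 3 × Fin 2

/-- Symbols with auxiliary variables. -/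
abbrev R := MvPolynomial V ℚ

/-- The symbol of a derivative. -/
noncomputable abbrev xv (l : Fin 2) : R := X (0, l)

/-- The symbol of a variable. -/
noncomputable abbrev zv (l : Fin 2) : R := X (1, l)

/-- An auxiliary variable. -/
noncomputable abbrev yv (l : Fin 2) : R := X (2, l)

/-- The degree in one kind of variables. -/
def deg (i : Fin 3) (e : V →₀ ℕ) : ℤ := (e (i, 0) : ℤ) + e (i, 1)

/-- Exponents of order at most `d`, weight `t` and auxiliary degree `q`. -/
def expSet (d t q : ℤ) : Set (V →₀ ℕ) :=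
  {e | deg 0 e ≤ d ∧ deg 1 e - deg 0 e = t ∧ deg 2 e = q}

/-- Symbols of order at most `d`, weight `t` and auxiliary degree `q`. -/
noncomputable def S (d t q : ℤ) : Submodule ℚ R := restrictSupport ℚ (expSet d t q)

/-! ### Maps -/

/-- The derivative in an auxiliary variable. -/
noncomputable def dy (r : Fin 2) : R →ₗ[ℚ] R := (pderiv ((2, r) : V)).toLinearMap

/-- The derivative in a variable. -/
noncomputable def dz (l : Fin 2) : R →ₗ[ℚ] R := (pderiv ((1, l) : V)).toLinearMap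

/-- Right multiplication by a derivative. -/
noncomputable def A (l : Fin 2) : R →ₗ[ℚ] R := LinearMap.mulLeft ℚ (xv l) - dz l

/-- The sum of the variables times the auxiliary derivatives. -/
noncomputable def T : R →ₗ[ℚ] R :=
  LinearMap.mulLeft ℚ (zv 0) ∘ₗ dy 0 + LinearMap.mulLeft ℚ (zv 1) ∘ₗ dy 1

/-- The equation of the diagonal. -/
noncomputable def Delta : R := zv 0 * yv 1 - zv 1 * yv 0

/-- The auxiliary Koszul pair. -/
noncomputable def iota (g : R) : Fin 2 → R := ![yv 1 * g, -(yv 0 * g)]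

/-- Contraction with the variables. -/
noncomputable def zc (P : Fin 2 → R) : R := zv 0 * P 0 + zv 1 * P 1

/-- Contraction with the auxiliary variables. -/
noncomputable def yc (P : Fin 2 → R) : R := yv 0 * P 0 + yv 1 * P 1

/-- Restriction to the diagonal: each auxiliary variable becomes the variable. -/
noncomputable def res : R →ₐ[ℚ] R := aeval fun v : V => if v.1 = 2 then zv v.2 else X v

/-- The exponent of one kind of variables as a pair. -/
def pr (i : Fin 3) (e : V →₀ ℕ) : ℕ × ℕ := (e (i, 0), e (i, 1))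

/-- The exponent with the given entries. -/
noncomputable def zexp (a : ℕ × ℕ) : Fin 2 →₀ ℕ :=
  Finsupp.single 0 a.1 + Finsupp.single 1 a.2

/-- The monomial in the operators' variables of the given exponents. -/
noncomputable def zmon (a : ℕ × ℕ) : Pol := monomial (zexp a) 1

/-- The families of antinormal coefficients of the components. -/
noncomputable def split : R →ₗ[ℚ] (ℕ × ℕ →₀ ℕ × ℕ →₀ Pol) :=
  (basisMonomials V ℚ).constr ℚ fun e =>
    Finsupp.single (pr 2 e) (Finsupp.single (pr 0 e) (zmon (pr 1 e)))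

/-- The operators of the components. -/
noncomputable def op : R →ₗ[ℚ] (ℕ × ℕ →₀ D) := Finsupp.mapRange.linearMap ant ∘ₗ split

/-- Application of the components to the monomials they stand by. -/
noncomputable def app : R →ₗ[ℚ] Pol :=
  (Finsupp.lsum ℚ fun m : ℕ × ℕ => LinearMap.applyₗ (R := ℚ) (zmon m)) ∘ₗ op

/-! ### Monomials and spans -/

theorem lext {M : Type*} [AddCommMonoid M] [Module ℚ M] {L L' : R →ₗ[ℚ] M}
    (h : ∀ e, L (monomial e 1) = L' (monomial e 1)) : L = L' :=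
  (basisMonomials V ℚ).ext fun e => by
    simpa only [coe_basisMonomials] using h e

theorem map_restrict {M : Type*} [AddCommGroup M] [Module ℚ M] {C : Set (V →₀ ℕ)}
    {N : Submodule ℚ M} (L : R →ₗ[ℚ] M) (h : ∀ e ∈ C, L (monomial e 1) ∈ N) {f : R}
    (hf : f ∈ restrictSupport ℚ C) : L f ∈ N := by
  have key : restrictSupport ℚ C ≤ N.comap L := by
    rw [restrictSupport_eq_span, Submodule.span_le]
    rintro _ ⟨e, he, rfl⟩
    exact h e he
  exact key hf

theorem eq_on_restrict {M : Type*} [AddCommGroup M] [Module ℚ M] {C : Set (V →₀ ℕ)}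
    (L L' : R →ₗ[ℚ] M) (h : ∀ e ∈ C, L (monomial e 1) = L' (monomial e 1)) {f : R}
    (hf : f ∈ restrictSupport ℚ C) : L f = L' f := by
  refine sub_eq_zero.1 ((Submodule.mem_bot ℚ).1 (map_restrict (L - L') (fun e he => ?_) hf))
  rw [Submodule.mem_bot, LinearMap.sub_apply, h e he, sub_self]

theorem mono_mem {C : Set (V →₀ ℕ)} {e : V →₀ ℕ} (a : ℚ) (h : e ∈ C) :
    monomial e a ∈ restrictSupport ℚ C := by
  rw [monomial_mem_restrictSupport]
  exact Or.inl h

theorem mul_mem_restrict {B C : Set (V →₀ ℕ)} {p g : R}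
    (h : ∀ a ∈ p.support, ∀ e ∈ B, a + e ∈ C) (hg : g ∈ restrictSupport ℚ B) :
    p * g ∈ restrictSupport ℚ C := by
  classical
  refine (mem_restrictSupport_iff ℚ).2 fun e he => ?_
  obtain ⟨a, ha, b, hb, rfl⟩ := Finset.mem_add.1 (support_mul p g he)
  exact h a ha b ((mem_restrictSupport_iff ℚ).1 hg hb)

theorem eq_zero_of_disjoint {B C : Set (V →₀ ℕ)} (h : ∀ e ∈ B, e ∉ C) {f : R}
    (h1 : f ∈ restrictSupport ℚ B) (h2 : f ∈ restrictSupport ℚ C) : f = 0 := by
  refine support_eq_empty.1 (Finset.eq_empty_of_forall_notMem fun e he => ?_)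
  exact h e ((mem_restrictSupport_iff ℚ).1 h1 he) ((mem_restrictSupport_iff ℚ).1 h2 he)

theorem exists_split {B : Set (V →₀ ℕ)} (C : Set (V →₀ ℕ)) {f : R}
    (hf : f ∈ restrictSupport ℚ B) :
    ∃ g ∈ restrictSupport ℚ (B ∩ C), ∃ h ∈ restrictSupport ℚ (B ∩ Cᶜ), f = g + h := by
  classical
  have key : restrictSupport ℚ B ≤
      restrictSupport ℚ (B ∩ C) ⊔ restrictSupport ℚ (B ∩ Cᶜ) := by
    rw [restrictSupport_eq_span, Submodule.span_le]
    rintro _ ⟨e, he, rfl⟩
    by_cases h : e ∈ C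
    · exact Submodule.mem_sup_left (mono_mem 1 ⟨he, h⟩)
    · exact Submodule.mem_sup_right (mono_mem 1 ⟨he, h⟩)
  obtain ⟨g, hg, h, hh, e⟩ := Submodule.mem_sup.1 (key hf)
  exact ⟨g, hg, h, hh, e.symm⟩

theorem mem_of_mul {B C : Set (V →₀ ℕ)} {p g : R} (hp : p ≠ 0)
    (hshift : ∀ a ∈ p.support, ∀ e, a + e ∈ C ↔ e ∈ B) (h : p * g ∈ restrictSupport ℚ C) :
    g ∈ restrictSupport ℚ B := by
  obtain ⟨g1, h1, g2, h2, rfl⟩ := exists_split B (B := Set.univ)
    ((mem_restrictSupport_iff ℚ).2 (Set.subset_univ _) : g ∈ restrictSupport ℚ Set.univ)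
  have hb : restrictSupport ℚ (Set.univ ∩ B : Set (V →₀ ℕ)) ≤ restrictSupport ℚ B := by
    rw [Set.univ_inter]
  have hin : p * g1 ∈ restrictSupport ℚ C :=
    mul_mem_restrict (fun a ha e he => (hshift a ha e).2 he) (hb h1)
  have hout : p * g2 ∈ restrictSupport ℚ Cᶜ :=
    mul_mem_restrict (fun a ha e he => fun hc => he.2 ((hshift a ha e).1 hc)) h2
  have hz : p * g2 = 0 := by
    refine eq_zero_of_disjoint (B := C) (C := Cᶜ) (fun e he hc => hc he) ?_ hout
    have := sub_mem h hin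
    rwa [mul_add, add_sub_cancel_left] at this
  rw [(mul_eq_zero.1 hz).resolve_left hp, add_zero]
  exact hb h1

/-! ### Degrees -/

theorem deg_add (i : Fin 3) (e e' : V →₀ ℕ) : deg i (e + e') = deg i e + deg i e' := by
  simp [deg]
  ring

theorem deg_single (i j : Fin 3) (l : Fin 2) :
    deg i (Finsupp.single (j, l) 1) = if i = j then 1 else 0 := by
  fin_cases i <;> fin_cases j <;> fin_cases l <;> simp [deg]

theorem deg_sub_single (i j : Fin 3) (l : Fin 2) {e : V →₀ ℕ} (h : 0 < e (j, l)) :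
    deg i (e - Finsupp.single (j, l) 1) = deg i e - if i = j then 1 else 0 := by
  have he : e - Finsupp.single (j, l) 1 + Finsupp.single (j, l) 1 = e :=
    tsub_add_cancel_of_le (Finsupp.single_le_iff.2 h)
  conv_rhs => rw [← he, deg_add, deg_single, add_sub_cancel_right]

theorem mem_expSet {d t q : ℤ} {e : V →₀ ℕ} :
    e ∈ expSet d t q ↔ deg 0 e ≤ d ∧ deg 1 e - deg 0 e = t ∧ deg 2 e = q := Iff.rfl

theorem S_mono {d d' t q : ℤ} (h : d ≤ d') : S d t q ≤ S d' t q :=
  restrictSupport_mono ℚ fun _ he => ⟨he.1.trans h, he.2⟩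

theorem deg_nonneg (i : Fin 3) (e : V →₀ ℕ) : 0 ≤ deg i e := by
  simp only [deg]
  positivity

theorem S_eq_bot {d t q : ℤ} (h : d < 0 ∨ q < 0 ∨ t + d < 0) : S d t q = ⊥ := by
  rw [Submodule.eq_bot_iff]
  intro f hf
  refine support_eq_empty.1 (Finset.eq_empty_of_forall_notMem fun e he => ?_)
  obtain ⟨h0, h1, h2⟩ := (mem_restrictSupport_iff ℚ).1 hf he
  have := deg_nonneg 0 e
  have := deg_nonneg 1 e
  have := deg_nonneg 2 e
  omega

theorem X_support_eq {v : V} {a : V →₀ ℕ} (ha : a ∈ (X v : R).support) :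
    a = Finsupp.single v 1 := by
  rw [support_X] at ha
  exact Finset.mem_singleton.1 ha

theorem X_mul_mem {d t q : ℤ} {f : R} (j : Fin 3) (l : Fin 2) (hf : f ∈ S d t q) :
    X (j, l) * f ∈ S (d + if j = 0 then 1 else 0)
      (t + ((if j = 1 then 1 else 0) - if j = 0 then 1 else 0))
      (q + if j = 2 then 1 else 0) := by
  refine mul_mem_restrict (fun a ha e he => ?_) hf
  rw [X_support_eq ha]
  obtain ⟨h0, h1, h2⟩ := he
  simp only [mem_expSet, deg_add, deg_single]
  fin_cases j <;> simp <;> omega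

theorem mem_of_X_mul {d t q : ℤ} {f : R} (j : Fin 3) (l : Fin 2)
    (hf : X (j, l) * f ∈ S d t q) :
    f ∈ S (d - if j = 0 then 1 else 0)
      (t - ((if j = 1 then 1 else 0) - if j = 0 then 1 else 0))
      (q - if j = 2 then 1 else 0) := by
  refine mem_of_mul (X_ne_zero _) (fun a ha e => ?_) hf
  rw [X_support_eq ha]
  simp only [mem_expSet, deg_add, deg_single]
  fin_cases j <;> simp <;> omega

theorem zv_mul_mem {d t q : ℤ} {f : R} (k : Fin 2) (hf : f ∈ S d t q) :
    zv k * f ∈ S d (t + 1) q := by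
  simpa using X_mul_mem 1 k hf

theorem xv_mul_mem {d t q : ℤ} {f : R} (l : Fin 2) (hf : f ∈ S d t q) :
    xv l * f ∈ S (d + 1) (t - 1) q := by
  simpa [sub_eq_add_neg] using X_mul_mem 0 l hf

theorem yv_mul_mem {d t q : ℤ} {f : R} (r : Fin 2) (hf : f ∈ S d t q) :
    yv r * f ∈ S d t (q + 1) := by
  simpa using X_mul_mem 2 r hf

theorem mem_of_zv_mul {d t q : ℤ} {f : R} (k : Fin 2) (hf : zv k * f ∈ S d t q) :
    f ∈ S d (t - 1) q := by
  simpa using mem_of_X_mul 1 k hf

theorem mem_of_xv_mul {d t q : ℤ} {f : R} (l : Fin 2) (hf : xv l * f ∈ S d t q) :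
    f ∈ S (d - 1) (t + 1) q := by
  simpa using mem_of_X_mul 0 l hf

theorem mem_of_yv_mul {d t q : ℤ} {f : R} (r : Fin 2) (hf : yv r * f ∈ S d t q) :
    f ∈ S d t (q - 1) := by
  simpa using mem_of_X_mul 2 r hf

theorem pderiv_mem {d t q : ℤ} {f : R} (j : Fin 3) (l : Fin 2) (hj : j ≠ 0) (hf : f ∈ S d t q) :
    pderiv ((j, l) : V) f ∈ S d (t - if j = 1 then 1 else 0) (q - if j = 2 then 1 else 0) := by
  refine map_restrict (pderiv ((j, l) : V)).toLinearMap (fun e he => ?_) hf
  show pderiv ((j, l) : V) (monomial e (1 : ℚ)) ∈ S _ _ _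
  rw [pderiv_monomial]
  rcases Nat.eq_zero_or_pos (e (j, l)) with h | h
  · simp [h]
  · refine mono_mem _ ?_
    obtain ⟨h0, h1, h2⟩ := he
    simp only [mem_expSet, deg_sub_single _ _ _ h]
    revert hj
    fin_cases j <;> simp <;> omega

theorem dy_mem {d t q : ℤ} {f : R} (r : Fin 2) (hf : f ∈ S d t q) :
    dy r f ∈ S d t (q - 1) := by
  simpa [dy] using pderiv_mem 2 r (by decide) hf

theorem dz_mem {d t q : ℤ} {f : R} (l : Fin 2) (hf : f ∈ S d t q) :
    dz l f ∈ S d (t - 1) q := by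
  simpa [dz] using pderiv_mem 1 l (by decide) hf

theorem A_apply (l : Fin 2) (f : R) : A l f = xv l * f - dz l f := rfl

theorem A_mem {d t q : ℤ} {f : R} (l : Fin 2) (hf : f ∈ S d t q) :
    A l f ∈ S (d + 1) (t - 1) q :=
  sub_mem (xv_mul_mem l hf) (S_mono (by omega) (dz_mem l hf))

theorem T_apply (f : R) : T f = zv 0 * dy 0 f + zv 1 * dy 1 f := rfl

theorem T_mem {d t q : ℤ} {f : R} (hf : f ∈ S d t q) : T f ∈ S d (t + 1) (q - 1) :=
  add_mem (zv_mul_mem 0 (dy_mem 0 hf)) (zv_mul_mem 1 (dy_mem 1 hf))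

theorem Delta_mul_mem {d t q : ℤ} {f : R} (hf : f ∈ S d t q) :
    Delta * f ∈ S d (t + 1) (q + 1) := by
  rw [Delta, sub_mul, mul_assoc, mul_assoc]
  exact sub_mem (zv_mul_mem 0 (yv_mul_mem 1 hf)) (zv_mul_mem 1 (yv_mul_mem 0 hf))

theorem iota_mem {d t q : ℤ} {f : R} (hf : f ∈ S d t q) (l : Fin 2) :
    iota f l ∈ S d t (q + 1) := by
  fin_cases l
  · exact yv_mul_mem 1 hf
  · exact neg_mem (yv_mul_mem 0 hf)

theorem Delta_ne_zero : Delta ≠ 0 := by
  intro h
  have := congrArg (eval fun v : V => if v = (1, 1) ∨ v = (2, 0) then (1 : ℚ) else 0) h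
  simp [Delta] at this

theorem mem_of_Delta_mul {d t q : ℤ} {f : R} (hf : Delta * f ∈ S d t q) :
    f ∈ S d (t - 1) (q - 1) := by
  classical
  refine mem_of_mul Delta_ne_zero (fun a ha e => ?_) hf
  have hm : a = Finsupp.single ((1, 0) : V) 1 + Finsupp.single ((2, 1) : V) 1 ∨
      a = Finsupp.single ((1, 1) : V) 1 + Finsupp.single ((2, 0) : V) 1 := by
    have h2 := support_sub (σ := V) (zv 0 * yv 1) (zv 1 * yv 0) ha
    simp only [zv, yv, X, monomial_mul, mul_one, support_monomial, one_ne_zero, if_false,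
      Finset.mem_union, Finset.mem_singleton] at h2
    exact h2
  rcases hm with rfl | rfl <;> simp [mem_expSet, deg_add, deg_single] <;> omega

/-! ### Commutation -/

theorem dz_xv_mul (l m : Fin 2) (f : R) : dz l (xv m * f) = xv m * dz l f := by
  show pderiv _ _ = _
  rw [pderiv_mul, pderiv_X_of_ne (by simp)]
  simp [dz]

theorem dy_xv_mul (l m : Fin 2) (f : R) : dy l (xv m * f) = xv m * dy l f := by
  show pderiv _ _ = _
  rw [pderiv_mul, pderiv_X_of_ne (by simp)]
  simp [dy]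

theorem dz_zv_mul (l k : Fin 2) (f : R) :
    dz l (zv k * f) = zv k * dz l f + if l = k then f else 0 := by
  show pderiv _ _ = _
  rw [pderiv_mul]
  split_ifs with h
  · subst h
    rw [pderiv_X_self, one_mul, add_comm]
    rfl
  · rw [pderiv_X_of_ne (by simpa using Ne.symm h)]
    simp [dz]

theorem dz_yv_mul (l r : Fin 2) (f : R) : dz l (yv r * f) = yv r * dz l f := by
  show pderiv _ _ = _
  rw [pderiv_mul, pderiv_X_of_ne (by simp)]
  simp [dz]

theorem dy_zv_mul (r k : Fin 2) (f : R) : dy r (zv k * f) = zv k * dy r f := by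
  show pderiv _ _ = _
  rw [pderiv_mul, pderiv_X_of_ne (by simp)]
  simp [dy]

theorem dy_yv_mul (r k : Fin 2) (f : R) :
    dy r (yv k * f) = yv k * dy r f + if r = k then f else 0 := by
  show pderiv _ _ = _
  rw [pderiv_mul]
  split_ifs with h
  · subst h
    rw [pderiv_X_self, one_mul, add_comm]
    rfl
  · rw [pderiv_X_of_ne (by simpa using Ne.symm h)]
    simp [dy]

theorem pderiv_comm' (a b : V) (f : R) : pderiv a (pderiv b f) = pderiv b (pderiv a f) := by
  induction f using MvPolynomial.induction_on with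
  | C c => simp
  | add p q hp hq => simp [hp, hq]
  | mul_X p k hp =>
    classical
    simp only [pderiv_mul, map_add, pderiv_X, hp]
    have hc : ∀ c d : V, pderiv c (Pi.single (M := fun _ => R) d 1 k) = 0 := by
      intro c d
      by_cases h : k = d
      · subst h; simp
      · simp [h]
    rw [hc, hc]
    ring

theorem A_comm (l m : Fin 2) (f : R) : A l (A m f) = A m (A l f) := by
  simp only [A_apply, map_sub, dz_xv_mul]
  have : dz l (dz m f) = dz m (dz l f) := pderiv_comm' _ _ f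
  rw [this]
  ring

theorem A_zv_mul (l k : Fin 2) (f : R) :
    A l (zv k * f) = zv k * A l f - if l = k then f else 0 := by
  rw [A_apply, A_apply, dz_zv_mul]
  ring

theorem A_yv_mul (l r : Fin 2) (f : R) : A l (yv r * f) = yv r * A l f := by
  rw [A_apply, A_apply, dz_yv_mul]
  ring

theorem A_dy (l r : Fin 2) (f : R) : A l (dy r f) = dy r (A l f) := by
  rw [A_apply, A_apply, map_sub, dy_xv_mul]
  have : dz l (dy r f) = dy r (dz l f) := pderiv_comm' _ _ f
  rw [this]

theorem T_A (l : Fin 2) (f : R) : T (A l f) = A l (T f) + dy l f := by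
  rw [T_apply, T_apply, map_add, A_zv_mul, A_zv_mul, A_dy, A_dy]
  fin_cases l <;> simp <;> ring

theorem T_Delta_mul (f : R) : T (Delta * f) = Delta * T f := by
  simp only [T_apply, Delta, sub_mul, mul_assoc, map_sub, dy_zv_mul, dy_yv_mul]
  simp
  ring

theorem A_Delta_mul (l : Fin 2) (f : R) : A l (Delta * f) = Delta * A l f - iota f l := by
  simp only [Delta, sub_mul, mul_assoc, map_sub, A_zv_mul, A_yv_mul]
  fin_cases l <;> simp [iota] <;> ring

/-! ### The standard monomials -/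

/-- The exponent with the given parts. -/
noncomputable def mk (b : ℕ × ℕ) (a : Fin 2 →₀ ℕ) (m : ℕ × ℕ) : V →₀ ℕ :=
  Finsupp.equivFunOnFinite.symm fun v => ![![b.1, b.2], ![a 0, a 1], ![m.1, m.2]] v.1 v.2

theorem zexp0 (a : ℕ × ℕ) : zexp a 0 = a.1 := by simp [zexp]

theorem zexp1 (a : ℕ × ℕ) : zexp a 1 = a.2 := by simp [zexp]

theorem mk_pr (e : V →₀ ℕ) : mk (pr 0 e) (zexp (pr 1 e)) (pr 2 e) = e := by
  refine Finsupp.ext fun v => ?_
  obtain ⟨i, l⟩ := v
  fin_cases i <;> fin_cases l <;> simp [mk, pr, zexp]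

theorem pr_mk0 (b : ℕ × ℕ) (a : Fin 2 →₀ ℕ) (m : ℕ × ℕ) : pr 0 (mk b a m) = b := by
  simp [pr, mk]

theorem pr_mk2 (b : ℕ × ℕ) (a : Fin 2 →₀ ℕ) (m : ℕ × ℕ) : pr 2 (mk b a m) = m := by
  simp [pr, mk]

theorem zmon_pr_mk1 (b : ℕ × ℕ) (a : Fin 2 →₀ ℕ) (m : ℕ × ℕ) :
    zmon (pr 1 (mk b a m)) = monomial a 1 := by
  have : zexp (pr 1 (mk b a m)) = a := by
    refine Finsupp.ext fun i => ?_
    fin_cases i <;> simp [pr, mk, zexp]
  rw [zmon, this]

theorem mk_mem {d t q : ℤ} {b : ℕ × ℕ} {a : Fin 2 →₀ ℕ} {m : ℕ × ℕ} (hb : sz b ≤ d)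
    (ha : ((a 0 + a 1 : ℕ) : ℤ) = sz b + t) (hm : (m.1 : ℤ) + m.2 = q) :
    mk b a m ∈ expSet d t q := by
  simp only [mem_expSet, deg, mk, sz] at *
  simp
  omega

theorem zmon_mul (a c : ℕ × ℕ) : zmon a * zmon c = zmon (a.1 + c.1, a.2 + c.2) := by
  simp only [zmon, zexp, monomial_mul, mul_one, Finsupp.single_add]
  congr 2
  abel

theorem zmon_mem_H (a : ℕ × ℕ) : zmon a ∈ H (a.1 + a.2 : ℕ) :=
  monomial_mem_H 1 (by simp [zexp])

theorem split_monomial (e : V →₀ ℕ) :
    split (monomial e 1) =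
      Finsupp.single (pr 2 e) (Finsupp.single (pr 0 e) (zmon (pr 1 e))) := by
  show split ((basisMonomials V ℚ) e) = _
  exact (basisMonomials V ℚ).constr_basis ℚ _ e

theorem op_apply (f : R) (m : ℕ × ℕ) : op f m = ant (split f m) := rfl

theorem op_monomial (e : V →₀ ℕ) :
    op (monomial e 1) = Finsupp.single (pr 2 e) (dp (pr 0 e) * mlt (zmon (pr 1 e))) := by
  show Finsupp.mapRange.linearMap ant (split (monomial e 1)) = _
  rw [split_monomial, Finsupp.mapRange.linearMap_apply, Finsupp.mapRange_single, ant_single]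

/-- The inverse of the decomposition into coefficient families. -/
noncomputable def join : (ℕ × ℕ →₀ ℕ × ℕ →₀ Pol) →ₗ[ℚ] R :=
  Finsupp.lsum ℚ fun m => Finsupp.lsum ℚ fun b =>
    (basisMonomials (Fin 2) ℚ).constr ℚ fun a => monomial (mk b a m) 1

theorem join_single (m b : ℕ × ℕ) (a : Fin 2 →₀ ℕ) :
    join (Finsupp.single m (Finsupp.single b (monomial a 1))) = monomial (mk b a m) 1 := by
  simp only [join, Finsupp.lsum_single]
  exact (basisMonomials (Fin 2) ℚ).constr_basis ℚ _ a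

theorem join_split (f : R) : join (split f) = f := by
  refine LinearMap.congr_fun (lext (L := join ∘ₗ split) (L' := LinearMap.id) fun e => ?_) f
  show join (split (monomial e 1)) = monomial e 1
  rw [split_monomial, zmon, join_single, mk_pr]

theorem split_injective : Function.Injective split :=
  Function.LeftInverse.injective join_split

theorem split_join (F : ℕ × ℕ →₀ ℕ × ℕ →₀ Pol) : split (join F) = F := by
  refine LinearMap.congr_fun (f := split ∘ₗ join) (g := LinearMap.id) ?_ F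
  refine Finsupp.lhom_ext' fun m => Finsupp.lhom_ext' fun b => ?_
  refine (basisMonomials (Fin 2) ℚ).ext fun a => ?_
  simp only [coe_basisMonomials, LinearMap.comp_apply, Finsupp.lsingle_apply, LinearMap.id_apply]
  rw [join_single, split_monomial, pr_mk0, pr_mk2, zmon_pr_mk1]

theorem op_injective : Function.Injective op :=
  (Finsupp.mapRange_injective _ (map_zero ant) ant_injective).comp split_injective

theorem pr_sum (i : Fin 3) (e : V →₀ ℕ) : ((pr i e).1 : ℤ) + (pr i e).2 = deg i e := rfl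

theorem op_mem {d t q : ℤ} {f : R} (hf : f ∈ S d t q) (m : ℕ × ℕ) : op f m ∈ Ord d t := by
  refine map_restrict (Finsupp.lapply m ∘ₗ op) (fun e he => ?_) hf
  obtain ⟨h0, h1, h2⟩ := he
  show op (monomial e 1) m ∈ Ord d t
  rw [op_monomial, Finsupp.single_apply]
  split_ifs
  · refine anti_mem_Ord ?_ ?_
    · simpa [sz, pr_sum] using h0
    · have := zmon_mem_H (pr 1 e)
      convert this using 2
      push_cast
      rw [pr_sum, sz, pr_sum]
      omega
  · exact zero_mem _

theorem op_eq_zero {d t q : ℤ} {f : R} (hf : f ∈ S d t q) {m : ℕ × ℕ}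
    (hm : (m.1 : ℤ) + m.2 ≠ q) : op f m = 0 := by
  refine (Submodule.mem_bot ℚ).1 (map_restrict (Finsupp.lapply m ∘ₗ op) (fun e he => ?_) hf)
  show op (monomial e 1) m ∈ ⊥
  rw [op_monomial, Finsupp.single_eq_of_ne (fun h => hm ?_)]
  · exact zero_mem _
  · rw [h, pr_sum]
    exact he.2.2

theorem join_mem {d t q : ℤ} {F : ℕ × ℕ →₀ ℕ × ℕ →₀ Pol} (h : ∀ m, F m ∈ Model.Sym d t)
    (h' : ∀ m : ℕ × ℕ, (m.1 : ℤ) + m.2 ≠ q → F m = 0) : join F ∈ S d t q := by
  classical
  rw [← F.sum_single, Finsupp.sum, map_sum]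
  refine Submodule.sum_mem _ fun m hm => ?_
  rw [← (F m).sum_single, Finsupp.sum, ← Finsupp.lsingle_apply (R := ℚ), map_sum, map_sum]
  refine Submodule.sum_mem _ fun b hb => ?_
  have hq : (m.1 : ℤ) + m.2 = q := by
    by_contra hq
    exact Finsupp.mem_support_iff.1 hm (h' m hq)
  have hd : sz b ≤ d := not_lt.1 fun hd => Finsupp.mem_support_iff.1 hb ((h m b).2 hd)
  have key : H (sz b + t) ≤ (S d t q).comap
      (join ∘ₗ Finsupp.lsingle m ∘ₗ Finsupp.lsingle b) := by
    rw [H_span, Submodule.span_le]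
    rintro _ ⟨a, ha, rfl⟩
    show join (Finsupp.single m (Finsupp.single b (monomial a 1))) ∈ S d t q
    rw [join_single]
    exact mono_mem 1 (mk_mem hd ha hq)
  exact key (h m b).1

theorem mem_S_of_op {d t q : ℤ} {f : R} (h : ∀ m, op f m ∈ Ord d t)
    (h' : ∀ m : ℕ × ℕ, (m.1 : ℤ) + m.2 ≠ q → op f m = 0) : f ∈ S d t q := by
  rw [← join_split f]
  refine join_mem (fun m => ?_) fun m hm => ant_injective ((h' m hm).trans (map_zero ant).symm)
  have := h m
  rw [← map_ant_Sym] at this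
  obtain ⟨G, hG, hGe⟩ := this
  rwa [← ant_injective hGe]

theorem dp_mul_dd0 (b : ℕ × ℕ) : dp b * dd 0 = dp (b.1 + 1, b.2) := by
  rw [show dd 0 = dp (1, 0) by simp [dp], dp_mul_dp]
  simp

theorem dp_mul_dd1 (b : ℕ × ℕ) : dp b * dd 1 = dp (b.1, b.2 + 1) := by
  rw [show dd 1 = dp (0, 1) by simp [dp], dp_mul_dp]
  simp

theorem X_mul_monomial (v : V) (e : V →₀ ℕ) :
    (X v : R) * monomial e 1 = monomial (e + Finsupp.single v 1) 1 := by
  rw [X, monomial_mul, one_mul, add_comm]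

theorem pr_add_ne {i j : Fin 3} (h : i ≠ j) (l : Fin 2) (e : V →₀ ℕ) :
    pr i (e + Finsupp.single (j, l) 1) = pr i e := by
  simp [pr, Ne.symm h]

theorem pr_sub_ne {i j : Fin 3} (h : i ≠ j) (l : Fin 2) (e : V →₀ ℕ) :
    pr i (e - Finsupp.single (j, l) 1) = pr i e := by
  simp [pr, Ne.symm h]

theorem pderiv_monomial_smul (v : V) (e : V →₀ ℕ) : pderiv v (monomial e (1 : ℚ)) =
    ((e v : ℕ) : ℚ) • monomial (e - Finsupp.single v 1) (1 : ℚ) := by
  rw [pderiv_monomial, one_mul, smul_monomial, smul_eq_mul, mul_one]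

theorem zmon_X (k : Fin 2) : (X k : Pol) = zmon (if k = 0 then (1, 0) else (0, 1)) := by
  fin_cases k <;> simp [zmon, zexp, X]

theorem op_zv_mul (k : Fin 2) (f : R) (m : ℕ × ℕ) :
    op (zv k * f) m = op f m * mlt (X k) := by
  have h := LinearMap.congr_fun (lext (L := Finsupp.lapply m ∘ₗ op ∘ₗ LinearMap.mulLeft ℚ (zv k))
    (L' := LinearMap.mulRight ℚ (mlt (X k)) ∘ₗ Finsupp.lapply m ∘ₗ op) fun e => ?_) f
  · simpa only [LinearMap.comp_apply, Finsupp.lapply_apply, LinearMap.mulLeft_apply, LinearMap.mulRight_apply, LinearMap.smul_apply] using h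
  simp only [LinearMap.comp_apply, Finsupp.lapply_apply, LinearMap.mulLeft_apply, LinearMap.mulRight_apply]
  rw [zv, X_mul_monomial, op_monomial, op_monomial, pr_add_ne (by decide), pr_add_ne (by decide),
    Finsupp.single_apply, Finsupp.single_apply]
  split_ifs
  · rw [mul_assoc, ← map_mul, zmon_X, zmon_mul]
    fin_cases k <;> simp [pr]
  · simp

theorem pderiv_zmon (l : Fin 2) (a : ℕ × ℕ) : pderiv l (zmon a) =
    ((if l = 0 then a.1 else a.2 : ℕ) : ℚ) •
      zmon (if l = 0 then (a.1 - 1, a.2) else (a.1, a.2 - 1)) := by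
  have hsub : zexp a - Finsupp.single l 1 =
      zexp (if l = 0 then (a.1 - 1, a.2) else (a.1, a.2 - 1)) := by
    refine Finsupp.ext fun i => ?_
    fin_cases l <;> fin_cases i <;> simp [zexp]
  rw [zmon, pderiv_monomial, zmon, smul_monomial, hsub, one_mul, smul_eq_mul, mul_one]
  fin_cases l <;> simp [zexp]

theorem op_A (l : Fin 2) (f : R) (m : ℕ × ℕ) : op (A l f) m = op f m * dd l := by
  have h := LinearMap.congr_fun (lext (L := Finsupp.lapply m ∘ₗ op ∘ₗ A l)
    (L' := LinearMap.mulRight ℚ (dd l) ∘ₗ Finsupp.lapply m ∘ₗ op) fun e => ?_) f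
  · simpa only [LinearMap.comp_apply, Finsupp.lapply_apply, LinearMap.mulLeft_apply, LinearMap.mulRight_apply, LinearMap.smul_apply] using h
  simp only [LinearMap.comp_apply, Finsupp.lapply_apply, LinearMap.mulRight_apply]
  rw [A_apply, map_sub, Finsupp.sub_apply, xv, X_mul_monomial, op_monomial, op_monomial]
  rw [dz, Derivation.coeFn_coe, pderiv_monomial_smul, map_smul,
    Finsupp.smul_apply, op_monomial, pr_add_ne (i := 2) (by decide),
    pr_add_ne (i := 1) (by decide), pr_sub_ne (i := 2) (by decide), pr_sub_ne (i := 0) (by decide)]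
  simp only [Finsupp.single_apply]
  split_ifs
  · rw [mul_assoc _ _ (dd l), mlt_mul_dd, mul_sub, ← mul_assoc, pderiv_zmon, map_smul,
      mul_smul_comm]
    fin_cases l <;> simp [pr, dp_mul_dd0, dp_mul_dd1]
  · simp

theorem op_yv_mul_monomial (r : Fin 2) (e : V →₀ ℕ) :
    op (yv r * monomial e 1) = Finsupp.single
      (if r = 0 then ((pr 2 e).1 + 1, (pr 2 e).2) else ((pr 2 e).1, (pr 2 e).2 + 1))
      (dp (pr 0 e) * mlt (zmon (pr 1 e))) := by
  rw [yv, X_mul_monomial, op_monomial, pr_add_ne (i := 0) (by decide),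
    pr_add_ne (i := 1) (by decide)]
  congr 1
  fin_cases r <;> simp [pr]

theorem op_yv_mul (r : Fin 2) (f : R) (m : ℕ × ℕ) :
    op (yv r * f) m = if r = 0 then (if m.1 = 0 then 0 else op f (m.1 - 1, m.2))
      else (if m.2 = 0 then 0 else op f (m.1, m.2 - 1)) := by
  obtain ⟨a, b⟩ := m
  let n : ℕ × ℕ := if r = 0 then (a - 1, b) else (a, b - 1)
  let c : ℚ := if (r = 0 ∧ a = 0) ∨ (r ≠ 0 ∧ b = 0) then 0 else 1
  have h := LinearMap.congr_fun (lext
    (L := Finsupp.lapply (a, b) ∘ₗ op ∘ₗ LinearMap.mulLeft ℚ (yv r))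
    (L' := c • ((Finsupp.lapply n : (ℕ × ℕ →₀ D) →ₗ[ℚ] D) ∘ₗ op)) fun e => ?_) f
  · simp only [LinearMap.comp_apply, Finsupp.lapply_apply, LinearMap.mulLeft_apply, LinearMap.smul_apply] at h
    rw [h]
    fin_cases r
    · by_cases ha : a = 0 <;> simp [c, n, ha]
    · by_cases hb : b = 0 <;> simp [c, n, hb]
  · simp only [LinearMap.comp_apply, Finsupp.lapply_apply, LinearMap.mulLeft_apply, LinearMap.smul_apply]
    rw [op_yv_mul_monomial, op_monomial]
    fin_cases r
    · rcases a with _ | a <;> simp [c, n, Finsupp.single_apply, Prod.ext_iff]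
    · rcases b with _ | b <;> simp [c, n, Finsupp.single_apply, Prod.ext_iff]

theorem op_yv0_mul (f : R) (a b : ℕ) : op (yv 0 * f) (a + 1, b) = op f (a, b) := by
  simp [op_yv_mul]

theorem op_yv0_mul_zero (f : R) (b : ℕ) : op (yv 0 * f) (0, b) = 0 := by
  simp [op_yv_mul]

theorem op_yv1_mul (f : R) (a b : ℕ) : op (yv 1 * f) (a, b + 1) = op f (a, b) := by
  simp [op_yv_mul]

theorem op_yv1_mul_zero (f : R) (a : ℕ) : op (yv 1 * f) (a, 0) = 0 := by
  simp [op_yv_mul]

theorem op_dy (r : Fin 2) (f : R) (a b : ℕ) :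
    op (dy r f) (a, b) = ((if r = 0 then a + 1 else b + 1 : ℕ) : ℚ) •
      op f (if r = 0 then (a + 1, b) else (a, b + 1)) := by
  have h := LinearMap.congr_fun (lext (L := Finsupp.lapply (a, b) ∘ₗ op ∘ₗ dy r)
    (L' := ((if r = 0 then a + 1 else b + 1 : ℕ) : ℚ) •
      ((Finsupp.lapply (if r = 0 then (a + 1, b) else (a, b + 1)) : (ℕ × ℕ →₀ D) →ₗ[ℚ] D) ∘ₗ
        op)) fun e => ?_) f
  · simpa only [LinearMap.comp_apply, Finsupp.lapply_apply, LinearMap.mulLeft_apply, LinearMap.mulRight_apply, LinearMap.smul_apply] using h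
  simp only [LinearMap.comp_apply, Finsupp.lapply_apply, LinearMap.smul_apply]
  rw [dy, Derivation.coeFn_coe, pderiv_monomial_smul, map_smul, Finsupp.smul_apply, op_monomial, op_monomial, pr_sub_ne (i := 0) (by decide),
    pr_sub_ne (i := 1) (by decide)]
  fin_cases r
  · rcases h : e (2, 0) with _ | k
    · simp [pr, h, Finsupp.single_apply]
    · by_cases hk : k = a ∧ e (2, 1) = b
      · simp [pr, h, hk.1, hk.2]
      · simp [pr, h, hk]
  · rcases h : e (2, 1) with _ | k
    · simp [pr, h, Finsupp.single_apply]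
    · by_cases hk : e (2, 0) = a ∧ k = b
      · simp [pr, h, hk.1, hk.2]
      · simp [pr, h, hk]

theorem op_dy0 (f : R) (a b : ℕ) :
    op (dy 0 f) (a, b) = ((a + 1 : ℕ) : ℚ) • op f (a + 1, b) := by
  simp [op_dy]

theorem op_dy1 (f : R) (a b : ℕ) :
    op (dy 1 f) (a, b) = ((b + 1 : ℕ) : ℚ) • op f (a, b + 1) := by
  simp [op_dy]

/-- Symbols of one auxiliary degree are tuples of operators. -/
theorem exists_coordEquiv (d t : ℤ) (q : ℕ) :
    ∃ e : S d t (q : ℤ) ≃ₗ[ℚ] (Fin (q + 1) → Ord d t),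
      ∀ (f : S d t (q : ℤ)) (i : Fin (q + 1)), (e f i : D) = op f.1 (i.1, q - i.1) := by
  classical
  let L : S d t (q : ℤ) →ₗ[ℚ] (Fin (q + 1) → Ord d t) :=
    LinearMap.pi fun i => LinearMap.codRestrict (Ord d t)
      (Finsupp.lapply (i.1, q - i.1) ∘ₗ op ∘ₗ (S d t (q : ℤ)).subtype) fun f => op_mem f.2 _
  have hL : ∀ f i, (L f i : D) = op f.1 (i.1, q - i.1) := fun _ _ => rfl
  refine ⟨LinearEquiv.ofBijective L ⟨?_, ?_⟩, hL⟩
  · intro f g h
    refine Subtype.ext (op_injective (Finsupp.ext fun m => ?_))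
    by_cases hm : (m.1 : ℤ) + m.2 = q
    · have := congrArg Subtype.val (congrFun h ⟨m.1, by omega⟩)
      rw [hL, hL] at this
      simpa [show q - m.1 = m.2 by omega] using this
    · rw [op_eq_zero f.2 hm, op_eq_zero g.2 hm]
  · intro g
    have hg : ∀ i, ∃ G ∈ Model.Sym d t, ant G = g i := fun i => by
      exact (SetLike.ext_iff.1 (map_ant_Sym d t) _).2 (g i).2
    choose G hG hGe using hg
    let F : ℕ × ℕ →₀ ℕ × ℕ →₀ Pol :=
      ∑ i : Fin (q + 1), Finsupp.single (i.1, q - i.1) (G i)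
    have hF : ∀ m : ℕ × ℕ,
        F m = ∑ i : Fin (q + 1), if (i.1, q - i.1) = m then G i else 0 := fun m => by
      simp [F, Finsupp.finsetSum_apply, Finsupp.single_apply]
    have hS : join F ∈ S d t (q : ℤ) := by
      refine join_mem (fun m => ?_) fun m hm => ?_
      · rw [hF]
        refine Submodule.sum_mem _ fun i _ => ?_
        split_ifs
        · exact hG i
        · exact zero_mem _
      · rw [hF]
        refine Finset.sum_eq_zero fun i _ => if_neg fun h => hm ?_
        rw [← h]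
        have := i.2
        omega
    refine ⟨⟨join F, hS⟩, funext fun i => Subtype.ext ?_⟩
    rw [hL, op_apply, split_join, hF, Finset.sum_eq_single i]
    · rw [if_pos rfl, hGe]
    · intro j _ hj
      exact if_neg fun h => hj (Fin.ext (Prod.ext_iff.1 h).1)
    · intro h
      exact absurd (Finset.mem_univ i) h

/-! ### Restriction to the diagonal -/

theorem monomial_eq_prod (e : V →₀ ℕ) : (monomial e 1 : R) =
    xv 0 ^ e (0, 0) * xv 1 ^ e (0, 1) * (zv 0 ^ e (1, 0) * zv 1 ^ e (1, 1)) *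
      (yv 0 ^ e (2, 0) * yv 1 ^ e (2, 1)) := by
  rw [monomial_eq, C_1, one_mul, Finsupp.prod_fintype _ _ (fun _ => pow_zero _),
    Fintype.prod_prod_type]
  simp [Fin.prod_univ_three, Fin.prod_univ_two]

theorem res_xv (l : Fin 2) : res (xv l) = xv l := by simp [res]

theorem res_zv (l : Fin 2) : res (zv l) = zv l := by simp [res]

theorem res_yv (l : Fin 2) : res (yv l) = zv l := by simp [res]

/-- The exponent of the restriction of a monomial. -/
noncomputable def dg (e : V →₀ ℕ) : V →₀ ℕ :=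
  mk (pr 0 e) (zexp ((pr 1 e).1 + (pr 2 e).1, (pr 1 e).2 + (pr 2 e).2)) (0, 0)

theorem res_monomial (e : V →₀ ℕ) : res (monomial e 1) = monomial (dg e) 1 := by
  rw [monomial_eq_prod e, monomial_eq_prod (dg e)]
  simp only [map_mul, map_pow, res_xv, res_zv, res_yv]
  simp [dg, mk, pr, zexp]
  ring

theorem dg_mem {d t q : ℤ} {e : V →₀ ℕ} (he : e ∈ expSet d t q) :
    dg e ∈ expSet d (t + q) 0 := by
  obtain ⟨h0, h1, h2⟩ := he
  simp only [deg] at h0 h1 h2
  refine mk_mem ?_ ?_ (by simp)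
  · simpa [sz, pr] using h0
  · simp [sz, pr, zexp]
    omega

theorem res_mem {d t q : ℤ} {f : R} (hf : f ∈ S d t q) : res f ∈ S d (t + q) 0 :=
  map_restrict res.toLinearMap (fun e he => by
    show res (monomial e 1) ∈ S d (t + q) 0
    rw [res_monomial]
    exact mono_mem 1 (dg_mem he)) hf

theorem pr2_eq_zero {e : V →₀ ℕ} (h : deg 2 e = 0) : pr 2 e = (0, 0) := by
  simp only [deg] at h
  simp [pr]
  omega

theorem res_eq_self {d t : ℤ} {f : R} (hf : f ∈ S d t 0) : res f = f :=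
  eq_on_restrict res.toLinearMap LinearMap.id (fun e he => by
    show res (monomial e 1) = monomial e 1
    have h := pr2_eq_zero he.2.2
    rw [res_monomial]
    congr 1
    conv_rhs => rw [← mk_pr e]
    rw [dg, h]
    simp) hf

theorem res_zc_eq_yc (P : Fin 2 → R) : res (yc P) = res (zc P) := by
  simp [yc, zc, res_zv, res_yv]

theorem res_Delta_mul (f : R) : res (Delta * f) = 0 := by
  rw [map_mul, Delta, map_sub, map_mul, map_mul, res_zv, res_zv, res_yv, res_yv]
  ring

theorem dz_res (l : Fin 2) (f : R) : dz l (res f) = res (dz l f) + res (dy l f) := by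
  show pderiv ((1, l) : V) (res f) = res (pderiv ((1, l) : V) f) + res (pderiv ((2, l) : V) f)
  induction f using MvPolynomial.induction_on with
  | C a => simp [res]
  | add p q hp hq => simp only [map_add, hp, hq]; abel
  | mul_X p v hp =>
    obtain ⟨i, k⟩ := v
    simp only [map_mul, pderiv_mul, map_add, hp]
    fin_cases i <;> fin_cases k <;> fin_cases l <;> simp [res] <;> ring

theorem res_A (l : Fin 2) (f : R) : A l (res f) = res (A l f) - res (dy l f) := by
  rw [A_apply, A_apply, map_sub, map_mul, res_xv, dz_res]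
  ring

/-- Symbols of one auxiliary degree. -/
noncomputable def Y (q : ℤ) : Submodule ℚ R := restrictSupport ℚ {e | deg 2 e = q}

theorem S_le_Y (d t q : ℤ) : S d t q ≤ Y q := restrictSupport_mono ℚ fun _ he => he.2.2

theorem X_mul_pderiv (v : V) (e : V →₀ ℕ) :
    (X v : R) * pderiv v (monomial e (1 : ℚ)) = (e v : ℚ) • monomial e (1 : ℚ) := by
  rw [pderiv_monomial, X, monomial_mul, smul_monomial]
  rcases Nat.eq_zero_or_pos (e v) with h | h
  · simp [h]
  · rw [add_tsub_cancel_of_le (Finsupp.single_le_iff.2 h)]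
    simp

theorem euler_Y {q : ℤ} {f : R} (hf : f ∈ Y q) :
    yv 0 * dy 0 f + yv 1 * dy 1 f = (q : ℚ) • f := by
  refine eq_on_restrict (LinearMap.mulLeft ℚ (yv 0) ∘ₗ dy 0 + LinearMap.mulLeft ℚ (yv 1) ∘ₗ dy 1)
    ((q : ℚ) • LinearMap.id) (fun e he => ?_) hf
  show yv 0 * pderiv ((2, 0) : V) (monomial e (1 : ℚ)) +
    yv 1 * pderiv ((2, 1) : V) (monomial e (1 : ℚ)) = (q : ℚ) • monomial e (1 : ℚ)
  rw [yv, yv, X_mul_pderiv, X_mul_pderiv, ← add_smul]
  congr 1
  have h : deg 2 e = q := he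
  rw [← h, deg]
  push_cast
  rfl

theorem euler {d t q : ℤ} {f : R} (hf : f ∈ S d t q) :
    yv 0 * dy 0 f + yv 1 * dy 1 f = (q : ℚ) • f := euler_Y (S_le_Y d t q hf)

theorem res_T {d t q : ℤ} {f : R} (hf : f ∈ S d t q) : res (T f) = (q : ℚ) • res f := by
  rw [← map_smul, ← euler hf, T_apply]
  simp [res_zv, res_yv]

theorem dy_Y {q : ℤ} {f : R} (r : Fin 2) (hf : f ∈ Y q) : dy r f ∈ Y (q - 1) := by
  refine map_restrict (dy r) (fun e he => ?_) hf
  show pderiv ((2, r) : V) (monomial e (1 : ℚ)) ∈ Y (q - 1)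
  rw [pderiv_monomial]
  rcases Nat.eq_zero_or_pos (e (2, r)) with h | h
  · simp [h]
  · refine mono_mem _ ?_
    show deg 2 _ = q - 1
    rw [deg_sub_single _ _ _ h, show deg 2 e = q from he]
    simp

theorem zv_mul_Y {q : ℤ} {f : R} (k : Fin 2) (hf : f ∈ Y q) : zv k * f ∈ Y q := by
  refine mul_mem_restrict (fun a ha e he => ?_) hf
  show deg 2 (a + e) = q
  rw [X_support_eq ha, deg_add, deg_single, show deg 2 e = q from he]
  simp

theorem exists_Delta_mul : ∀ (n : ℕ) (f : R), f ∈ Y n → res f = 0 → ∃ g, f = Delta * g := by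
  intro n
  induction n with
  | zero =>
    intro f hf h
    refine ⟨0, ?_⟩
    rw [mul_zero, ← h]
    refine (eq_on_restrict res.toLinearMap LinearMap.id (fun e he => ?_) hf).symm
    show res (monomial e 1) = monomial e 1
    have h := pr2_eq_zero (e := e) (by simpa using he)
    rw [res_monomial]
    congr 1
    conv_rhs => rw [← mk_pr e]
    rw [dg, h]
    simp
  | succ n ih =>
    intro f hf h
    have he := euler_Y hf
    have hk : T f ∈ Y n := by
      rw [T_apply]
      refine add_mem (zv_mul_Y 0 ?_) (zv_mul_Y 1 ?_)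
      · simpa using dy_Y 0 hf
      · simpa using dy_Y 1 hf
    obtain ⟨w, hw⟩ := ih (T f) hk (by
      have : res (T f) = res (yv 0 * dy 0 f + yv 1 * dy 1 f) := by
        simp [T_apply, res_zv, res_yv]
      rw [this, he, map_smul, h, smul_zero])
    have key : zv 0 * (((n + 1 : ℕ) : ℚ) • f) = Delta * (yv 0 * w + dy 1 f) := by
      have he' : ((n + 1 : ℕ) : ℚ) • f = yv 0 * dy 0 f + yv 1 * dy 1 f := by
        rw [he]
        push_cast
        rfl
      rw [he']
      rw [T_apply] at hw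
      simp only [Delta] at hw ⊢
      linear_combination (yv 0) * hw
    have hp : Prime (zv 0) := X_prime
    rcases hp.dvd_or_dvd ⟨_, key.symm⟩ with hbad | ⟨c, hc⟩
    · exfalso
      obtain ⟨c, hc⟩ := hbad
      have := congrArg (eval fun v : V => if v = (1, 1) ∨ v = (2, 0) then (1 : ℚ) else 0) hc
      simp [Delta] at this
    · refine ⟨((n + 1 : ℕ) : ℚ)⁻¹ • c, ?_⟩
      rw [hc, mul_left_comm] at key
      have h2 := mul_left_cancel₀ (X_ne_zero (R := ℚ) ((1, 0) : V)) key
      rw [mul_smul_comm, ← h2, smul_smul, inv_mul_cancel₀ (by positivity), one_smul]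

/-- A symbol vanishing on the diagonal is a multiple of its equation. -/
theorem eq_Delta_mul_of_res {d t q : ℤ} {f : R} (hf : f ∈ S d t q) (h : res f = 0) :
    ∃ g ∈ S d (t - 1) (q - 1), f = Delta * g := by
  by_cases hq : q < 0
  · rw [S_eq_bot (Or.inr (Or.inl hq)), Submodule.mem_bot] at hf
    exact ⟨0, zero_mem _, by rw [hf, mul_zero]⟩
  · lift q to ℕ using not_lt.1 hq
    obtain ⟨g, rfl⟩ := exists_Delta_mul q f (S_le_Y d t q hf) h
    exact ⟨g, mem_of_Delta_mul hf, rfl⟩

/-- Restriction to the diagonal is surjective in nonnegative weight. -/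
theorem res_surj {d t q : ℤ} (hq : 0 ≤ q) (ht : 0 ≤ t) {h : R} (hh : h ∈ S d (t + q) 0) :
    ∃ f ∈ S d t q, res f = h := by
  lift q to ℕ using hq
  have key : S d (t + q) 0 ≤ (S d t q).map res.toLinearMap := by
    rw [S, restrictSupport_eq_span, Submodule.span_le]
    rintro _ ⟨e, he, rfl⟩
    obtain ⟨h0, h1, h2⟩ := he
    simp only [deg] at h0 h1 h2
    let m : ℕ × ℕ := (min (e (1, 0)) q, q - min (e (1, 0)) q)
    refine ⟨monomial (mk (pr 0 e) (zexp (e (1, 0) - m.1, e (1, 1) - m.2)) m) 1, ?_, ?_⟩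
    · refine mono_mem 1 (mk_mem ?_ ?_ ?_)
      · simpa [sz, pr] using h0
      · simp [sz, pr, zexp, m]
        omega
      · simp [m]
    · show res (monomial _ 1) = monomial e 1
      rw [res_monomial]
      congr 1
      conv_rhs => rw [← mk_pr e]
      have hz : pr 2 e = (0, 0) := pr2_eq_zero h2
      simp only [dg, pr_mk0, pr_mk2, hz]
      congr 2
      refine Finsupp.ext fun i => ?_
      fin_cases i <;> simp [pr, mk, zexp, m]
      omega
  exact key hh

/-! ### The triangular change of coordinates -/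

/-- Multiplication by `x` shifted by a multiple of the derivative. -/
noncomputable def B (c : ℚ) (l : Fin 2) : R →ₗ[ℚ] R := LinearMap.mulLeft ℚ (xv l) + c • dz l

theorem B_apply (c : ℚ) (l : Fin 2) (f : R) : B c l f = xv l * f + c • dz l f := rfl

theorem B_comm (c : ℚ) (l m : Fin 2) : Commute (B c l) (B c m) := by
  refine LinearMap.ext fun f => ?_
  show B c l (B c m f) = B c m (B c l f)
  have h : dz l (dz m f) = dz m (dz l f) := pderiv_comm' _ _ f
  simp only [B_apply, map_add, map_smul, dz_xv_mul, h]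
  simp only [smul_add, mul_left_comm (xv l) (xv m) f]
  exact add_add_add_comm _ _ _ _

theorem B_mem (c : ℚ) {d t q : ℤ} {f : R} (l : Fin 2) (hf : f ∈ S d t q) :
    B c l f ∈ S (d + 1) (t - 1) q :=
  add_mem (xv_mul_mem l hf) (Submodule.smul_mem _ c (S_mono (by omega) (dz_mem l hf)))

/-- The triangular substitution. -/
noncomputable def tw (c : ℚ) : R →ₗ[ℚ] R :=
  (basisMonomials V ℚ).constr ℚ fun e =>
    (B c 0 ^ e (0, 0) * B c 1 ^ e (0, 1))
      (monomial (mk (0, 0) (zexp (pr 1 e)) (pr 2 e)) 1)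

theorem tw_monomial (c : ℚ) (e : V →₀ ℕ) : tw c (monomial e 1) =
    (B c 0 ^ e (0, 0) * B c 1 ^ e (0, 1))
      (monomial (mk (0, 0) (zexp (pr 1 e)) (pr 2 e)) 1) := by
  show tw c ((basisMonomials V ℚ) e) = _
  exact (basisMonomials V ℚ).constr_basis ℚ _ e

theorem tw_xv_mul (c : ℚ) (l : Fin 2) (f : R) : tw c (xv l * f) = B c l (tw c f) := by
  have h := LinearMap.congr_fun (lext (L := tw c ∘ₗ LinearMap.mulLeft ℚ (xv l))
    (L' := B c l ∘ₗ tw c) fun e => ?_) f
  · simpa only [LinearMap.comp_apply, Finsupp.lapply_apply, LinearMap.mulLeft_apply, LinearMap.mulRight_apply, LinearMap.smul_apply] using h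
  simp only [LinearMap.comp_apply, LinearMap.mulLeft_apply]
  rw [xv, X_mul_monomial, tw_monomial, tw_monomial, pr_add_ne (by decide), pr_add_ne (by decide),
    ← Module.End.mul_apply (B c l)]
  congr 1
  fin_cases l
  · simp [pow_succ', mul_assoc]
  · simp only [Fin.mk_one, Finsupp.add_apply, Finsupp.single_apply]
    simp [pow_succ', ← mul_assoc, (Commute.pow_left (B_comm c 0 1) _).eq]

theorem tw_of_xfree (c : ℚ) {e : V →₀ ℕ} (h : deg 0 e = 0) :
    tw c (monomial e 1) = monomial e 1 := by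
  simp only [deg] at h
  have h0 : e (0, 0) = 0 := by omega
  have h1 : e (0, 1) = 0 := by omega
  rw [tw_monomial, h0, h1, pow_zero, pow_zero, one_mul, Module.End.one_apply]
  congr 1
  conv_rhs => rw [← mk_pr e]
  simp [pr, h0, h1]

/-- Induction on the order. -/
theorem xInd {P : R → Prop} (add : ∀ f g, P f → P g → P (f + g))
    (free : ∀ e a, deg 0 e = 0 → P (monomial e a)) (xmul : ∀ l f, P f → P (xv l * f)) (f : R) :
    P f := by
  have key : ∀ (n : ℕ) (e : V →₀ ℕ) (a : ℚ), e (0, 0) + e (0, 1) = n → P (monomial e a) := by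
    intro n
    induction n with
    | zero =>
      intro e a he
      exact free e a (by simp [deg]; omega)
    | succ n ih =>
      intro e a he
      obtain ⟨l, hl⟩ : ∃ l : Fin 2, 0 < e (0, l) := by
        rcases Nat.eq_zero_or_pos (e (0, 0)) with h | h
        · exact ⟨1, by omega⟩
        · exact ⟨0, h⟩
      have hs : monomial e a = xv l * monomial (e - Finsupp.single (0, l) 1) a := by
        rw [xv, X, monomial_mul, one_mul, add_tsub_cancel_of_le (Finsupp.single_le_iff.2 hl)]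
      rw [hs]
      refine xmul l _ (ih _ a ?_)
      revert hl
      fin_cases l <;> simp <;> omega
  induction f using MvPolynomial.induction_on' with
  | monomial e a => exact key _ e a rfl
  | add f g hf hg => exact add f g hf hg

theorem tw_dz (c : ℚ) (k : Fin 2) (f : R) : tw c (dz k f) = dz k (tw c f) := by
  refine xInd (P := fun f => tw c (dz k f) = dz k (tw c f)) ?_ ?_ ?_ f
  · intro f g hf hg
    simp only [map_add, hf, hg]
  · intro e a he
    rw [← mul_one a, ← smul_eq_mul, ← smul_monomial, map_smul, map_smul, map_smul, map_smul,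
      tw_of_xfree c he]
    congr 1
    have : dz k (monomial e (1 : ℚ)) =
        ((e (1, k) : ℕ) : ℚ) • monomial (e - Finsupp.single (1, k) 1) (1 : ℚ) := by
      show pderiv ((1, k) : V) (monomial e (1 : ℚ)) = _
      rw [pderiv_monomial, smul_monomial]
      simp
    rw [this, map_smul]
    rcases Nat.eq_zero_or_pos (e (1, k)) with h | h
    · simp [h]
    · rw [tw_of_xfree c (by rw [deg_sub_single _ _ _ h, he]; simp)]
  · intro l f hf
    rw [dz_xv_mul, tw_xv_mul, hf, tw_xv_mul]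
    simp only [B_apply, map_add, map_smul, dz_xv_mul]
    have h : dz l (dz k (tw c f)) = dz k (dz l (tw c f)) := pderiv_comm' _ _ _
    rw [h]

theorem tw_tw_neg (c : ℚ) (f : R) : tw c (tw (-c) f) = f := by
  refine xInd (P := fun f => tw c (tw (-c) f) = f) ?_ ?_ ?_ f
  · intro f g hf hg
    simp only [map_add, hf, hg]
  · intro e a he
    rw [← mul_one a, ← smul_eq_mul, ← smul_monomial, map_smul, map_smul, tw_of_xfree _ he,
      tw_of_xfree _ he]
  · intro l f hf
    rw [tw_xv_mul, B_apply, map_add, map_smul, tw_xv_mul, tw_dz, hf, B_apply, neg_smul]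
    exact add_neg_cancel_right _ _

theorem tw_mem (c : ℚ) {d t q : ℤ} {f : R} (hf : f ∈ S d t q) : tw c f ∈ S d t q := by
  refine map_restrict (tw c) (fun e he => ?_) hf
  obtain ⟨h0, h1, h2⟩ := he
  simp only [deg] at h0 h1 h2
  rw [tw_monomial, Module.End.mul_apply]
  have hpow : ∀ (l : Fin 2) (n : ℕ) (d' t' : ℤ) (g : R), g ∈ S d' t' q →
      (B c l ^ n) g ∈ S (d' + n) (t' - n) q := by
    intro l n
    induction n with
    | zero => intro d' t' g hg; simpa using hg
    | succ n ih =>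
      intro d' t' g hg
      rw [pow_succ', Module.End.mul_apply]
      have := B_mem c l (ih d' t' g hg)
      convert this using 2 <;> push_cast <;> ring
  have hm : monomial (mk (0, 0) (zexp (pr 1 e)) (pr 2 e)) 1 ∈
      S 0 ((e (1, 0) : ℤ) + e (1, 1)) q := by
    refine mono_mem 1 (mk_mem (by simp [sz]) ?_ ?_)
    · simp [sz, pr, zexp]
    · simp [pr, h2]
  refine S_mono ?_ ?_ (d := 0 + (e (0, 1) : ℤ) + e (0, 0))
  · omega
  · have := hpow 0 (e (0, 0)) _ _ _ (hpow 1 (e (0, 1)) _ _ _ hm)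
    convert this using 2
    omega

theorem A_tw (l : Fin 2) (f : R) : A l (tw (-1) f) = tw (-1) (xv l * f) := by
  rw [tw_xv_mul, B_apply, A_apply, neg_smul, one_smul, sub_eq_add_neg]

theorem tw_A (l : Fin 2) (f : R) : tw 1 (A l f) = xv l * tw 1 f := by
  rw [A_apply, map_sub, tw_xv_mul, tw_dz, B_apply, one_smul, add_sub_cancel_right]

theorem tw_neg_tw (f : R) : tw (-1) (tw 1 f) = f := by
  simpa using tw_tw_neg (-1) f

/-! ### Koszul complexes -/

theorem pair_koszul {a b : V} (h : a ≠ b) {u v : R} (e : X a * u + X b * v = 0) :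
    ∃ g : R, u = X b * g ∧ v = -(X a * g) := by
  have hd : (X b : R) ∣ X a * u := ⟨-v, by linear_combination e⟩
  rcases (X_prime (R := ℚ) (i := b)).dvd_or_dvd hd with hbad | ⟨g, rfl⟩
  · exfalso
    obtain ⟨c, hc⟩ := hbad
    have := congrArg (eval fun w : V => if w = a then (1 : ℚ) else 0) hc
    simp [Ne.symm h] at this
  · refine ⟨g, rfl, ?_⟩
    have h2 : X b * (v + X a * g) = 0 := by linear_combination e
    exact eq_neg_of_add_eq_zero_left ((mul_eq_zero.1 h2).resolve_left (X_ne_zero b))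

theorem A_injective (l : Fin 2) : Function.Injective (A l) := by
  intro f g h
  have h2 := congrArg (tw 1) h
  rw [tw_A, tw_A] at h2
  have h3 := congrArg (tw (-1)) (mul_left_cancel₀ (X_ne_zero _) h2)
  rwa [tw_neg_tw, tw_neg_tw] at h3

theorem A_koszul {d t q : ℤ} {u : Fin 2 → R} (hu : ∀ l, u l ∈ S d t q)
    (h : A 0 (u 0) + A 1 (u 1) = 0) :
    ∃ v ∈ S (d - 1) (t + 1) q, u 0 = A 1 v ∧ u 1 = -A 0 v := by
  have h2 : xv 0 * tw 1 (u 0) + xv 1 * tw 1 (u 1) = 0 := by
    rw [← tw_A, ← tw_A, ← map_add, h, map_zero]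
  obtain ⟨g, hg0, hg1⟩ := pair_koszul (show ((0, 0) : V) ≠ (0, 1) by decide) h2
  refine ⟨tw (-1) g, tw_mem _ (mem_of_xv_mul 1 (hg0 ▸ tw_mem 1 (hu 0))), ?_, ?_⟩
  · rw [A_tw, ← hg0, tw_neg_tw]
  · rw [A_tw, ← map_neg, ← hg1, tw_neg_tw]

theorem yc_koszul {d t q : ℤ} {u : Fin 2 → R} (hu : ∀ l, u l ∈ S d t q) (h : yc u = 0) :
    ∃ g ∈ S d t (q - 1), u = iota g := by
  obtain ⟨g, hg0, hg1⟩ := pair_koszul (show ((2, 0) : V) ≠ (2, 1) by decide) h
  refine ⟨g, mem_of_yv_mul 1 (hg0 ▸ hu 0), funext fun l => ?_⟩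
  fin_cases l
  · exact hg0
  · exact hg1

theorem zc_koszul {d t q : ℤ} {u : Fin 2 → R} (hu : ∀ l, u l ∈ S d t q) (h : zc u = 0) :
    ∃ g ∈ S d (t - 1) q, u 0 = zv 1 * g ∧ u 1 = -(zv 0 * g) := by
  obtain ⟨g, hg0, hg1⟩ := pair_koszul (show ((1, 0) : V) ≠ (1, 1) by decide) h
  exact ⟨g, mem_of_zv_mul 1 (hg0 ▸ hu 0), hg0, hg1⟩

theorem zc_decomp {d e t q : ℤ} {u : Fin 2 → R} (hu : ∀ l, u l ∈ S d t q)
    (h : zc u ∈ S e (t + 1) q) :
    ∃ g ∈ S d (t - 1) q, u 0 - zv 1 * g ∈ S e t q ∧ u 1 + zv 0 * g ∈ S e t q := by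
  choose lo hlo hi hhi hsum using fun l => exists_split {f : V →₀ ℕ | deg 0 f ≤ e} (hu l)
  have hlo' : ∀ l, lo l ∈ S e t q := fun l =>
    restrictSupport_mono ℚ (fun f (hf : f ∈ expSet d t q ∩ {f | deg 0 f ≤ e}) => (⟨hf.2, hf.1.2⟩ : f ∈ expSet e t q)) (hlo l)
  have hhi' : ∀ l, hi l ∈ S d t q := fun l =>
    restrictSupport_mono ℚ Set.inter_subset_left (hhi l)
  have hz : zc hi = 0 := by
    refine eq_zero_of_disjoint (B := expSet e (t + 1) q) (C := {f | deg 0 f ≤ e}ᶜ)
      (fun f hf hc => hc hf.1) ?_ ?_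
    · have hl : zc lo ∈ S e (t + 1) q := add_mem (zv_mul_mem 0 (hlo' 0)) (zv_mul_mem 1 (hlo' 1))
      have e1 : zc hi = zc u - zc lo := by
        simp only [zc, hsum]
        ring
      rw [e1]
      exact sub_mem h hl
    · refine add_mem (mul_mem_restrict (fun a ha f hf => ?_) (hhi 0))
        (mul_mem_restrict (fun a ha f hf => ?_) (hhi 1)) <;>
      · rw [X_support_eq ha]
        intro hc
        refine hf.2 ?_
        simpa [deg_add, deg_single] using hc
  obtain ⟨g, hg, g0, g1⟩ := zc_koszul hhi' hz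
  refine ⟨g, hg, ?_, ?_⟩
  · rw [hsum 0, g0, add_sub_cancel_right]
    exact hlo' 0
  · rw [hsum 1, g1, neg_add_cancel_right]
    exact hlo' 1

/-! ### Euler and curl -/

theorem curl_exact {d t q : ℤ} {u : Fin 2 → R} (hq : 0 ≤ q) (hu : ∀ l, u l ∈ S d t q)
    (h : dy 0 (u 1) = dy 1 (u 0)) : ∃ η ∈ S d t (q + 1), ∀ l, u l = dy l η := by
  have hne : (q : ℚ) + 1 ≠ 0 := by positivity
  refine ⟨((q : ℚ) + 1)⁻¹ • yc u, Submodule.smul_mem _ _
    (add_mem (yv_mul_mem 0 (hu 0)) (yv_mul_mem 1 (hu 1))), fun l => ?_⟩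
  have e : dy l (yc u) = ((q : ℚ) + 1) • u l := by
    have he := euler (hu l)
    rw [add_smul, one_smul, ← he, yc, map_add, dy_yv_mul, dy_yv_mul]
    fin_cases l <;> simp [h] <;> ring
  rw [map_smul, e, smul_smul, inv_mul_cancel₀ hne, one_smul]

theorem curl_surj {d t q : ℤ} {g : R} (hq : 0 ≤ q) (hg : g ∈ S d t q) :
    ∃ u : Fin 2 → R, (∀ l, u l ∈ S d t (q + 1)) ∧ dy 0 (u 1) - dy 1 (u 0) = g := by
  have hne : (q : ℚ) + 2 ≠ 0 := by positivity
  refine ⟨![-(((q : ℚ) + 2)⁻¹ • (yv 1 * g)), ((q : ℚ) + 2)⁻¹ • (yv 0 * g)], fun l => ?_, ?_⟩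
  · fin_cases l
    · exact neg_mem (Submodule.smul_mem _ _ (yv_mul_mem 1 hg))
    · exact Submodule.smul_mem _ _ (yv_mul_mem 0 hg)
  · show dy 0 (((q : ℚ) + 2)⁻¹ • (yv 0 * g)) - dy 1 (-(((q : ℚ) + 2)⁻¹ • (yv 1 * g))) = g
    rw [map_neg, sub_neg_eq_add, map_smul, map_smul, ← smul_add, dy_yv_mul, dy_yv_mul]
    have he := euler hg
    have h2 : yv 0 * dy 0 g + g + (yv 1 * dy 1 g + g) = ((q : ℚ) + 2) • g := by
      rw [add_smul, ← he, two_smul]
      ring
    rw [if_pos rfl, if_pos rfl, h2, smul_smul, inv_mul_cancel₀ hne, one_smul]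

/-! ### The augmentation -/

theorem app_monomial (e : V →₀ ℕ) :
    app (monomial e 1) = dp (pr 0 e) (zmon (pr 1 e) * zmon (pr 2 e)) := by
  show (Finsupp.lsum ℚ fun m : ℕ × ℕ => LinearMap.applyₗ (R := ℚ) (zmon m))
    (op (monomial e 1)) = _
  rw [op_monomial, Finsupp.lsum_single]
  rfl

theorem app_res (f : R) : app (res f) = app f := by
  refine LinearMap.congr_fun (lext (L := app ∘ₗ res.toLinearMap) (L' := app) fun e => ?_) f
  show app (res (monomial e 1)) = app (monomial e 1)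
  rw [res_monomial, app_monomial, app_monomial, dg, pr_mk0, pr_mk2, zmon_pr_mk1, ← zmon,
    zmon_mul, zmon_mul, add_zero, add_zero]

theorem dd_pow_apply_mem (i : Fin 2) {k : ℤ} {p : Pol} (hp : p ∈ H k) :
    ∀ c : ℕ, (dd i ^ c) p ∈ H (k - c)
  | 0 => by simpa using hp
  | c + 1 => by
    rw [pow_succ', Module.End.mul_apply, show k - (c + 1 : ℕ) = k - c - 1 by omega]
    exact pderiv_mem_H i (dd_pow_apply_mem i hp c)

theorem app_mem {d t q : ℤ} {f : R} (hf : f ∈ S d t q) : app f ∈ H (t + q) := by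
  refine map_restrict app (fun e he => ?_) hf
  obtain ⟨h0, h1, h2⟩ := he
  simp only [deg] at h0 h1 h2
  rw [app_monomial, dp, Module.End.mul_apply]
  have := dd_pow_apply_mem 0 (dd_pow_apply_mem 1
    (mul_mem_H (zmon_mem_H (pr 1 e)) (zmon_mem_H (pr 2 e))) (pr 0 e).2) (pr 0 e).1
  convert this using 2
  simp [pr]
  omega

theorem app_A_mono {e : V →₀ ℕ} (l : Fin 2) (h : pr 2 e = (0, 0)) :
    app (A l (monomial e 1)) = 0 := by
  have hop : op (A l (monomial e 1)) =
      Finsupp.single (0, 0) (dp (pr 0 e) * mlt (zmon (pr 1 e)) * dd l) := by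
    refine Finsupp.ext fun m => ?_
    rw [op_A, op_monomial, h, Finsupp.single_apply, Finsupp.single_apply]
    split_ifs <;> simp
  show (Finsupp.lsum ℚ fun m : ℕ × ℕ => LinearMap.applyₗ (R := ℚ) (zmon m))
    (op (A l (monomial e 1))) = 0
  rw [hop, Finsupp.lsum_single]
  show dp (pr 0 e) (mlt (zmon (pr 1 e)) (pderiv l (zmon (0, 0)))) = 0
  simp [zmon, zexp]

theorem app_A {d t : ℤ} {f : R} (l : Fin 2) (hf : f ∈ S d t 0) : app (A l f) = 0 :=
  eq_on_restrict (app ∘ₗ A l) 0 (fun _ he => app_A_mono l (pr2_eq_zero he.2.2)) hf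

theorem app_A_gen (l : Fin 2) (f : R) : app (A l f) = app (dy l f) := by
  have h0 : app (A l (res f)) = 0 := by
    refine LinearMap.congr_fun (lext (L := app ∘ₗ A l ∘ₗ res.toLinearMap) (L' := 0)
      fun e => ?_) f
    show app (A l (res (monomial e 1))) = 0
    rw [res_monomial]
    exact app_A_mono l (by rw [dg, pr_mk2])
  rw [res_A, map_sub, app_res, app_res, sub_eq_zero] at h0
  exact h0

theorem app_T {d t q : ℤ} {f : R} (hf : f ∈ S d t q) : app (T f) = (q : ℚ) • app f := by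
  rw [← app_res, res_T hf, map_smul, app_res]

theorem exists_xdecomp {d t q : ℤ} {k : R} (hk : k ∈ S d t q) :
    ∃ k0 ∈ S 0 t q, ∃ u : Fin 2 → R, (∀ l, u l ∈ S (d - 1) (t + 1) q) ∧
      k = k0 + (xv 0 * u 0 + xv 1 * u 1) := by
  have key : S d t q ≤ S 0 t q ⊔ ((S (d - 1) (t + 1) q).map (LinearMap.mulLeft ℚ (xv 0)) ⊔
      (S (d - 1) (t + 1) q).map (LinearMap.mulLeft ℚ (xv 1))) := by
    conv_lhs => rw [S, restrictSupport_eq_span]
    rw [Submodule.span_le]
    rintro _ ⟨e, he, rfl⟩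
    obtain ⟨h0, h1, h2⟩ := he
    have step : ∀ l : Fin 2, 0 < e (0, l) → monomial e (1 : ℚ) ∈
        (S (d - 1) (t + 1) q).map (LinearMap.mulLeft ℚ (xv l)) := by
      intro l hl
      refine ⟨monomial (e - Finsupp.single (0, l) 1) 1, mono_mem 1 ?_, ?_⟩
      · simp only [mem_expSet, deg_sub_single _ _ _ hl]
        simp
        omega
      · show xv l * monomial (e - Finsupp.single (0, l) 1) 1 = monomial e 1
        rw [xv, X, monomial_mul, one_mul, add_tsub_cancel_of_le (Finsupp.single_le_iff.2 hl)]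
    rcases Nat.eq_zero_or_pos (e (0, 0)) with ha | ha
    · rcases Nat.eq_zero_or_pos (e (0, 1)) with hb | hb
      · exact Submodule.mem_sup_left (mono_mem 1 ⟨by simp [deg, ha, hb], h1, h2⟩)
      · exact Submodule.mem_sup_right (Submodule.mem_sup_right (step 1 hb))
    · exact Submodule.mem_sup_right (Submodule.mem_sup_left (step 0 ha))
  obtain ⟨k0, h0, r, hr, rfl⟩ := Submodule.mem_sup.1 (key hk)
  obtain ⟨_, ⟨a, ha, rfl⟩, _, ⟨b, hb, rfl⟩, rfl⟩ := Submodule.mem_sup.1 hr
  exact ⟨k0, h0, ![a, b], fun l => by fin_cases l <;> assumption, rfl⟩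

/-- The kernel of the augmentation. -/
theorem app_ker {d t : ℤ} {f : R} (hf : f ∈ S d t 0) (h : app f = 0) :
    ∃ u : Fin 2 → R, (∀ l, u l ∈ S (d - 1) (t + 1) 0) ∧ f = A 0 (u 0) + A 1 (u 1) := by
  obtain ⟨k0, hk0, u, hu, hk⟩ := exists_xdecomp (tw_mem 1 hf)
  have hk0' : tw (-1) k0 = k0 := eq_on_restrict (tw (-1)) LinearMap.id (fun e he => by
    exact tw_of_xfree _ (le_antisymm he.1 (deg_nonneg 0 e))) hk0
  have hf' : f = k0 + (A 0 (tw (-1) (u 0)) + A 1 (tw (-1) (u 1))) := by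
    rw [A_tw, A_tw, ← map_add]
    conv_rhs => rw [← hk0', ← map_add, ← hk, tw_neg_tw]
  have hz : app k0 = 0 := by
    rw [hf', map_add, map_add, app_A 0 (tw_mem _ (hu 0)), app_A 1 (tw_mem _ (hu 1)), add_zero,
      add_zero] at h
    exact h
  have hlift : (basisMonomials (Fin 2) ℚ).constr ℚ
      (fun a => (monomial (mk (0, 0) a (0, 0)) 1 : R)) (app k0) = k0 :=
    eq_on_restrict ((basisMonomials (Fin 2) ℚ).constr ℚ
      (fun a => (monomial (mk (0, 0) a (0, 0)) 1 : R)) ∘ₗ app) LinearMap.id (fun e he => by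
      have a2 : pr 2 e = (0, 0) := pr2_eq_zero he.2.2
      have a0 : pr 0 e = (0, 0) := by
        have h3 := he.1
        simp only [deg] at h3
        simp [pr]
        omega
      show _ = monomial e 1
      rw [LinearMap.comp_apply, app_monomial, a0, a2, dp_zero, Module.End.one_apply, zmon_mul,
        add_zero, add_zero]
      refine ((basisMonomials (Fin 2) ℚ).constr_basis ℚ _ (zexp (pr 1 e))).trans ?_
      congr 1
      conv_rhs => rw [← mk_pr e, a0, a2]) hk0
  rw [hz, map_zero] at hlift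
  rw [← hlift, zero_add] at hf'
  exact ⟨fun l => tw (-1) (u l), fun l => tw_mem _ (hu l), hf'⟩

theorem app_surj {d t : ℤ} (hd : 0 ≤ d) {p : Pol} (hp : p ∈ H t) :
    ∃ f ∈ S d t 0, app f = p := by
  have key : H t ≤ (S d t 0).map app := by
    rw [H_span, Submodule.span_le]
    rintro _ ⟨a, ha, rfl⟩
    refine ⟨monomial (mk (0, 0) a (0, 0)) 1,
      mono_mem 1 (mk_mem (by simpa [sz] using hd) (by simpa [sz, degSet] using ha) (by simp)), ?_⟩
    rw [app_monomial, pr_mk0, pr_mk2, zmon_pr_mk1, dp_zero, Module.End.one_apply]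
    simp [zmon, zexp]
  exact key hp

end Vale.Agent.P195.Gamma.Symb
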