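import Vale.Agent.P195.Gamma.Complex
import Vale.Agent.P195.Gamma.Sym

/-!
The eight actions on families of operators indexed by auxiliary monomials: right multiplication by
variables and derivatives, shifts of the index. Left multiplication and the passage from symbols
to operators intertwine them.
-/

namespace Vale.Agent.P195.Gamma

open MvPolynomial Model

/-- Families of operators indexed by auxiliary monomials. -/
abbrev OpFam : Type := ℕ × ℕ → D

namespace OpFam

/-- Right multiplication by a variable. -/
noncomputable def Z (l : Fin 2) : OpFam →ₗ[ℚ] OpFam where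
  toFun w m := w m * mlt (X l)
  map_add' a b := _root_.funext fun m => add_mul (a m) (b m) _
  map_smul' c a := _root_.funext fun m => smul_mul_assoc c (a m) _

/-- Right multiplication by a derivative. -/
noncomputable def A (l : Fin 2) : OpFam →ₗ[ℚ] OpFam where
  toFun w m := w m * dd l
  map_add' a b := _root_.funext fun m => add_mul (a m) (b m) _
  map_smul' c a := _root_.funext fun m => smul_mul_assoc c (a m) _

/-- The entry of one exponent. -/
def ent (l : Fin 2) (m : ℕ × ℕ) : ℕ := if l = 0 then m.1 else m.2

/-- Raising one exponent. -/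
def up (l : Fin 2) (m : ℕ × ℕ) : ℕ × ℕ := if l = 0 then (m.1 + 1, m.2) else (m.1, m.2 + 1)

/-- Lowering one exponent. -/
def down (l : Fin 2) (m : ℕ × ℕ) : ℕ × ℕ := if l = 0 then (m.1 - 1, m.2) else (m.1, m.2 - 1)

/-- Multiplication by an auxiliary variable. -/
noncomputable def Y (l : Fin 2) : OpFam →ₗ[ℚ] OpFam where
  toFun w m := if ent l m = 0 then 0 else w (down l m)
  map_add' a b := _root_.funext fun m => by simp only [Pi.add_apply]; split_ifs <;> simp
  map_smul' c a := _root_.funext fun m => by
    simp only [Pi.smul_apply, RingHom.id_apply]; split_ifs <;> simp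

/-- The derivation in an auxiliary variable. -/
noncomputable def P (l : Fin 2) : OpFam →ₗ[ℚ] OpFam where
  toFun w m := ((ent l m + 1 : ℕ) : ℚ) • w (up l m)
  map_add' a b := _root_.funext fun m => by simp
  map_smul' c a := _root_.funext fun m => by
    simp only [Pi.smul_apply, RingHom.id_apply, smul_smul, mul_comm]

theorem Z_apply (l : Fin 2) (w : OpFam) (m : ℕ × ℕ) : Z l w m = w m * mlt (X l) := rfl

theorem A_apply (l : Fin 2) (w : OpFam) (m : ℕ × ℕ) : A l w m = w m * dd l := rfl

theorem Y_apply (l : Fin 2) (w : OpFam) (m : ℕ × ℕ) :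
    Y l w m = if ent l m = 0 then 0 else w (down l m) := rfl

theorem P_apply (l : Fin 2) (w : OpFam) (m : ℕ × ℕ) :
    P l w m = ((ent l m + 1 : ℕ) : ℚ) • w (up l m) := rfl

theorem dd_mul_X (a b : Fin 2) :
    dd a * mlt (X b) = mlt (X b) * dd a + if a = b then 1 else 0 := by
  rw [dd_mul_mlt]
  by_cases h : a = b
  · subst h; simp
  · simp [pderiv_X_of_ne (Ne.symm h), h]

theorem AZ (a b : Fin 2) (w : OpFam) : A a (Z b w) = Z b (A a w) - if a = b then w else 0 := by
  funext m
  rw [Pi.sub_apply, A_apply, Z_apply, Z_apply, A_apply, mul_assoc, mul_assoc, dd_mul_X, mul_add]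
  by_cases h : a = b <;> simp [h]

theorem PY (a b : Fin 2) (w : OpFam) : P a (Y b w) = Y b (P a w) + if a = b then w else 0 := by
  funext ⟨x, y⟩
  rw [Pi.add_apply, P_apply, Y_apply, Y_apply]
  fin_cases a <;> fin_cases b <;>
    simp [ent, up, down, P_apply] <;>
    first
      | (rcases x with _ | x <;> simp <;> push_cast <;> module)
      | (rcases y with _ | y <;> simp <;> push_cast <;> module)

theorem PP (a b : Fin 2) (w : OpFam) : P a (P b w) = P b (P a w) := by
  funext ⟨x, y⟩
  fin_cases a <;> fin_cases b <;> simp [P_apply, ent, up, smul_smul, mul_comm]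

theorem YY (a b : Fin 2) (w : OpFam) : Y a (Y b w) = Y b (Y a w) := by
  funext ⟨x, y⟩
  fin_cases a <;> fin_cases b <;> simp [Y_apply, ent, down] <;> split_ifs <;> rfl

theorem YZ (a b : Fin 2) (w : OpFam) : Y a (Z b w) = Z b (Y a w) := by
  funext m
  simp only [Y_apply, Z_apply]
  split_ifs <;> simp

theorem PZ (a b : Fin 2) (w : OpFam) : P a (Z b w) = Z b (P a w) := by
  funext m
  simp only [P_apply, Z_apply, smul_mul_assoc]

theorem AY (a b : Fin 2) (w : OpFam) : A a (Y b w) = Y b (A a w) := by
  funext m
  simp only [Y_apply, A_apply]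
  split_ifs <;> simp

theorem AP (a b : Fin 2) (w : OpFam) : A a (P b w) = P b (A a w) := by
  funext m
  simp only [P_apply, A_apply, smul_mul_assoc]

theorem ZZ (a b : Fin 2) (w : OpFam) : Z a (Z b w) = Z b (Z a w) := by
  funext m
  simp only [Z_apply, mul_assoc, mlt_comm]

theorem AA (a b : Fin 2) (w : OpFam) : A a (A b w) = A b (A a w) := by
  funext m
  simp only [A_apply, mul_assoc, dd_comm b a]

end OpFam

/-- The actions on families of operators. -/
noncomputable def opActs : Acts OpFam where
  Z := OpFam.Z
  A := OpFam.A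
  Y := OpFam.Y
  P := OpFam.P
  ZZ := OpFam.ZZ
  AA := OpFam.AA
  YY := OpFam.YY
  PP := OpFam.PP
  AZ := OpFam.AZ
  PY := OpFam.PY
  YZ := OpFam.YZ
  PZ := OpFam.PZ
  AY := OpFam.AY
  AP := OpFam.AP

/-- Left multiplication of a family by an operator. -/
noncomputable def lmulFam (x : D) : OpFam →ₗ[ℚ] OpFam where
  toFun w m := x * w m
  map_add' a b := _root_.funext fun m => mul_add x (a m) (b m)
  map_smul' c a := _root_.funext fun m => mul_smul_comm c x (a m)

theorem lmulFam_apply (x : D) (w : OpFam) (m : ℕ × ℕ) : lmulFam x w m = x * w m := rfl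

/-- Left multiplication intertwines the actions. -/
theorem lmulFam_inter (x : D) : opActs.Inter opActs (lmulFam x) where
  Z l w := _root_.funext fun _ => (mul_assoc _ _ _).symm
  A l w := _root_.funext fun _ => (mul_assoc _ _ _).symm
  Y l w := _root_.funext fun m => by
    show x * OpFam.Y l w m = OpFam.Y l (lmulFam x w) m
    simp only [OpFam.Y_apply, lmulFam_apply]
    split_ifs <;> simp
  P l w := _root_.funext fun m => mul_smul_comm _ _ _

namespace Symb

/-- The operators of a symbol, as a family. -/
noncomputable def opFam : R →ₗ[ℚ] OpFam where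
  toFun f m := op f m
  map_add' a b := _root_.funext fun m => by rw [map_add]; rfl
  map_smul' c a := _root_.funext fun m => by rw [map_smul]; rfl

theorem opFam_apply (f : R) (m : ℕ × ℕ) : opFam f m = op f m := rfl

theorem opFam_injective : Function.Injective opFam := fun f g h =>
  op_injective (Finsupp.ext fun m => congrFun h m)

theorem opFam_Z (l : Fin 2) (f : R) : opFam (zv l * f) = opActs.Z l (opFam f) :=
  _root_.funext fun m => op_zv_mul l f m

theorem opFam_A (l : Fin 2) (f : R) : opFam (A l f) = opActs.A l (opFam f) :=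
  _root_.funext fun m => op_A l f m

theorem opFam_Y (l : Fin 2) (f : R) : opFam (yv l * f) = opActs.Y l (opFam f) := by
  funext ⟨a, b⟩
  show op (yv l * f) (a, b) = OpFam.Y l (opFam f) (a, b)
  rw [OpFam.Y_apply]
  fin_cases l
  · rcases a with _ | a
    · simp [OpFam.ent, op_yv0_mul_zero]
    · simp [OpFam.ent, OpFam.down, op_yv0_mul, opFam_apply]
  · rcases b with _ | b
    · simp [OpFam.ent, op_yv1_mul_zero]
    · simp [OpFam.ent, OpFam.down, op_yv1_mul, opFam_apply]

theorem opFam_P (l : Fin 2) (f : R) : opFam (dy l f) = opActs.P l (opFam f) := by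
  funext ⟨a, b⟩
  show op (dy l f) (a, b) = OpFam.P l (opFam f) (a, b)
  rw [OpFam.P_apply]
  fin_cases l
  · simp [OpFam.ent, OpFam.up, op_dy0, opFam_apply]
  · simp [OpFam.ent, OpFam.up, op_dy1, opFam_apply]

end Symb

end Vale.Agent.P195.Gamma
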