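import Vale.Agent.P195.Gamma.OpActs
import Vale.Agent.P195.Model.Lev

/-!
Passage between rows over slots and families of operators: a linear formula commuting with left
multiplication is right multiplication by the matrix of its values on the unit rows.
-/

namespace Vale.Agent.P195.Gamma

open Model Matrix TrivSqZeroExt

/-- A placement of the components of slots into families of operators. -/
structure Shape {ι : Type} (g : ι → Fin 8) (C : Type) where
  /-- The component and auxiliary monomial of a slot entry. -/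
  pos : ∀ i, Fin (rk (g i)) → C × (ℕ × ℕ)
  inj : ∀ i i' s s', pos i s = pos i' s' → (⟨i, s⟩ : Σ i, Fin (rk (g i))) = ⟨i', s'⟩

namespace Shape

variable {ι κ C C' : Type} {g : ι → Fin 8} {h : κ → Fin 8}

/-- Rows over the slots. -/
abbrev Row (g : ι → Fin 8) : Type := ∀ i, Fin (rk (g i)) → D

variable [Fintype ι] [DecidableEq C]

/-- The family of a row. -/
noncomputable def enc (S : Shape g C) (x : Row g) : C → OpFam := fun c m =>
  ∑ p : Σ i, Fin (rk (g i)), if S.pos p.1 p.2 = (c, m) then x p.1 p.2 else 0

/-- The row of a family. -/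
def dec (S : Shape g C) (y : C → OpFam) : Row g := fun i s => y (S.pos i s).1 (S.pos i s).2

theorem dec_enc (S : Shape g C) (x : Row g) : S.dec (S.enc x) = x := by
  funext i s
  show ∑ p : Σ i, Fin (rk (g i)), _ = x i s
  rw [Finset.sum_eq_single (⟨i, s⟩ : Σ i, Fin (rk (g i))), if_pos rfl]
  · intro p _ hp
    exact if_neg fun e => hp (S.inj p.1 i p.2 s e)
  · intro hh; exact absurd (Finset.mem_univ _) hh

theorem enc_zero (S : Shape g C) : S.enc 0 = 0 := by
  funext c m
  simp [enc]

/-- Families supported on the slots are recovered from their rows. -/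
theorem enc_dec (S : Shape g C) (y : C → OpFam)
    (hy : ∀ c m, (∀ i s, S.pos i s ≠ (c, m)) → y c m = 0) : S.enc (S.dec y) = y := by
  funext c m
  by_cases hex : ∃ i s, S.pos i s = (c, m)
  · obtain ⟨i, s, e⟩ := hex
    have := congrFun (congrFun (S.dec_enc (S.dec y)) i) s
    simp only [dec, e] at this
    exact this
  · push Not at hex
    rw [hy c m hex]
    exact Finset.sum_eq_zero fun p _ => if_neg (hex p.1 p.2)

variable [DecidableEq ι]

/-- The unit row of a slot entry. -/
noncomputable def unit (i : ι) (s : Fin (rk (g i))) : Row g := fun i' s' =>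
  if (⟨i', s'⟩ : Σ i, Fin (rk (g i))) = ⟨i, s⟩ then 1 else 0

theorem enc_eq_sum (S : Shape g C) (x : Row g) :
    S.enc x = ∑ p : Σ i, Fin (rk (g i)), x p.1 p.2 • S.enc (unit p.1 p.2) := by
  funext c m
  rw [Finset.sum_apply, Finset.sum_apply]
  refine Finset.sum_congr rfl fun p _ => ?_
  show _ = x p.1 p.2 * S.enc (unit p.1 p.2) c m
  rw [enc, Finset.mul_sum, Finset.sum_eq_single p]
  · split_ifs <;> simp [unit]
  · intro q _ hq
    simp [unit, hq]
  · intro hh; exact absurd (Finset.mem_univ _) hh

variable [Fintype κ] [DecidableEq C']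

/-- The matrix of a formula on unit rows. -/
noncomputable def mat (S : Shape g C) (S' : Shape h C') (Φ : (C → OpFam) →ₗ[ℚ] (C' → OpFam))
    (i : ι) (k : κ) : Matrix (Fin (rk (g i))) (Fin (rk (h k))) D :=
  Matrix.of fun s r => S'.dec (Φ (S.enc (unit i s))) k r

omit [Fintype κ] [DecidableEq C'] in
/-- A formula commuting with left multiplication is given by its matrix. -/
theorem dec_map_enc (S : Shape g C) (S' : Shape h C') (Φ : (C → OpFam) →ₗ[ℚ] (C' → OpFam))
    (hΦ : ∀ (a : D) (y : C → OpFam), Φ (a • y) = a • Φ y) (x : Row g) (k : κ) :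
    S'.dec (Φ (S.enc x)) k = ∑ i, x i ᵥ* S.mat S' Φ i k := by
  funext r
  rw [enc_eq_sum, map_sum, Finset.sum_apply]
  simp only [dec, Finset.sum_apply]
  rw [Fintype.sum_sigma]
  refine Finset.sum_congr rfl fun i _ => ?_
  show _ = ∑ s, x i s * S.mat S' Φ i k s r
  refine Finset.sum_congr rfl fun s _ => ?_
  rw [hΦ]
  rfl

omit [Fintype κ] [DecidableEq C'] in
/-- The matrix preserves the lattices as soon as the formula does on single slots. -/
theorem mat_mem_Hom (S : Shape g C) (S' : Shape h C') (Φ : (C → OpFam) →ₗ[ℚ] (C' → OpFam))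
    (hΦ : ∀ (a : D) (y : C → OpFam), Φ (a • y) = a • Φ y) (t : ℤ) (i : ι) (k : κ)
    (H : ∀ (j b : ℤ), ∀ v ∈ (obj (g i)).M j b,
      S'.dec (Φ (S.enc (Pi.single i v))) k ∈ (obj (h k)).M j (b + t)) :
    S.mat S' Φ i k ∈ Hom t (obj (g i)) (obj (h k)) := by
  intro j b v hv
  have e := H j b v hv
  rw [dec_map_enc S S' Φ hΦ, Finset.sum_eq_single i] at e
  · rwa [Pi.single_eq_same] at e
  · intro i' _ hne
    rw [Pi.single_eq_of_ne hne, zero_vecMul]
  · intro hh; exact absurd (Finset.mem_univ _) hh

end Shape

/-- A block matrix on the lower level as an element. -/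
noncomputable def lowEl {u v : Fin 8} (T : H0 u v) : Gamma := single u v T 0

/-- A block matrix on the upper level as an element. -/
noncomputable def highEl {u v : Fin 8} (T : H1 u v) : Gamma := single u v 0 T

theorem blk_fst_lowEl {u v : Fin 8} (T : H0 u v) : blk u v (fst (lowEl T).val) = T.1 := by
  rw [lowEl, fst_single, blk_blkEmb_self]

theorem blk_snd_lowEl {u v : Fin 8} (T : H0 u v) : blk u v (snd (lowEl T).val) = 0 := by
  rw [lowEl, snd_single, blk_blkEmb_self]
  rfl

theorem blk_fst_highEl {u v : Fin 8} (T : H1 u v) : blk u v (fst (highEl T).val) = 0 := by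
  rw [highEl, fst_single, blk_blkEmb_self]
  rfl

theorem blk_snd_highEl {u v : Fin 8} (T : H1 u v) : blk u v (snd (highEl T).val) = T.1 := by
  rw [highEl, snd_single, blk_blkEmb_self]

end Vale.Agent.P195.Gamma
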