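import Vale.Agent.P195.Gamma.Shape

/-!
The slots of the resolution, the formulas on them as linear maps, and their auxiliary degrees.
-/

namespace Vale.Agent.P195.Gamma

open Model

namespace Slot

/-- The summands in position `(J, k)`. -/
@[reducible] def I : ℕ → ℕ → Type
  | 0, 0 => Unit
  | 0, 1 => Unit
  | 0, 2 => Fin 2
  | 0, 3 => Unit
  | 0, _ + 4 => Empty
  | _ + 1, 0 => Empty
  | j + 1, 1 => Fin (j + 1)
  | j + 1, 2 => Fin 2 × Fin (j + 2) ⊕ Fin j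
  | j + 1, 3 => Fin 2 × Fin (j + 1)
  | j + 1, 4 => Fin (j + 1)
  | _ + 1, _ + 5 => Empty

instance fintypeI : ∀ J k, Fintype (I J k)
  | 0, 0 | 0, 1 | 0, 2 | 0, 3 | 0, _ + 4 | _ + 1, 0 | _ + 1, 1 | _ + 1, 2 | _ + 1, 3
  | _ + 1, 4 | _ + 1, _ + 5 => inferInstance

instance decEqI : ∀ J k, DecidableEq (I J k)
  | 0, 0 | 0, 1 | 0, 2 | 0, 3 | 0, _ + 4 | _ + 1, 0 | _ + 1, 1 | _ + 1, 2 | _ + 1, 3
  | _ + 1, 4 | _ + 1, _ + 5 => inferInstance

/-- The vertex of a summand. -/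
@[reducible] def g : ∀ J k, I J k → Fin 8
  | 0, 0 => fun _ => 5
  | 0, 1 => fun _ => 6
  | 0, 2 => fun _ => 7
  | 0, 3 => fun _ => 5
  | 0, _ + 4 => fun _ => 5
  | _ + 1, 0 => fun _ => 0
  | _ + 1, 1 => fun _ => 2
  | _ + 1, 2 => fun
    | .inl _ => 1
    | .inr _ => 4
  | _ + 1, 3 => fun _ => 3
  | _ + 1, 4 => fun _ => 0
  | _ + 1, _ + 5 => fun _ => 0

/-- The components of the formulas in position `(J, k)`. -/
@[reducible] def C : ℕ → ℕ → Type
  | 0, 0 => Unit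
  | 0, 1 => Fin 2
  | 0, 2 => Fin 2
  | 0, 3 => Unit
  | 0, _ + 4 => Empty
  | _ + 1, 0 => Empty
  | _ + 1, 1 => Unit
  | _ + 1, 2 => Fin 2 ⊕ Fin 2
  | _ + 1, 3 => Fin 2 × Fin 2
  | _ + 1, 4 => Unit
  | _ + 1, _ + 5 => Empty

instance decEqC : ∀ J k, DecidableEq (C J k)
  | 0, 0 | 0, 1 | 0, 2 | 0, 3 | 0, _ + 4 | _ + 1, 0 | _ + 1, 1 | _ + 1, 2 | _ + 1, 3
  | _ + 1, 4 | _ + 1, _ + 5 => inferInstance

/-- The auxiliary degree of a component. -/
@[reducible] def q : ∀ J k, C J k → ℤ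
  | 0, _ => fun _ => 0
  | _ + 1, 0 => fun _ => 0
  | j + 1, 2 => fun
    | .inl _ => (j : ℤ) + 1
    | .inr _ => (j : ℤ) - 1
  | j + 1, 1 => fun _ => j
  | j + 1, 3 => fun _ => j
  | j + 1, 4 => fun _ => j
  | _ + 1, _ + 5 => fun _ => 0

/-- The place of a summand entry. -/
@[reducible] def pos : ∀ J k (i : I J k), Fin (rk (g J k i)) → C J k × (ℕ × ℕ)
  | 0, 0 => fun _ _ => ((), (0, 0))
  | 0, 1 => fun _ s => (s, (0, 0))
  | 0, 2 => fun i _ => (i, (0, 0))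
  | 0, 3 => fun _ _ => ((), (0, 0))
  | 0, _ + 4 => fun i _ => i.elim
  | _ + 1, 0 => fun i _ => i.elim
  | j + 1, 1 => fun i _ => ((), (i.1, j - i.1))
  | j + 1, 2 => fun
    | .inl p => fun _ => (.inl p.1, (p.2.1, j + 1 - p.2.1))
    | .inr m => fun s => (.inr s, (m.1, j - 1 - m.1))
  | j + 1, 3 => fun p s => ((p.1, s), (p.2.1, j - p.2.1))
  | j + 1, 4 => fun i _ => ((), (i.1, j - i.1))
  | _ + 1, _ + 5 => fun i _ => i.elim

theorem pos_inj : ∀ J k (i i' : I J k) (s : Fin (rk (g J k i))) (s' : Fin (rk (g J k i'))),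
    pos J k i s = pos J k i' s' → (⟨i, s⟩ : Σ i, Fin (rk (g J k i))) = ⟨i', s'⟩
  | 0, 0 => fun _ _ s s' _ => by
    obtain rfl : s = s' := Subsingleton.elim (α := Fin 1) s s'
    rfl
  | 0, 1 => fun _ _ s s' h => by
    obtain rfl : s = s' := congrArg Prod.fst h
    rfl
  | 0, 2 => fun i i' s s' h => by
    obtain rfl : i = i' := congrArg Prod.fst h
    obtain rfl : s = s' := Subsingleton.elim (α := Fin 1) s s'
    rfl
  | 0, 3 => fun _ _ s s' _ => by
    obtain rfl : s = s' := Subsingleton.elim (α := Fin 1) s s'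
    rfl
  | 0, _ + 4 => fun i => i.elim
  | _ + 1, 0 => fun i => i.elim
  | j + 1, 1 => fun i i' s s' h => by
    obtain rfl : i = i' := Fin.ext (congrArg (fun p => p.2.1) h)
    obtain rfl : s = s' := Subsingleton.elim (α := Fin 1) s s'
    rfl
  | j + 1, 2 => fun i i' s s' h => by
    rcases i with ⟨l, m⟩ | m <;> rcases i' with ⟨l', m'⟩ | m'
    · obtain rfl : l = l' := Sum.inl.inj (congrArg Prod.fst h)
      obtain rfl : m = m' := Fin.ext (congrArg (fun p => p.2.1) h)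
      obtain rfl : s = s' := Subsingleton.elim (α := Fin 1) s s'
      rfl
    · exact absurd (congrArg Prod.fst h) (by simp)
    · exact absurd (congrArg Prod.fst h) (by simp)
    · obtain rfl : m = m' := Fin.ext (congrArg (fun p => p.2.1) h)
      obtain rfl : s = s' := Sum.inr.inj (congrArg Prod.fst h)
      rfl
  | j + 1, 3 => fun ⟨l, m⟩ ⟨l', m'⟩ s s' h => by
    obtain rfl : l = l' := congrArg (fun p => p.1.1) h
    obtain rfl : m = m' := Fin.ext (congrArg (fun p => p.2.1) h)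
    obtain rfl : s = s' := congrArg (fun p => p.1.2) h
    rfl
  | j + 1, 4 => fun i i' s s' h => by
    obtain rfl : i = i' := Fin.ext (congrArg (fun p => p.2.1) h)
    obtain rfl : s = s' := Subsingleton.elim (α := Fin 1) s s'
    rfl
  | _ + 1, _ + 5 => fun i => i.elim

/-- The slots as a shape. -/
def shape (J k : ℕ) : Shape (g J k) (C J k) where
  pos := pos J k
  inj := pos_inj J k

/-- The slots cover the monomials of the right degree. -/
theorem pos_surj : ∀ J k (c : C J k) (m : ℕ × ℕ), ((m.1 + m.2 : ℕ) : ℤ) = q J k c →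
    ∃ i s, pos J k i s = (c, m) := by
  intro J k c m h
  obtain ⟨a, b⟩ := m
  match J, k, c, h with
  | 0, 0, c, h =>
    change ((a + b : ℕ) : ℤ) = 0 at h
    obtain ⟨rfl, rfl⟩ : a = 0 ∧ b = 0 := by omega
    exact ⟨(), (0 : Fin 1), rfl⟩
  | 0, 1, c, h =>
    change ((a + b : ℕ) : ℤ) = 0 at h
    obtain ⟨rfl, rfl⟩ : a = 0 ∧ b = 0 := by omega
    exact ⟨(), c, rfl⟩
  | 0, 2, c, h =>
    change ((a + b : ℕ) : ℤ) = 0 at h
    obtain ⟨rfl, rfl⟩ : a = 0 ∧ b = 0 := by omega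
    exact ⟨c, (0 : Fin 1), rfl⟩
  | 0, 3, c, h =>
    change ((a + b : ℕ) : ℤ) = 0 at h
    obtain ⟨rfl, rfl⟩ : a = 0 ∧ b = 0 := by omega
    exact ⟨(), (0 : Fin 1), rfl⟩
  | 0, _ + 4, c, h => exact c.elim
  | _ + 1, 0, c, h => exact c.elim
  | j + 1, 1, c, h =>
    simp only [q] at h
    refine ⟨⟨a, by omega⟩, (0 : Fin 1), ?_⟩
    simp only [pos, Prod.mk.injEq, true_and]
    omega
  | j + 1, 2, .inl l, h =>
    simp only [q] at h
    refine ⟨.inl (l, ⟨a, by omega⟩), (0 : Fin 1), ?_⟩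
    simp only [pos, Prod.mk.injEq, true_and]
    omega
  | j + 1, 2, .inr r, h =>
    simp only [q] at h
    refine ⟨.inr ⟨a, by omega⟩, r, ?_⟩
    simp only [pos, Prod.mk.injEq, true_and]
    omega
  | j + 1, 3, c, h =>
    simp only [q] at h
    refine ⟨(c.1, ⟨a, by omega⟩), c.2, ?_⟩
    simp only [pos, Prod.mk.injEq, true_and]
    omega
  | j + 1, 4, c, h =>
    simp only [q] at h
    refine ⟨⟨a, by omega⟩, (0 : Fin 1), ?_⟩
    simp only [pos, Prod.mk.injEq, true_and]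
    omega
  | _ + 1, _ + 5, c, h => exact c.elim

theorem pos_deg : ∀ J k (i : I J k) (s : Fin (rk (g J k i))),
    (((pos J k i s).2.1 + (pos J k i s).2.2 : ℕ) : ℤ) = q J k (pos J k i s).1 := by
  intro J k i s
  match J, k, i, s with
  | 0, 0, i, s => simp [q]
  | 0, 1, i, s => simp [q]
  | 0, 2, i, s => simp [q]
  | 0, 3, i, s => simp [q]
  | 0, _ + 4, i, s => exact i.elim
  | _ + 1, 0, i, s => exact i.elim
  | j + 1, 1, i, s => have := i.2; simp only [q, pos]; omega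
  | j + 1, 2, .inl p, s => have := p.2.2; simp only [q, pos]; omega
  | j + 1, 2, .inr i, s => have := i.2; simp only [q, pos]; omega
  | j + 1, 3, p, s => have := p.2.2; simp only [q, pos]; omega
  | j + 1, 4, i, s => have := i.2; simp only [q, pos]; omega
  | _ + 1, _ + 5, i, s => exact i.elim

end Slot

/-! ### Auxiliary degree of a family -/

theorem OpFam.euler_apply (w : OpFam) (m : ℕ × ℕ) :
    (opActs.Y 0 (opActs.P 0 w) + opActs.Y 1 (opActs.P 1 w)) m = ((m.1 + m.2 : ℕ) : ℚ) • w m := by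
  obtain ⟨a, b⟩ := m
  show OpFam.Y 0 (OpFam.P 0 w) (a, b) + OpFam.Y 1 (OpFam.P 1 w) (a, b) = _
  simp only [OpFam.Y_apply, OpFam.P_apply, OpFam.ent, OpFam.up, OpFam.down]
  rcases a with _ | a <;> rcases b with _ | b <;> simp <;> module

theorem OpFam.deg_iff (d : ℚ) (w : OpFam) :
    opActs.Deg d w ↔ ∀ m : ℕ × ℕ, ((m.1 + m.2 : ℕ) : ℚ) ≠ d → w m = 0 := by
  constructor
  · intro h m hm
    have e := congrFun h m
    rw [OpFam.euler_apply, Pi.smul_apply] at e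
    refine LinearMap.ext fun p => ?_
    have e' := LinearMap.congr_fun e p
    rw [LinearMap.smul_apply, LinearMap.smul_apply] at e'
    have : (((m.1 + m.2 : ℕ) : ℚ) - d) • (w m p) = 0 := by rw [sub_smul, e', sub_self]
    exact (smul_eq_zero.1 this).resolve_left (sub_ne_zero.2 hm)
  · intro h
    funext m
    rw [OpFam.euler_apply, Pi.smul_apply]
    by_cases hm : ((m.1 + m.2 : ℕ) : ℚ) = d
    · rw [hm]
    · rw [h m hm, smul_zero, smul_zero]

namespace Slot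

/-- Families of the auxiliary degrees of the slots. -/
def Good (J k : ℕ) (y : C J k → OpFam) : Prop := ∀ c, opActs.Deg (q J k c : ℚ) (y c)

theorem good_enc (J k : ℕ) (x : Shape.Row (g J k)) : Good J k ((shape J k).enc x) := by
  intro c
  rw [OpFam.deg_iff]
  intro m hm
  refine Finset.sum_eq_zero fun p _ => if_neg fun e => hm ?_
  have := pos_deg J k p.1 p.2
  rw [show pos J k p.1 p.2 = (c, m) from e] at this
  rw [← Int.cast_natCast, this]

theorem enc_dec (J k : ℕ) (y : C J k → OpFam) (hy : Good J k y) :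
    (shape J k).enc ((shape J k).dec y) = y := by
  refine Shape.enc_dec _ y fun c m hno => ?_
  refine (OpFam.deg_iff _ _).1 (hy c) m fun e => ?_
  obtain ⟨i, s, hp⟩ := pos_surj J k c m (by exact_mod_cast e)
  exact hno i s hp

/-- A family with values commuting with left multiplication. -/
def LeftLin {C C' : Type} (Φ : (C → OpFam) →ₗ[ℚ] (C' → OpFam)) : Prop :=
  ∀ (a : D) (y : C → OpFam), Φ (a • y) = a • Φ y

/-- The Koszul map of the variables. -/
noncomputable def kz : OpFam →ₗ[ℚ] (Fin 2 → OpFam) :=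
  LinearMap.pi ![opActs.Z 1, -opActs.Z 0]

/-- The contraction with the variables, as a linear map. -/
noncomputable def zPL : (Fin 2 → OpFam) →ₗ[ℚ] OpFam :=
  opActs.Z 0 ∘ₗ LinearMap.proj 0 + opActs.Z 1 ∘ₗ LinearMap.proj 1

/-- The curl of the derivatives. -/
noncomputable def curl : (Fin 2 → OpFam) →ₗ[ℚ] OpFam :=
  opActs.A 1 ∘ₗ LinearMap.proj 0 - opActs.A 0 ∘ₗ LinearMap.proj 1

/-- Two indices as nested families. -/
noncomputable def cur : (Fin 2 × Fin 2 → OpFam) →ₗ[ℚ] (Fin 2 → Fin 2 → OpFam) :=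
  LinearMap.pi fun l => LinearMap.pi fun r => LinearMap.proj (l, r)

/-- Nested families as two indices. -/
noncomputable def unc : (Fin 2 → Fin 2 → OpFam) →ₗ[ℚ] (Fin 2 × Fin 2 → OpFam) :=
  LinearMap.pi fun p => LinearMap.proj p.2 ∘ₗ LinearMap.proj p.1

/-- A sum index as a pair. -/
noncomputable def split : (Fin 2 ⊕ Fin 2 → OpFam) →ₗ[ℚ] (Fin 2 → OpFam) × (Fin 2 → OpFam) :=
  (LinearMap.pi fun l => LinearMap.proj (.inl l)).prod (LinearMap.pi fun l => LinearMap.proj (.inr l))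

/-- A pair as a sum index. -/
noncomputable def merge : (Fin 2 → OpFam) × (Fin 2 → OpFam) →ₗ[ℚ] (Fin 2 ⊕ Fin 2 → OpFam) :=
  LinearMap.pi fun
    | .inl l => LinearMap.proj l ∘ₗ LinearMap.fst ℚ _ _
    | .inr l => LinearMap.proj l ∘ₗ LinearMap.snd ℚ _ _

/-- The differentials. -/
noncomputable def dF : ∀ J k, (C J (k + 1) → OpFam) →ₗ[ℚ] (C J k → OpFam)
  | 0, 0 => LinearMap.pi fun _ => zPL
  | 0, 1 => kz ∘ₗ curl
  | 0, 2 => LinearMap.pi fun l => opActs.A l ∘ₗ LinearMap.proj ()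
  | 0, _ + 3 => 0
  | _ + 1, 0 => 0
  | j + 1, 1 => LinearMap.pi fun _ => opActs.d1L j ∘ₗ split
  | j + 1, 2 => merge ∘ₗ opActs.d2L j ∘ₗ cur
  | j + 1, 3 => unc ∘ₗ opActs.d3L j ∘ₗ LinearMap.proj ()
  | _ + 1, _ + 4 => 0

/-- The comparison maps, without signs. -/
noncomputable def fF0 : ∀ J k, (C (J + 1) k → OpFam) →ₗ[ℚ] (C J k → OpFam)
  | 0, 0 => 0
  | 0, 1 => kz ∘ₗ LinearMap.proj ()
  | 0, 2 => LinearMap.pi fun l => opActs.T ∘ₗ LinearMap.proj (Sum.inl l)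
  | 0, 3 => LinearMap.pi fun _ => -(opActs.Z 0 ∘ₗ zPL ∘ₗ LinearMap.proj 0 ∘ₗ cur +
      opActs.Z 1 ∘ₗ zPL ∘ₗ LinearMap.proj 1 ∘ₗ cur)
  | 0, _ + 4 => 0
  | _ + 1, 0 => 0
  | J + 1, 1 => LinearMap.pi fun _ => (((J : ℚ) + 2) * Acts.cj J) • (opActs.T ∘ₗ LinearMap.proj ())
  | J + 1, 2 => merge ∘ₗ opActs.f1L J ∘ₗ split
  | _ + 1, 3 => unc ∘ₗ opActs.f2L ∘ₗ cur
  | _ + 1, 4 => LinearMap.pi fun _ => opActs.T ∘ₗ LinearMap.proj ()
  | _ + 1, _ + 5 => 0

/-- The comparison maps. -/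
noncomputable def fF (J k : ℕ) : (C (J + 1) k → OpFam) →ₗ[ℚ] (C J k → OpFam) :=
  ((-1 : ℚ) ^ k) • fF0 J k

end Slot

end Vale.Agent.P195.Gamma
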