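import Vale.Agent.P195.Gamma.Sym
import Vale.Agent.P195.Gamma.Complex

/-!
The eight actions on symbols, on the operator families of the components, and the augmentation.
-/

namespace Vale.Agent.P195.Gamma.Symb

open MvPolynomial Model

/-- The actions on symbols. -/
noncomputable def acts : Acts R where
  Z l := LinearMap.mulLeft ℚ (zv l)
  A := A
  Y l := LinearMap.mulLeft ℚ (yv l)
  P := dy
  ZZ a b w := mul_left_comm (zv a) (zv b) w
  AA := A_comm
  YY a b w := mul_left_comm (yv a) (yv b) w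
  PP _ _ w := pderiv_comm' _ _ w
  AZ := A_zv_mul
  PY := dy_yv_mul
  YZ a b w := mul_left_comm (yv a) (zv b) w
  PZ := dy_zv_mul
  AY := A_yv_mul
  AP := A_dy

theorem acts_Z (l : Fin 2) (f : R) : acts.Z l f = zv l * f := rfl

theorem acts_A (l : Fin 2) (f : R) : acts.A l f = A l f := rfl

theorem acts_Y (l : Fin 2) (f : R) : acts.Y l f = yv l * f := rfl

theorem acts_P (l : Fin 2) (f : R) : acts.P l f = dy l f := rfl

theorem acts_T (f : R) : acts.T f = T f := rfl

theorem acts_io (r : Fin 2) (f : R) : acts.io r f = iota f r := by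
  fin_cases r <;> simp [Acts.io, iota, acts_Y]

theorem acts_zP (P : Fin 2 → R) : acts.zP P = zc P := rfl

theorem deg_of_mem_Y {q : ℤ} {f : R} (hf : f ∈ Y q) : acts.Deg (q : ℚ) f := euler_Y hf

theorem deg_of_mem {d t q : ℤ} {f : R} (hf : f ∈ S d t q) : acts.Deg (q : ℚ) f := euler hf

/-- The augmentation moves the right variables and derivatives onto the auxiliary ones. -/
theorem aug : acts.Aug app where
  Z l w := by
    rw [acts_Z, acts_Y, ← app_res, ← app_res (yv l * w)]
    simp [res_zv, res_yv]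
  A l w := app_A_gen l w

theorem acts_deg {d t q : ℤ} {f : R} (hf : f ∈ S d t q) : acts.Deg (q : ℚ) f := euler hf

theorem acts_deg_nat {d t : ℤ} {j : ℕ} {f : R} (hf : f ∈ S d t j) : acts.Deg (j : ℚ) f := by
  simpa using deg_of_mem hf

theorem acts_aug : acts.Aug app := aug

/-- Left multiplication on the operators of the components. -/
noncomputable def lmulOp (g : D) : (ℕ × ℕ →₀ D) →ₗ[ℚ] (ℕ × ℕ →₀ D) :=
  Finsupp.mapRange.linearMap (LinearMap.mulLeft ℚ g)

theorem lmulOp_apply (g : D) (F : ℕ × ℕ →₀ D) (m : ℕ × ℕ) : lmulOp g F m = g * F m := rfl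

/-- Symbols whose components differ by a left factor stay so under every action. -/
theorem lmul_acts {g : D} {f f' : R} (h : op f' = lmulOp g (op f)) (l : Fin 2) :
    op (zv l * f') = lmulOp g (op (zv l * f)) ∧ op (A l f') = lmulOp g (op (A l f)) ∧
      op (yv l * f') = lmulOp g (op (yv l * f)) ∧ op (dy l f') = lmulOp g (op (dy l f)) := by
  refine ⟨?_, ?_, ?_, ?_⟩ <;> refine Finsupp.ext fun m => ?_ <;> rw [lmulOp_apply]
  · rw [op_zv_mul, op_zv_mul, h, lmulOp_apply, mul_assoc]
  · rw [op_A, op_A, h, lmulOp_apply, mul_assoc]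
  · rw [op_yv_mul, op_yv_mul, h]
    simp only [lmulOp_apply]
    split_ifs <;> simp
  · obtain ⟨a, b⟩ := m
    rw [op_dy, op_dy, h, lmulOp_apply, mul_smul_comm]

/-- The augmentation only depends on the components. -/
theorem app_lmul {g : D} {f f' : R} (h : op f' = lmulOp g (op f)) : app f' = g (app f) := by
  show (Finsupp.lsum ℚ fun m : ℕ × ℕ => LinearMap.applyₗ (R := ℚ) (zmon m)) (op f') = g _
  rw [h, app, LinearMap.comp_apply, lmulOp, Finsupp.mapRange.linearMap_apply,
    Finsupp.lsum_apply, Finsupp.lsum_apply, Finsupp.sum_mapRange_index (by simp)]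
  rw [Finsupp.sum, Finsupp.sum, map_sum]
  rfl

/-- A left factor of bounded order and weight can be moved to the symbol. -/
theorem exists_lmul {d t d' t' q : ℤ} {g : D} (hg : g ∈ Ord d' t') {f : R} (hf : f ∈ S d t q) :
    ∃ f' ∈ S (d' + d) (t' + t) q, op f' = lmulOp g (op f) := by
  classical
  have hex : ∀ m : ℕ × ℕ, ∃ G ∈ Model.Sym (d' + d) (t' + t), ant G = g * op f m ∧
      (op f m = 0 → G = 0) := by
    intro m
    by_cases h : op f m = 0
    · exact ⟨0, zero_mem _, by rw [h, mul_zero, map_zero], fun _ => rfl⟩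
    · obtain ⟨G, hG, e⟩ := (SetLike.ext_iff.1 (map_ant_Sym _ _) _).2 (Ord_mul hg (op_mem hf m))
      exact ⟨G, hG, e, fun h' => absurd h' h⟩
  choose G hG hGe hG0 using hex
  let F : ℕ × ℕ →₀ ℕ × ℕ →₀ Pol := Finsupp.onFinset (op f).support G fun m hm =>
    Finsupp.mem_support_iff.2 fun h => hm (hG0 m h)
  refine ⟨join F, join_mem (fun m => hG m) (fun m hm => hG0 m (op_eq_zero hf hm)), ?_⟩
  refine Finsupp.ext fun m => ?_
  rw [lmulOp_apply, op_apply, split_join, ← hGe]
  rfl

end Vale.Agent.P195.Gamma.Symb
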