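import Mathlib

/-!
Exactness of the total complex of a family of complexes linked by level-raising maps.

Each total piece carries two levels `K` and `X`; the differential keeps the level and the linking
maps go from level `K` to level `X`, so the total complex is made of the mapping cones.
-/

namespace Vale.Agent.P195.Gamma.Total

open Finset

variable {K X : ℕ → ℕ → Type*} [∀ J k, AddCommGroup (K J k)] [∀ J k, AddCommGroup (X J k)]

/-- The pairs of indices in a given total degree. -/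
abbrev Idx (n : ℕ) : Type := {p : ℕ × ℕ // p ∈ antidiagonal n}

theorem Idx.sum {n : ℕ} (p : Idx n) : p.1.1 + p.1.2 = n := mem_antidiagonal.1 p.2

/-- An index from its two entries. -/
@[reducible] def Idx.mk' {n : ℕ} (J k : ℕ) (h : J + k = n) : Idx n := ⟨(J, k), mem_antidiagonal.2 h⟩

/-- A total piece. -/
abbrev T (K X : ℕ → ℕ → Type*) (n : ℕ) : Type _ := ∀ p : Idx n, K p.1.1 p.1.2 × X p.1.1 p.1.2

/-! ### Homological direction -/

section Chain

variable (dK : ∀ J k, K J (k + 1) →+ K J k) (dX : ∀ J k, X J (k + 1) →+ X J k)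
  (φ : ∀ J k, K (J + 1) k →+ X J k)

/-- The total differential. -/
def d (n : ℕ) : T K X (n + 1) →+ T K X n where
  toFun a p :=
    (dK p.1.1 p.1.2 (a (Idx.mk' p.1.1 (p.1.2 + 1) (by have := p.sum; omega))).1,
      dX p.1.1 p.1.2 (a (Idx.mk' p.1.1 (p.1.2 + 1) (by have := p.sum; omega))).2 +
        φ p.1.1 p.1.2 (a (Idx.mk' (p.1.1 + 1) p.1.2 (by have := p.sum; omega))).1)
  map_zero' := by funext p; simp
  map_add' a b := by
    funext p
    simp only [Pi.add_apply, Prod.fst_add, Prod.snd_add, map_add, Prod.mk_add_mk, Prod.mk.injEq,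
      true_and]
    abel

/-- The conditions on the rows and cones. -/
structure ConeExact : Prop where
  bot : ∀ J (c : X J 0), ∃ (b : K (J + 1) 0) (e : X J 1), dX J 0 e + φ J 0 b = c
  low : ∀ J (b : K (J + 1) 0) (c : X J 1), dX J 0 c + φ J 0 b = 0 →
    ∃ (b' : K (J + 1) 1) (c' : X J 2), dK (J + 1) 0 b' = b ∧ dX J 1 c' + φ J 1 b' = c
  high : ∀ J k (b : K (J + 1) (k + 1)) (c : X J (k + 2)), dK (J + 1) k b = 0 →
    dX J (k + 1) c + φ J (k + 1) b = 0 → ∃ (b' : K (J + 1) (k + 2)) (c' : X J (k + 3)),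
      dK (J + 1) (k + 1) b' = b ∧ dX J (k + 2) c' + φ J (k + 2) b' = c
  row : ∀ k (a : K 0 (k + 1)), dK 0 k a = 0 → ∃ a' : K 0 (k + 2), dK 0 (k + 1) a' = a

variable {dK dX φ}

theorem exact_succ (H : ConeExact dK dX φ) {n : ℕ} (a : T K X (n + 1)) (ha : d dK dX φ n a = 0) :
    ∃ b : T K X (n + 2), d dK dX φ (n + 1) b = a := by
  have e : ∀ J k (h : J + k = n), dK J k (a (Idx.mk' J (k + 1) (by omega))).1 = 0 ∧
      dX J k (a (Idx.mk' J (k + 1) (by omega))).2 +
        φ J k (a (Idx.mk' (J + 1) k (by omega))).1 = 0 := fun J k h =>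
    ⟨congrArg Prod.fst (congrFun ha (Idx.mk' J k h)), congrArg Prod.snd (congrFun ha (Idx.mk' J k h))⟩
  -- the pieces of the preimage, cone by cone
  have cone : ∀ J k (h : J + k = n), ∃ (b' : K (J + 1) (k + 1)) (c' : X J (k + 2)),
      dK (J + 1) k b' = (a (Idx.mk' (J + 1) k (by omega))).1 ∧
        dX J (k + 1) c' + φ J (k + 1) b' = (a (Idx.mk' J (k + 1) (by omega))).2 := by
    intro J k h
    rcases k with _ | k
    · exact H.low J _ _ (e J 0 h).2
    · exact H.high J k _ _ (e (J + 1) k (by omega)).1 (e J (k + 1) h).2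
  choose B C hB hC using cone
  obtain ⟨a', ha'⟩ := H.row n (a (Idx.mk' 0 (n + 1) (by omega))).1 (e 0 n (by omega)).1
  obtain ⟨b₀, e₀, hb₀⟩ := H.bot (n + 1) (a (Idx.mk' (n + 1) 0 (by omega))).2
  let bK : ∀ J k, J + k = n + 2 → K J k := fun J k =>
    match J, k with
    | 0, k => fun h => (show n + 2 = k by omega) ▸ a'
    | J + 1, 0 => fun h => (show n + 1 = J by omega) ▸ b₀
    | J + 1, k + 1 => fun h => B J k (by omega)
  let bX : ∀ J k, J + k = n + 2 → X J k := fun J k =>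
    match k with
    | 0 => fun _ => 0
    | 1 => fun h => (show n + 1 = J by omega) ▸ e₀
    | k + 2 => fun h => C J k (by omega)
  refine ⟨fun p => (bK p.1.1 p.1.2 p.sum, bX p.1.1 p.1.2 p.sum), ?_⟩
  funext ⟨⟨J, k⟩, hp⟩
  have h : J + k = n + 1 := mem_antidiagonal.1 hp
  refine Prod.ext ?_ ?_
  · show dK J k (bK J (k + 1) _) = _
    rcases J with _ | J
    · obtain rfl : k = n + 1 := by omega
      exact ha'
    · exact hB J k (by omega)
  · show dX J k (bX J (k + 1) _) + φ J k (bK (J + 1) k _) = _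
    rcases k with _ | k
    · obtain rfl : J = n + 1 := by omega
      exact hb₀
    · exact hC J k (by omega)

theorem exact_zero (H : ConeExact dK dX φ) {M : Type*} [AddCommGroup M] (ε : K 0 0 →+ M)
    (hker : ∀ a, ε a = 0 → ∃ a' : K 0 1, dK 0 0 a' = a) (a : T K X 0)
    (ha : ε (a (Idx.mk' 0 0 rfl)).1 = 0) : ∃ b : T K X 1, d dK dX φ 0 b = a := by
  obtain ⟨a', ha'⟩ := hker _ ha
  obtain ⟨b₀, e₀, hb₀⟩ := H.bot 0 (a (Idx.mk' 0 0 rfl)).2
  let bK : ∀ J k, J + k = 1 → K J k := fun J k =>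
    match J with
    | 0 => fun h => (show 1 = k by omega) ▸ a'
    | J + 1 => fun h => (show 0 = J by omega) ▸ (show 0 = k by omega) ▸ b₀
  let bX : ∀ J k, J + k = 1 → X J k := fun J k =>
    match k with
    | 0 => fun _ => 0
    | k + 1 => fun h => (show 0 = J by omega) ▸ (show 0 = k by omega) ▸ e₀
  refine ⟨fun p => (bK p.1.1 p.1.2 p.sum, bX p.1.1 p.1.2 p.sum), ?_⟩
  funext ⟨⟨J, k⟩, hp⟩
  have h : J + k = 0 := mem_antidiagonal.1 hp
  obtain ⟨rfl, rfl⟩ : J = 0 ∧ k = 0 := by omega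
  exact Prod.ext ha' hb₀

end Chain

/-! ### Cohomological direction -/

section Cochain

variable (δK : ∀ J k, K J k →+ K J (k + 1)) (δX : ∀ J k, X J k →+ X J (k + 1))
  (ψ : ∀ J k, K J k →+ X (J + 1) k)

/-- The conditions on the rows and cones of the dual complex. -/
structure CoconeExact : Prop where
  bot : ∀ J (b : K J 0), δK J 0 b = 0 → ψ J 0 b = 0 → b = 0
  low : ∀ J (b : K J 1) (c : X (J + 1) 0), δK J 1 b = 0 → δX (J + 1) 0 c + ψ J 1 b = 0 →
    ∃ b' : K J 0, δK J 0 b' = b ∧ ψ J 0 b' = c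
  high : ∀ J k (b : K J (k + 2)) (c : X (J + 1) (k + 1)), δK J (k + 2) b = 0 →
    δX (J + 1) (k + 1) c + ψ J (k + 2) b = 0 → ∃ (b' : K J (k + 1)) (c' : X (J + 1) k),
      δK J (k + 1) b' = b ∧ δX (J + 1) k c' + ψ J (k + 1) b' = c
  row : ∀ k (c : X 0 (k + 1)), δX 0 (k + 1) c = 0 → ∃ c' : X 0 k, δX 0 k c' = c

/-- A cocycle of the total dual complex, component by component. -/
def Cocycle (n : ℕ) (a : T K X n) : Prop :=
  ∀ p : Idx n, δK p.1.1 p.1.2 (a p).1 = 0 ∧
    (p.1.2 = 0 → ψ p.1.1 p.1.2 (a p).1 = 0) ∧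
    (p.1.1 = 0 → δX p.1.1 p.1.2 (a p).2 = 0) ∧
    ∀ (J k : ℕ) (h : J + (k + 1) = n),
      δX (J + 1) k (a (Idx.mk' (J + 1) k (by omega))).2 +
        ψ J (k + 1) (a (Idx.mk' J (k + 1) h)).1 = 0

variable {δK δX ψ}

theorem coexact (H : CoconeExact δK δX ψ) {n : ℕ} (a : T K X (n + 1))
    (ha : Cocycle δK δX ψ (n + 1) a) :
    ∃ b : T K X n,
      (∀ (J k : ℕ) (h : J + (k + 1) = n + 1),
        (a (Idx.mk' J (k + 1) h)).1 = δK J k (b (Idx.mk' J k (by omega))).1) ∧
      (a (Idx.mk' (n + 1) 0 rfl)).1 = 0 ∧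
      (∀ (k : ℕ) (h : k = n), (a (Idx.mk' 0 (k + 1) (by omega))).2 =
        δX 0 k (b (Idx.mk' 0 k (by omega))).2) ∧
      (∀ (J k : ℕ) (h : J + 1 + (k + 1) = n + 1), (a (Idx.mk' (J + 1) (k + 1) h)).2 =
        δX (J + 1) k (b (Idx.mk' (J + 1) k (by omega))).2 +
          ψ J (k + 1) (b (Idx.mk' J (k + 1) (by omega))).1) ∧
      (a (Idx.mk' (n + 1) 0 rfl)).2 = ψ n 0 (b (Idx.mk' n 0 rfl)).1 := by
  obtain ⟨c₀, hc₀⟩ := H.row n (a (Idx.mk' 0 (n + 1) (by omega))).2
    ((ha (Idx.mk' 0 (n + 1) (by omega))).2.2.1 rfl)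
  have top : ∀ J (h : J = n), ∃ b' : K J 0,
      δK J 0 b' = (a (Idx.mk' J 1 (by omega))).1 ∧
        ψ J 0 b' = (a (Idx.mk' (J + 1) 0 (by omega))).2 := fun J h =>
    H.low J _ _ (ha (Idx.mk' J 1 (by omega))).1
      ((ha (Idx.mk' J 1 (by omega))).2.2.2 J 0 (by omega))
  have cone : ∀ J k (h : J + 1 + k = n), ∃ (b' : K J (k + 1)) (c' : X (J + 1) k),
      δK J (k + 1) b' = (a (Idx.mk' J (k + 2) (by omega))).1 ∧
        δX (J + 1) k c' + ψ J (k + 1) b' = (a (Idx.mk' (J + 1) (k + 1) (by omega))).2 := fun J k h =>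
    H.high J k _ _ (ha (Idx.mk' J (k + 2) (by omega))).1
      ((ha (Idx.mk' J (k + 2) (by omega))).2.2.2 J (k + 1) (by omega))
  choose B₀ hB₀ hC₀ using top
  choose B C hB hC using cone
  let bK : ∀ J k, J + k = n → K J k := fun J k =>
    match k with
    | 0 => fun h => B₀ J (by omega)
    | k + 1 => fun h => B J k (by omega)
  let bX : ∀ J k, J + k = n → X J k := fun J k =>
    match J with
    | 0 => fun h => (show n = k by omega) ▸ c₀
    | J + 1 => fun h => C J k (by omega)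
  refine ⟨fun p => (bK p.1.1 p.1.2 p.sum, bX p.1.1 p.1.2 p.sum), ?_, ?_, ?_, ?_, ?_⟩
  · intro J k h
    rcases k with _ | k
    · exact (hB₀ J (by omega)).symm
    · exact (hB J k (by omega)).symm
  · exact H.bot _ _ (ha _).1 ((ha (Idx.mk' (n + 1) 0 rfl)).2.1 rfl)
  · intro k h
    subst h
    exact hc₀.symm
  · intro J k h
    exact (hC J k (by omega)).symm
  · exact (hC₀ n rfl).symm

end Cochain

end Vale.Agent.P195.Gamma.Total
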